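import Vale.Agent.P363.Ext.StepSpec

/-!
P363, Kohn-Sham side: profiles converge along the parabolas uniformly on the plane, and the density
on the plane is of order `r⁻⁶ G²`, so some limit is not zero.
-/

noncomputable section

namespace Vale.Agent.P363.Ext

open MeasureTheory Filter Set
open scoped BigOperators Topology

/-- Profiles follow multiples of the degree eight profile, uniformly on the plane. -/
def ProfileAsympStmt : Prop :=
  ∀ S : Setup, ∀ ε : ℝ, 0 < ε → ∃ R : ℝ, ∀ (ν : ℝ) (f : Space → ℝ), Profile S ν f →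
    ∃ γ : ℝ, (∀ s : ℝ, 0 ≤ s →
        Tendsto (fun r : ℝ => r ^ 4 * red S.a S.k f r (s / Real.sqrt r)) atTop
          (𝓝 (γ * Caloric.profile8 (s ^ 2 / S.κ)))) ∧
      ∀ r : ℝ, R ≤ r → |r ^ 4 * red S.a S.k f r 0 - γ| ≤ ε

namespace Setup

variable (S : Setup)

/-- The plane point at radius `r`. -/
lemma pt_zero {r : ℝ} (hr : 0 < r) :
    height (pt r 0) = 0 ∧ ‖pt r 0‖ = r ∧ mirror (pt r 0) = pt r 0 := by
  have h : height (pt r 0) = 0 := by simp [height, pt]
  refine ⟨h, ?_, by simp [mirror, h]⟩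
  simp [EuclideanSpace.norm_eq, pt, Fin.sum_univ_three, Real.sqrt_sq hr.le]

/-- A profile with zero limit on the plane. -/
lemma limit_zero_of_single {κ : ℝ} {s : Finset ℕ} {α : ℕ → ℝ}
    (hall : ∀ j, Tendsto (fun r : ℝ => r ^ 4 * red S.a S.k (S.ψ j) r 0) atTop (𝓝 0))
    {γ : ℝ} (hγ : ∀ t : ℝ, 0 ≤ t → Tendsto
      (fun r : ℝ => r ^ 4 * red S.a S.k (fun x => ∑ j ∈ s, α j * S.ψ j x) r (t / Real.sqrt r))
      atTop (𝓝 (γ * Caloric.profile8 (t ^ 2 / κ)))) : γ = 0 := by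
  have h0 := hγ 0 le_rfl
  simp only [zero_div, Caloric.profile8, ne_eq, OfNat.ofNat_ne_zero, not_false_eq_true, zero_pow,
    mul_zero, sub_zero, add_zero, mul_one] at h0
  have h1 : Tendsto (fun r : ℝ => r ^ 4 * red S.a S.k (fun x => ∑ j ∈ s, α j * S.ψ j x) r 0)
      atTop (𝓝 0) := by
    have h2 := tendsto_finsetSum s fun j _ => (hall j).const_mul (α j)
    simp only [mul_zero, Finset.sum_const_zero] at h2
    refine h2.congr fun r => ?_
    simp only [red, Finset.sum_div, Finset.mul_sum]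
    exact Finset.sum_congr rfl fun j _ => by ring
  exact tendsto_nhds_unique h0 h1

end Setup

/-- Some profile has a nonzero limit. -/
theorem asymp_of (hG : GroundStmt) (hA : ProfileAsympStmt) : AsympStmt := by
  intro S
  by_contra hne
  push Not at hne
  -- all single limits vanish
  have hall : ∀ j, Tendsto (fun r : ℝ => r ^ 4 * red S.a S.k (S.ψ j) r 0) atTop (𝓝 0) := by
    intro j
    obtain ⟨R, hR⟩ := hA S 1 one_pos
    obtain ⟨γ, hγ, -⟩ := hR (S.ν j) (S.ψ j)
      ⟨{j}, fun _ => 1, by simp, by simp, by simp⟩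
    rcases eq_or_ne γ 0 with h | h
    · simpa [h, zero_div] using hγ 0 le_rfl
    · obtain ⟨t, ht, hnot⟩ := hne j γ h
      exact (hnot (hγ t ht)).elim
  have hc := S.data.c_pos
  set ε : ℝ := S.c / 2 with hε
  have hε0 : 0 < ε := by positivity
  obtain ⟨R, hR⟩ := hA S ε hε0
  obtain ⟨B, δ, Rg, hδ, hB⟩ := hG S 4
  -- a large radius
  set r : ℝ := max (max R Rg) (max (S.R₁ + 1) (1 + 3 * |B| / S.c)) with hr
  have hrR : R ≤ r := (le_max_left _ _).trans (le_max_left _ _)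
  have hrg : Rg ≤ r := (le_max_right _ _).trans (le_max_left _ _)
  have hr1 : S.R₁ + 1 ≤ r := (le_max_left _ _).trans (le_max_right _ _)
  have hrB : 1 + 3 * |B| / S.c ≤ r := (le_max_right _ _).trans (le_max_right _ _)
  have hr0 : 0 < r := lt_of_lt_of_le (by positivity) hrB
  have hr0' : 1 ≤ r := le_trans (le_add_of_nonneg_right (by positivity)) hrB
  obtain ⟨hz, hn, hm⟩ := Setup.pt_zero hr0
  set x := pt r 0 with hx
  set G := tailG S.a S.k r with hGd
  have hG0 : 0 < G := mul_pos (Real.rpow_pos_of_pos hr0 _) (Real.exp_pos _)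
  have hbelt : x ∈ belt S.R₁ := ⟨by rw [hn]; linarith, by rw [hz, hn, abs_zero, mul_zero]; exact hr0⟩
  have hu : S.φu x = 0 := by
    have := S.odd_u x
    rw [hm] at this
    linarith
  have hlow : S.c * ((r ^ 3)⁻¹ * G) ≤ Real.sqrt (S.n x) := by
    have := S.data.lower x (by rw [hn]; linarith [S.R₀_le])
    rwa [hz, hn, abs_zero, zero_add, mul_assoc, ← hGd] at this
  have hsmall : S.φ₀ x ≤ S.c / 3 * ((r ^ 3)⁻¹ * G) := by
    have h := hB x (by rw [hn]; exact hrg) (by rw [hz, hn, abs_zero]; positivity)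
    rw [hn, show S.G x = G by rw [Setup.G, hn]] at h
    refine h.trans ?_
    rw [← mul_assoc]
    refine mul_le_mul_of_nonneg_right ?_ hG0.le
    have h3 : |B| ≤ S.c / 3 * r := by
      have hb := (div_le_iff₀ hc).1 (show 3 * |B| / S.c ≤ r by linarith)
      linarith
    calc B / r ^ 4 ≤ |B| / r ^ 4 := div_le_div_of_nonneg_right (le_abs_self B) (by positivity)
      _ ≤ S.c / 3 * r / r ^ 4 := div_le_div_of_nonneg_right h3 (by positivity)
      _ = _ := by field_simp
  set P : ℝ := (r ^ 3)⁻¹ * G with hP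
  have hP0 : 0 < P := by positivity
  have hval : ∀ f : Space → ℝ, r ^ 4 * red S.a S.k f r 0 = f x / P := fun f => by
    rw [red, ← hx, hP, ← hGd]
    field_simp
  -- every finite part of a sector is small
  have hsec : ∀ (ν : ℝ) (s : Finset ℕ), (∀ j ∈ s, S.ν j = ν) →
      ∑ j ∈ s, S.ψ j x ^ 2 ≤ (ε * P) ^ 2 := by
    intro ν s hs
    set Q := ∑ j ∈ s, S.ψ j x ^ 2
    rcases (Finset.sum_nonneg fun j _ => sq_nonneg (S.ψ j x) : 0 ≤ Q).eq_or_lt with hQ | hQ
    · exact le_of_eq_of_le hQ.symm (sq_nonneg _)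
    set α : ℕ → ℝ := fun j => S.ψ j x / Real.sqrt Q
    have hsq := Real.sqrt_pos.2 hQ
    have hα : ∑ j ∈ s, α j ^ 2 ≤ 1 := by
      simp only [α, div_pow, ← Finset.sum_div]
      rw [Real.sq_sqrt hQ.le]
      exact (div_self hQ.ne').le
    obtain ⟨γ, hγ, hplane⟩ := hR ν (fun y => ∑ j ∈ s, α j * S.ψ j y) ⟨s, α, hs, hα, rfl⟩
    have h := hplane r hrR
    rw [S.limit_zero_of_single hall hγ, sub_zero, hval] at h
    have e : ∑ j ∈ s, α j * S.ψ j x = Real.sqrt Q := by
      simp only [α, div_mul_eq_mul_div, ← Finset.sum_div, ← sq]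
      rw [show (∑ j ∈ s, S.ψ j x ^ 2) = Q from rfl, div_eq_iff hsq.ne',
        Real.mul_self_sqrt hQ.le]
    rw [e, abs_div, abs_of_pos hsq, abs_of_pos hP0, div_le_iff₀ hP0] at h
    calc Q = Real.sqrt Q ^ 2 := (Real.sq_sqrt hQ.le).symm
      _ ≤ _ := pow_le_pow_left₀ hsq.le h 2
  have hsum := S.sum_eq x hbelt
  have hle : S.n x - 2 * S.φ₀ x ^ 2 - S.φu x ^ 2 ≤ 2 * (ε * P) ^ 2 := by
    refine hasSum_le_of_sum_le hsum fun s => ?_
    rw [← Finset.sum_filter_add_sum_filter_not s (fun j => S.ν j = 0), two_mul]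
    refine add_le_add (hsec 0 _ fun j hj => (Finset.mem_filter.1 hj).2)
      (hsec (1 / 2) _ fun j hj => (S.ν_mem j).resolve_left (Finset.mem_filter.1 hj).2)
  rw [hu] at hle
  have h1 : (S.c * P) ^ 2 ≤ S.n x := by
    rw [← Real.sq_sqrt (S.data.positive x).le]
    exact pow_le_pow_left₀ (by positivity) hlow 2
  have h2 : S.φ₀ x ^ 2 ≤ (S.c / 3 * P) ^ 2 := pow_le_pow_left₀ (S.nonneg₀ x) hsmall 2
  have h3 : 0 < (S.c * P) ^ 2 := by positivity
  simp only [mul_pow, hε, div_pow] at hle h1 h2 h3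
  linarith

end Vale.Agent.P363.Ext
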