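import Vale.Agent.P363.Ext.Setup
import Vale.Agent.P363.Caloric.Spec

/-!
P363, Kohn-Sham side: the steps of the exterior argument.

`IdentityStmt`/`HalfIdentityStmt` reduce everything to the meridian; `BulkStmt` (the odd orbital
carries the linear zero), `SmallStmt` (everything else is small against `z G`), `GroundStmt`
(`φ₀` is negligible at the plane), `GrowthStmt` (degree eight in `ρ = |θ| + r^{-1/2}`),
`AsympStmt` (some profile follows the even caloric polynomial), which contradicts `no_alt`.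
-/

noncomputable section

namespace Vale.Agent.P363.Ext

open MeasureTheory Filter Set
open scoped BigOperators Topology ENNReal

/-- Representation of a nodal-plane density provides a setup. -/
def SectorsStmt : Prop :=
  ∀ n : Space → ℝ, NodalDensity n → Representable 2 (fun x => ENNReal.ofReal (n x)) →
    ∃ S : Setup, S.n = n

/-- Rotation invariant solutions of `Δ f = h` tested on the meridian. -/
def IdentityStmt : Prop :=
  ∀ (a k R : ℝ), 0 < a → 1 ≤ R → ∀ f h : Space → ℝ, ContinuousOn f (belt R) →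
    (∀ θ x, f (rot θ x) = f x) → (∀ θ x, h (rot θ x) = h x) → Measurable h →
    WeakPoisson (belt R) f h → ∀ ζ : ℝ → ℝ → ℝ, ContDiff ℝ 2 (Function.uncurry ζ) →
    HasCompactSupport (Function.uncurry ζ) →
    tsupport (Function.uncurry ζ) ⊆ {p | R < p.1 ∧ 2 * |p.2| < 1} →
      ∫ p : ℝ × ℝ, red a k f p.1 p.2 * polarOp a k ζ p.1 p.2 =
        ∫ p : ℝ × ℝ, ζ p.1 p.2 *
          (red a k h p.1 p.2 - 2 * (farPot a k p.1 + shift a k p.1) * red a k f p.1 p.2)

/-- The same on the upper half, with both boundary terms on the plane. -/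
def HalfIdentityStmt : Prop :=
  ∀ (a k R : ℝ), 0 < a → 1 ≤ R → ∀ f h : Space → ℝ, ContDiffOn ℝ 1 f (belt R) →
    (∀ θ x, f (rot θ x) = f x) → (∀ θ x, h (rot θ x) = h x) → Measurable h →
    WeakPoisson (belt R) f h → ∀ ζ : ℝ → ℝ → ℝ, ContDiff ℝ 2 (Function.uncurry ζ) →
    HasCompactSupport (Function.uncurry ζ) →
    tsupport (Function.uncurry ζ) ⊆ {p | R < p.1 ∧ 2 * |p.2| < 1} →
      ∫ p in {p : ℝ × ℝ | 0 < p.2}, red a k f p.1 p.2 * polarOp a k ζ p.1 p.2 =
        (∫ p in {p : ℝ × ℝ | 0 < p.2}, ζ p.1 p.2 *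
          (red a k h p.1 p.2 - 2 * (farPot a k p.1 + shift a k p.1) * red a k f p.1 p.2)) +
        ∫ r : ℝ, (deriv (red a k f r) 0 * ζ r 0 - red a k f r 0 * deriv (ζ r) 0) / r ^ 2

/-- The weak Laplacian of `√n`. -/
def SqrtStmt : Prop :=
  ∀ S : Setup, WeakPoisson (far S.R₁) (fun x => Real.sqrt (S.n x)) fun x =>
    2 * (S.X x + farPot S.a S.k ‖x‖) * Real.sqrt (S.n x)

/-- The odd orbital carries the linear zero at the plane. -/
def BulkStmt : Prop :=
  ∀ S : Setup, ∃ c' K R : ℝ, 0 < c' ∧ 1 ≤ K ∧ ∀ x : Space, R ≤ ‖x‖ →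
    K / ‖x‖ ≤ height x → c' * height x * S.G x ≤ S.φu x

/-- Everything but the odd orbital is small against `z G` near the plane. -/
def SmallStmt : Prop :=
  ∀ S : Setup, ∀ ε : ℝ, 0 < ε → ∃ δ K R : ℝ, 0 < δ ∧ 1 ≤ K ∧ ∀ x : Space, R ≤ ‖x‖ →
    K / ‖x‖ ≤ height x → height x ≤ δ * ‖x‖ →
      S.n x - S.φu x ^ 2 ≤ ε * (height x * S.G x) ^ 2

/-- The ground orbital decays faster than every power times `G` near the plane. -/
def GroundStmt : Prop :=
  ∀ S : Setup, ∀ m : ℕ, ∃ B δ R : ℝ, 0 < δ ∧ ∀ x : Space, R ≤ ‖x‖ → |height x| ≤ δ * ‖x‖ →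
    S.φ₀ x ≤ B / ‖x‖ ^ m * S.G x

/-- Degree eight in `ρ = |θ| + r^{-1/2}`, down to the plane. -/
def GrowthStmt : Prop :=
  ∀ S : Setup, ∃ B δ R : ℝ, 0 < δ ∧ ∀ x : Space, R ≤ ‖x‖ → |height x| ≤ δ * ‖x‖ →
      S.n x - 2 * S.φ₀ x ^ 2 - S.φu x ^ 2 ≤
        B * ((‖x‖ ^ 3)⁻¹ * (1 + |height x| / Real.sqrt ‖x‖) ^ 8 * S.G x) ^ 2

/-- Some profile follows the even caloric polynomial of degree eight along the parabolas. -/
def AsympStmt : Prop :=
  ∀ S : Setup, ∃ (j : ℕ) (γ : ℝ), γ ≠ 0 ∧ ∀ s : ℝ, 0 ≤ s →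
    Tendsto (fun r : ℝ => r ^ 4 * red S.a S.k (S.ψ j) r (s / Real.sqrt r)) atTop
      (𝓝 (γ * Caloric.profile8 (s ^ 2 / S.κ)))

/-- No setup exists. -/
def ExteriorGoal : Prop := Setup → False

end Vale.Agent.P363.Ext
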