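import Vale.Agent.P363.Ext.Polar.Calc
import Vale.Agent.P363.Ext.Spec

/-!
P363, exterior argument: axially symmetric weak equations tested on the meridian
(`IdentityStmt`).
-/

noncomputable section

namespace Vale.Agent.P363.Ext

open MeasureTheory Filter Set Metric
open scoped BigOperators Topology

/-- The weight `1 / (r² · r G)` turning reduced tests into tests on space. -/
def polWeight (a k r : ℝ) : ℝ := r ^ (-(k / a + 1)) * Real.exp (a * r)

/-- The multiplier `Δ(r G) / (r G)`. -/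
def polLam (a k r : ℝ) : ℝ := 2 * (farPot a k r + shift a k r)

lemma sq_mul_polWeight (a k : ℝ) {r : ℝ} (hr : 0 < r) :
    r ^ 2 * polWeight a k r = (r * tailG a k r)⁻¹ := by
  refine eq_inv_of_mul_eq_one_left ?_
  unfold polWeight tailG
  rw [show r ^ 2 * (r ^ (-(k / a + 1)) * Real.exp (a * r)) *
      (r * (r ^ (k / a - 2) * Real.exp (-(a * r)))) =
    r ^ 3 * (r ^ (-(k / a + 1)) * r ^ (k / a - 2)) *
      (Real.exp (a * r) * Real.exp (-(a * r))) by ring, ← Real.exp_add, add_neg_cancel,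
    Real.exp_zero, mul_one, ← Real.rpow_add hr,
    show -(k / a + 1) + (k / a - 2) = -((3 : ℕ) : ℝ) by push_cast; ring,
    Real.rpow_neg hr.le, Real.rpow_natCast, mul_inv_cancel₀ (by positivity)]

lemma hasDerivAt_polWeight (a k : ℝ) {r : ℝ} (hr : 0 < r) :
    HasDerivAt (polWeight a k) ((a - (k / a + 1) / r) * polWeight a k r) r := by
  have h1 := (hasDerivAt_id r).rpow_const (p := -(k / a + 1)) (Or.inl hr.ne')
  have h2 : HasDerivAt (fun t => Real.exp (a * t)) (Real.exp (a * r) * a) r := by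
    simpa using ((hasDerivAt_id r).const_mul a).exp
  refine (h1.fun_mul h2).congr_deriv ?_
  simp only [id, one_mul, polWeight]
  rw [Real.rpow_sub_one hr.ne']
  ring

lemma eq_zero_off {F : ℝ → ℝ → ℝ} {K : Set (ℝ × ℝ)} (hs : tsupport (Function.uncurry F) ⊆ K)
    {p : ℝ × ℝ} (hp : p ∉ K) : F p.1 p.2 = 0 :=
  image_eq_zero_of_notMem_tsupport (f := Function.uncurry F) fun h => hp (hs h)

lemma tsupport_dRad {F : ℝ → ℝ → ℝ} (h : Differentiable ℝ (Function.uncurry F)) :
    tsupport (Function.uncurry (dRad F)) ⊆ tsupport (Function.uncurry F) := by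
  rw [show Function.uncurry (dRad F) = fun p => fderiv ℝ (Function.uncurry F) p (1, 0) from
    funext fun p => ((partials h p.1 p.2).2.2.1).symm]
  exact tsupport_fderiv_apply_subset ℝ _

lemma tsupport_dAng {F : ℝ → ℝ → ℝ} (h : Differentiable ℝ (Function.uncurry F)) :
    tsupport (Function.uncurry (dAng F)) ⊆ tsupport (Function.uncurry F) := by
  rw [show Function.uncurry (dAng F) = fun p => fderiv ℝ (Function.uncurry F) p (0, 1) from
    funext fun p => ((partials h p.1 p.2).2.2.2).symm]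
  exact tsupport_fderiv_apply_subset ℝ _

/-- A function continuous on an open set and supported in a closed part of it is continuous. -/
lemma continuous_of_supp {G : ℝ × ℝ → ℝ} {O K : Set (ℝ × ℝ)} (hO : IsOpen O) (hK : IsClosed K)
    (hKO : K ⊆ O) (hG : ContinuousOn G O) (h0 : ∀ p ∉ K, G p = 0) : Continuous G := by
  refine continuous_iff_continuousAt.2 fun p => ?_
  by_cases hp : p ∈ K
  · exact hG.continuousAt (hO.mem_nhds (hKO hp))
  · exact continuousAt_const.congr
      (eventually_of_mem (hK.isOpen_compl.mem_nhds hp) fun q hq => (h0 q hq).symm)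

/-- A continuous function supported in a compact set is integrable. -/
lemma integrable_of_supp {G : ℝ × ℝ → ℝ} {K : Set (ℝ × ℝ)} (hK : IsCompact K)
    (hG : Continuous G) (h0 : ∀ p ∉ K, G p = 0) : Integrable G :=
  hG.integrable_of_hasCompactSupport (HasCompactSupport.intro hK h0)

/-- The meridian sector over the belt. -/
def sector (R : ℝ) : Set (ℝ × ℝ) := {p | R < p.1 ∧ 2 * |p.2| < 1}

lemma isOpen_sector (R : ℝ) : IsOpen (sector R) :=
  (isOpen_lt continuous_const continuous_fst).inter (isOpen_lt (f := fun p : ℝ × ℝ => 2 * |p.2|) (by fun_prop) continuous_const)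

lemma sector_bounds {R : ℝ} {p : ℝ × ℝ} (hp : p ∈ sector R) : -1 < p.2 ∧ p.2 < 1 ∧ p.2 ^ 2 ≤ 1 := by
  have h := hp.2
  obtain ⟨h1, h2⟩ := abs_lt.1 (show |p.2| < 1 by linarith [abs_nonneg p.2])
  exact ⟨h1, h2, by nlinarith⟩

lemma sector_subset_strip {R : ℝ} (hR : 0 ≤ R) : sector R ⊆ strip := fun _ hp =>
  ⟨hR.trans_lt hp.1, (sector_bounds hp).1, (sector_bounds hp).2.1⟩

lemma pt_mem_belt {R : ℝ} (hR : 0 ≤ R) {p : ℝ × ℝ} (hp : p ∈ sector R) :
    pt p.1 p.2 ∈ belt R := by
  have hr : 0 < p.1 := hR.trans_lt hp.1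
  have hh : height (pt p.1 p.2) = p.1 * p.2 := by simp [height, pt]
  rw [belt, mem_ofPred_eq, norm_pt hr.le (sector_bounds hp).2.2, hh, abs_mul, abs_of_pos hr]
  exact ⟨hp.1, by nlinarith [hp.2]⟩

lemma continuousOn_pt_comp {R : ℝ} (hR : 0 ≤ R) {f : Space → ℝ} (hf : ContinuousOn f (belt R)) :
    ContinuousOn (fun p : ℝ × ℝ => f (pt p.1 p.2)) (sector R) :=
  hf.comp (by unfold pt; fun_prop) fun _ hp => pt_mem_belt hR hp

lemma contDiffAt_polWeight (a k : ℝ) {n : WithTop ℕ∞} {r : ℝ} (hr : 0 < r) :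
    ContDiffAt ℝ n (polWeight a k) r :=
  (Real.contDiffAt_rpow_const_of_ne hr.ne').mul
    (Real.contDiff_exp.comp (contDiff_const.mul contDiff_id)).contDiffAt

lemma continuousOn_red {a k R : ℝ} (hR : 0 ≤ R) {f : Space → ℝ} (hf : ContinuousOn f (belt R)) :
    ContinuousOn (fun p : ℝ × ℝ => red a k f p.1 p.2) (sector R) := by
  refine ((continuousOn_pt_comp hR hf).mul (ContinuousOn.mul (continuousOn_fst.pow 2)
    (fun p hp => ((contDiffAt_polWeight a k (n := 0) (hR.trans_lt hp.1)).continuousAt.comp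
      continuousAt_fst).continuousWithinAt))).congr fun p hp => ?_
  simp [red, div_eq_mul_inv, sq_mul_polWeight a k (hR.trans_lt hp.1)]

section Lift

variable {a k R : ℝ} {ζ : ℝ → ℝ → ℝ}

/-- The test on space belonging to a reduced test. -/
def lift (a k : ℝ) (ζ : ℝ → ℝ → ℝ) (r θ : ℝ) : ℝ := ζ r θ * polWeight a k r

lemma contDiff_lift (hR : 0 ≤ R) (hζ : ContDiff ℝ 2 (Function.uncurry ζ))
    (hs : tsupport (Function.uncurry ζ) ⊆ sector R) :
    ContDiff ℝ 2 (Function.uncurry (lift a k ζ)) ∧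
      tsupport (Function.uncurry (lift a k ζ)) ⊆ tsupport (Function.uncurry ζ) := by
  have he : Function.uncurry (lift a k ζ) =
      fun p : ℝ × ℝ => Function.uncurry ζ p * polWeight a k p.1 := rfl
  refine ⟨?_, ?_⟩
  · refine contDiff_iff_contDiffAt.2 fun p => ?_
    by_cases hp : p ∈ tsupport (Function.uncurry ζ)
    · exact hζ.contDiffAt.mul
        ((contDiffAt_polWeight a k (hR.trans_lt (hs hp).1)).comp p contDiffAt_fst)
    · refine (contDiffAt_const (c := (0 : ℝ))).congr_of_eventuallyEq ?_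
      filter_upwards [notMem_tsupport_iff_eventuallyEq.1 hp] with q hq
      rw [he]
      simp [hq]
  · rw [he]
    exact tsupport_mul_subset_left

lemma lap_lift (ha : a ≠ 0) (hζ : ContDiff ℝ 2 (Function.uncurry ζ)) {r : ℝ} (hr : 0 < r) (θ : ℝ) :
    polLap (lift a k ζ) r θ =
      polWeight a k r * (polarOp a k ζ r θ + polLam a k r * ζ r θ) := by
  have hζ1 := hζ.differentiable two_ne_zero
  have hζ2 := (contDiff_dRad (n := 1) hζ).differentiable one_ne_zero
  have hR1 : ∀ t, 0 < t → HasDerivAt (fun s => lift a k ζ s θ)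
      (dRad ζ t θ * polWeight a k t +
        ζ t θ * ((a - (k / a + 1) / t) * polWeight a k t)) t := fun t ht =>
    (partials hζ1 t θ).1.fun_mul (hasDerivAt_polWeight a k ht)
  have h1 : dRad (lift a k ζ) r θ = _ := (hR1 r hr).deriv
  have hpot : HasDerivAt (fun t => a - (k / a + 1) / t) ((k / a + 1) / r ^ 2) r := by
    simpa [div_eq_mul_inv] using ((hasDerivAt_inv hr.ne').const_mul (k / a + 1)).const_sub a
  have h2 : dRad (dRad (lift a k ζ)) r θ = _ :=
    (((partials hζ2 r θ).1.fun_mul (hasDerivAt_polWeight a k hr)).fun_add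
      ((partials hζ1 r θ).1.fun_mul (hpot.fun_mul (hasDerivAt_polWeight a k hr)))).congr_of_eventuallyEq
      (eventually_of_mem (Ioi_mem_nhds hr) fun t ht => (hR1 t ht).deriv) |>.deriv
  have h3 : angLap (lift a k ζ) r θ = angLap ζ r θ * polWeight a k r := by
    simp only [angLap]
    rw [show (fun t => (1 - t ^ 2) * deriv (lift a k ζ r) t) =
      fun t => (1 - t ^ 2) * deriv (ζ r) t * polWeight a k r from funext fun t => by
        rw [show lift a k ζ r = fun t => ζ r t * polWeight a k r from rfl, deriv_mul_const_field,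
          mul_assoc], deriv_mul_const_field]
  rw [polLap, h1, h2, h3, polarOp, polLam, farPot, shift]
  unfold dRad
  field_simp
  ring

lemma polarOp_off {K : Set (ℝ × ℝ)} (hζ : ContDiff ℝ 2 (Function.uncurry ζ))
    (hs : tsupport (Function.uncurry ζ) ⊆ K) {p : ℝ × ℝ} (hp : p ∉ K) :
    polarOp a k ζ p.1 p.2 = 0 ∧ ζ p.1 p.2 = 0 ∧ dAng ζ p.1 p.2 = 0 ∧ polLap ζ p.1 p.2 = 0 := by
  have hζ1 := hζ.differentiable two_ne_zero
  have s1 := (tsupport_dRad hζ1).trans hs
  have s2 := (tsupport_dAng hζ1).trans hs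
  have z1 := eq_zero_off s1 hp
  have z2 := eq_zero_off s2 hp
  have z3 := eq_zero_off
    ((tsupport_dRad ((contDiff_dRad (n := 1) hζ).differentiable one_ne_zero)).trans s1) hp
  have z4 := eq_zero_off
    ((tsupport_dAng ((contDiff_dAng (n := 1) hζ).differentiable one_ne_zero)).trans s2) hp
  have z5 : angLap ζ p.1 p.2 = 0 := by rw [angLap_eq hζ, z2, z4]; ring
  have z := eq_zero_off hs hp
  refine ⟨?_, z, z2, ?_⟩
  · unfold dRad at z1 z3
    simp [polarOp, z, z1, z3, z5]
  · simp [polLap, z1, z3, z5]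

lemma continuousOn_polLap {F : ℝ → ℝ → ℝ} (h : ContDiff ℝ 2 (Function.uncurry F)) (hR : 0 ≤ R) :
    ContinuousOn (fun p : ℝ × ℝ => polLap F p.1 p.2) (sector R) := by
  have hne : ∀ p ∈ sector R, p.1 ≠ 0 := fun p hp => (hR.trans_lt hp.1).ne'
  simp only [polLap, angLap_eq h]
  have hA := contDiff_dAng (n := 1) h
  have hD := contDiff_dRad (n := 1) h
  exact (((contDiff_dRad (n := 0) hD).continuous.continuousOn).add
    ((continuousOn_const.div continuousOn_fst hne).mul hD.continuous.continuousOn)).add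
    ((((continuousOn_const.mul continuousOn_snd).mul hA.continuous.continuousOn).add
      ((continuousOn_const.sub (continuousOn_snd.pow 2)).mul
        (contDiff_dAng (n := 0) hA).continuous.continuousOn)).div (continuousOn_fst.pow 2)
      fun p hp => pow_ne_zero 2 (hne p hp))

end Lift

/-- The identity on the meridian together with integrability of both sides. -/
theorem polar_identity {a k R : ℝ} (ha : a ≠ 0) (hR : 1 ≤ R) {f h : Space → ℝ} (hf : ContinuousOn f (belt R))
    (hfr : ∀ θ x, f (rot θ x) = f x) (hhr : ∀ θ x, h (rot θ x) = h x) (hhm : Measurable h)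
    (hw : WeakPoisson (belt R) f h) {ζ : ℝ → ℝ → ℝ} (hζ : ContDiff ℝ 2 (Function.uncurry ζ))
    (hc : HasCompactSupport (Function.uncurry ζ))
    (hs : tsupport (Function.uncurry ζ) ⊆ sector R) :
    Integrable (fun p : ℝ × ℝ => red a k f p.1 p.2 * polarOp a k ζ p.1 p.2) ∧
      Integrable (fun p : ℝ × ℝ => ζ p.1 p.2 *
        (red a k h p.1 p.2 - 2 * (farPot a k p.1 + shift a k p.1) * red a k f p.1 p.2)) ∧
      ∫ p : ℝ × ℝ, red a k f p.1 p.2 * polarOp a k ζ p.1 p.2 =
        ∫ p : ℝ × ℝ, ζ p.1 p.2 *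
          (red a k h p.1 p.2 - 2 * (farPot a k p.1 + shift a k p.1) * red a k f p.1 p.2) := by
  have hR0 : 0 ≤ R := zero_le_one.trans hR
  set K := tsupport (Function.uncurry ζ) with hK
  have hKc : IsCompact K := hc
  have hKs : K ⊆ strip := hs.trans (sector_subset_strip hR0)
  obtain ⟨hF2, hFs⟩ := contDiff_lift (a := a) (k := k) hR0 hζ hs
  set F := lift a k ζ with hF
  have hFc : HasCompactSupport (Function.uncurry F) :=
    hKc.of_isClosed_subset (isClosed_tsupport _) hFs
  obtain ⟨hη2, hηc, hηs⟩ := polar_test hR0 hF2 hFc (hFs.trans hs)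
  have e := test_two (isOpen_belt R) hw hη2 hηc hηs
  set q₁ : ℝ × ℝ → ℝ := fun p => f (pt p.1 p.2) * polLap F p.1 p.2 with hq₁
  set q₂ : ℝ × ℝ → ℝ := fun p => h (pt p.1 p.2) * F p.1 p.2 with hq₂
  have z₁ : ∀ p ∉ K, q₁ p = 0 := fun p hp => by
    simp [hq₁, (polarOp_off (a := a) (k := k) hF2 hFs hp).2.2.2]
  have z₂ : ∀ p ∉ K, q₂ p = 0 := fun p hp => by
    simp [hq₂, eq_zero_off hFs hp]
  have c₁ : Continuous q₁ := continuous_of_supp (isOpen_sector R) hKc.isClosed hs
    ((continuousOn_pt_comp hR0 hf).mul (continuousOn_polLap hF2 hR0)) z₁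
  have m₂ : Measurable q₂ := (hhm.comp measurable_pt).mul hF2.continuous.measurable
  have hx0 : ∀ᵐ x : Space, x ≠ 0 := Measure.ae_ne volume 0
  have e₁ : (fun x : Space => f x * lap (fun y => F ‖y‖ (height y / ‖y‖)) x) =ᵐ[volume]
      fun x => q₁ (polMap x) := by
    filter_upwards [hx0] with x hx
    simp only [hq₁, comp_polMap hfr x]
    rw [lap_polar hF2 hx]; rfl
  have e₂ : (fun x : Space => h x * F ‖x‖ (height x / ‖x‖)) = fun x => q₂ (polMap x) :=
    funext fun x => by simp only [hq₂, comp_polMap hhr x]; rfl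
  have i₂ : Integrable fun x : Space => q₂ (polMap x) := by
    rw [← e₂]
    exact integrable_mul_of_tsupport hw.2.1 hη2.continuous hηc hηs
  have j₂ := (integral_polMap m₂).1.1 i₂
  rw [integral_congr_ae e₁, e₂, (integral_polMap c₁.measurable).2, (integral_polMap m₂).2] at e
  have hsupp : ∀ q : ℝ × ℝ → ℝ, (∀ p ∉ K, q p = 0) → ∀ p ∉ strip, p.1 ^ 2 * q p = 0 :=
    fun q hq p hp => by rw [hq p fun hh => hp (hKs hh), mul_zero]
  rw [setIntegral_eq_integral_of_forall_compl_eq_zero (hsupp q₁ z₁),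
    setIntegral_eq_integral_of_forall_compl_eq_zero (hsupp q₂ z₂)] at e
  have e' := mul_left_cancel₀ (by positivity : (2 * Real.pi) ≠ 0) e
  rw [integrableOn_iff_integrable_of_support_subset fun p hp => by_contra fun hn =>
    hp (hsupp q₂ z₂ p hn)] at j₂
  set w : ℝ × ℝ → ℝ := fun p => polLam a k p.1 * red a k f p.1 p.2 * ζ p.1 p.2 with hw'
  have zw : ∀ p ∉ K, w p = 0 := fun p hp => by simp [hw', eq_zero_off subset_rfl hp]
  have hne : ∀ p ∈ sector R, p.1 ≠ 0 := fun p hp => (hR0.trans_lt hp.1).ne'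
  have cw : Continuous w := continuous_of_supp (isOpen_sector R) hKc.isClosed hs
    ((((continuousOn_const.mul ((continuousOn_const.sub (continuousOn_const.div continuousOn_fst
      hne)).add (continuousOn_const.div (continuousOn_const.mul (continuousOn_fst.pow 2))
      fun p hp => mul_ne_zero two_ne_zero (pow_ne_zero 2 (hne p hp))))).congr fun p _ => rfl).mul
      (continuousOn_red hR0 hf)).mul hζ.continuous.continuousOn) zw
  have iw := integrable_of_supp hKc cw zw
  have z₁' : ∀ p ∉ K, p.1 ^ 2 * q₁ p = 0 := fun p hp => by rw [z₁ p hp, mul_zero]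
  have i₁ : Integrable fun p => p.1 ^ 2 * q₁ p :=
    integrable_of_supp hKc ((continuous_fst.pow 2).mul c₁) z₁'
  have hA : ∀ p : ℝ × ℝ, red a k f p.1 p.2 * polarOp a k ζ p.1 p.2 = p.1 ^ 2 * q₁ p - w p := by
    intro p
    by_cases hp : p ∈ K
    · have hr : 0 < p.1 := hR0.trans_lt (hs hp).1
      simp only [hq₁, hw', hF, lap_lift ha hζ hr, red, div_eq_mul_inv, ← sq_mul_polWeight a k hr]
      ring
    · rw [z₁' p hp, zw p hp, (polarOp_off hζ subset_rfl hp).1, mul_zero, sub_zero]
  have hB : ∀ p : ℝ × ℝ, ζ p.1 p.2 *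
      (red a k h p.1 p.2 - 2 * (farPot a k p.1 + shift a k p.1) * red a k f p.1 p.2) =
      p.1 ^ 2 * q₂ p - w p := by
    intro p
    by_cases hp : p ∈ K
    · have hr : 0 < p.1 := hR0.trans_lt (hs hp).1
      simp only [hq₂, hw', hF, lift, polLam, red, div_eq_mul_inv, ← sq_mul_polWeight a k hr]
      ring
    · rw [z₂ p hp, zw p hp, eq_zero_off subset_rfl hp]; ring
  simp only [hA, hB]
  refine ⟨i₁.sub iw, j₂.sub iw, ?_⟩
  rw [integral_sub i₁ iw, integral_sub j₂ iw, e']

/-- Rotation invariant solutions of `Δ f = h` tested on the meridian. -/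
theorem identityStmt : IdentityStmt :=
  fun _ _ _ ha hR _ _ hf hfr hhr hhm hw _ hζ hc hs =>
    (polar_identity ha.ne' hR hf hfr hhr hhm hw hζ hc hs).2.2

end Vale.Agent.P363.Ext
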