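import Vale.Agent.P363.Ext.Setup
import Vale.Agent.P363.Tool.YukawaSpec

/-!
P363, Kohn-Sham side: the pointwise tools of the exterior argument.

`PointStmt`: with a radial profile `θ`, `θ 0 = 1`, vanishing from `R` on, the kernel `θ(|y|) Y_m(y)`
satisfies `(Δ - m²) (θ Y_m) = -δ + Y_m (θ'' - 2 m θ')`, which gives an exact mean value formula.
A positive weight results from `θ t = (1 - t / R)₊ ^ 5`. Drift is absorbed by an exponential factor
of the tested function, so no kernel with drift is needed.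

`RingStmt`: for an axially symmetric potential of the class the Newton kernel averages over the
circle to a logarithm, which lies in `L³`.
-/

noncomputable section

namespace Vale.Agent.P363.Ext

open MeasureTheory Metric
open scoped BigOperators Topology ENNReal

/-- The cut kernel. -/
def kerK (m : ℝ) (θ : ℝ → ℝ) (y : Space) : ℝ := θ ‖y‖ * yuk m y

/-- The weight left by the cut kernel. -/
def kerW (m : ℝ) (θ : ℝ → ℝ) (y : Space) : ℝ :=
  yuk m y * (deriv (deriv θ) ‖y‖ - 2 * m * deriv θ ‖y‖)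

/-- The mean value formula at the centre of a ball, for continuous weak solutions. -/
def PointStmt : Prop :=
  ∀ (m R R' : ℝ) (θ : ℝ → ℝ), 0 ≤ m → 0 < R → R < R' → ContDiff ℝ 2 θ → θ 0 = 1 →
    (∀ t, R ≤ t → θ t = 0) → ∀ (x₀ : Space) (f h : Space → ℝ),
    ContinuousOn f (ball x₀ R') → WeakPoisson (ball x₀ R') f h →
    LocMemLp 2 (ball x₀ R') h →
      f x₀ = (∫ y, kerW m θ (y - x₀) * f y) -
        ∫ y, kerK m θ (y - x₀) * (h y - m ^ 2 * f y)

/-- The distance from the axis. -/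
def axisDist (x : Space) : ℝ := Real.sqrt (x 0 ^ 2 + x 1 ^ 2)

/-- Ring averaging of the kernel against a potential of the class. -/
def RingStmt : Prop :=
  ∀ v : Space → ℝ, InV v → Measurable v → AxialSym v → ∃ C : ℝ, 0 ≤ C ∧
    ∀ (x₀ : Space) (R : ℝ), 1 ≤ axisDist x₀ → 0 < R → 2 * R ≤ axisDist x₀ →
      (IntegrableOn (fun y => |v y| * ‖y - x₀‖⁻¹) (ball x₀ R) ∧
        ∫ y in ball x₀ R, |v y| * ‖y - x₀‖⁻¹ ≤
          C * ((R / axisDist x₀) ^ (2 / 3 : ℝ) + R ^ 2)) ∧
      ∀ z : ℝ, 0 < z → z ≤ R →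
        ∫ y in ball x₀ R, |v y| * min ‖y - x₀‖⁻¹ (z * (‖y - x₀‖ ^ 2)⁻¹) ≤
          C * (Real.sqrt z * R ^ (1 / 6 : ℝ) / axisDist x₀ ^ (2 / 3 : ℝ) + z * R)

end Vale.Agent.P363.Ext
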