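import Vale.Agent.P363.Ext.Spec
import Vale.Agent.P363.Ext.ToolSpec

/-!
P363, Kohn-Sham side: the interfaces between the step files of the exterior argument. Finite
combinations of profiles of one sector make every estimate scalar; bounds uniform over the
combinations are bounds for the sum of squares.
-/

noncomputable section

namespace Vale.Agent.P363.Ext

open MeasureTheory Filter Metric Set
open scoped BigOperators Topology

/-- A combination of profiles of the sector `ν` with coefficient vector of length at most one. -/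
structure Profile (S : Setup) (ν : ℝ) (f : Space → ℝ) : Prop where
  comb : ∃ (s : Finset ℕ) (α : ℕ → ℝ), (∀ j ∈ s, S.ν j = ν) ∧ ∑ j ∈ s, α j ^ 2 ≤ 1 ∧
    f = fun x => ∑ j ∈ s, α j * S.ψ j x

/-- The odd orbital is at least `c' z G` from the height `1 / r` on. -/
def BulkOneStmt : Prop :=
  ∀ S : Setup, ∃ c' R : ℝ, 0 < c' ∧ ∀ x : Space, R ≤ ‖x‖ → 1 / ‖x‖ ≤ height x →
    c' * height x * S.G x ≤ S.φu x

/-- Profiles are small against `z G` near the plane. -/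
def SmallProfilesStmt : Prop :=
  ∀ S : Setup, ∀ ε : ℝ, 0 < ε → ∃ δ R : ℝ, 0 < δ ∧ ∀ (ν : ℝ) (f : Space → ℝ), Profile S ν f →
    ∀ x : Space, R ≤ ‖x‖ → 1 / ‖x‖ ≤ height x → height x ≤ δ * ‖x‖ →
      |f x| ≤ ε * height x * S.G x

/-- The ground orbital is small against `z G` near the plane. -/
def GroundSmallStmt : Prop :=
  ∀ S : Setup, ∀ ε : ℝ, 0 < ε → ∃ δ R : ℝ, 0 < δ ∧ ∀ x : Space, R ≤ ‖x‖ →
    1 / ‖x‖ ≤ height x → height x ≤ δ * ‖x‖ → S.φ₀ x ≤ ε * height x * S.G x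

/-- Everything but the odd orbital is small from the height `1 / r` on. -/
def SmallOneStmt : Prop :=
  ∀ S : Setup, ∀ ε : ℝ, 0 < ε → ∃ δ R : ℝ, 0 < δ ∧ ∀ x : Space, R ≤ ‖x‖ →
    1 / ‖x‖ ≤ height x → height x ≤ δ * ‖x‖ →
      S.n x - S.φu x ^ 2 ≤ ε * (height x * S.G x) ^ 2

/-- The pointwise bound of the defect. -/
def DefectStmt : Prop :=
  ∀ S : Setup, ∃ C R : ℝ, ∀ᵐ x : Space, R ≤ ‖x‖ →
    |S.X x| ≤ C * (1 + ((|height x| + (‖x‖ ^ 3)⁻¹) ^ 2)⁻¹)

/-- The budget identity: `√n - φu` is a subsolution with excess `2 (X - W) φu`. -/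
def BudgetStmt : Prop :=
  ∀ S : Setup, ∀ ζ : Space → ℝ, IsBump {x | x ∈ far S.R₁ ∧ 0 < height x} ζ →
    Integrable (fun x => ζ x * (2 * (S.X x - S.W x) * S.φu x)) ∧
    ∫ x, ζ x * (2 * (S.X x - S.W x) * S.φu x) =
      ∫ x, (Real.sqrt (S.n x) - S.φu x) *
        (lap ζ x - 2 * (S.X x + farPot S.a S.k ‖x‖) * ζ x)

/-- The potential is small against the Newton kernel at every fixed scale. -/
def KernelSmallStmt : Prop :=
  ∀ S : Setup, ∀ R ε : ℝ, 0 < R → 0 < ε → ∃ δ R' : ℝ, 0 < δ ∧ ∀ x₀ : Space,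
    R' ≤ ‖x₀‖ → |height x₀| ≤ δ * ‖x₀‖ →
      IntegrableOn (fun y => |S.W y| * ‖y - x₀‖⁻¹) (ball x₀ R) ∧
      ∫ y in ball x₀ R, |S.W y| * ‖y - x₀‖⁻¹ ≤ ε

end Vale.Agent.P363.Ext
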