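import Vale.Agent.P363.Ext.Sqrt
import Vale.Agent.P363.Ext.StepSpec

/-!
P363, Kohn-Sham side: the pointwise bound of the defect and the budget identity for `√n - φu`.
-/

noncomputable section

namespace Vale.Agent.P363.Ext

open MeasureTheory Filter Set Metric
open scoped BigOperators Topology

/-- The defect is bounded by the inverse square of `|z| + r⁻³`. -/
theorem defect : DefectStmt := by
  intro S
  obtain ⟨c, hc, hcdef⟩ : ∃ c, 0 < c ∧ c = S.c := ⟨S.c, S.data.c_pos, rfl⟩
  refine ⟨3 * (|S.C| / (4 * c ^ 2) + 3 * (|S.C| ^ 2 / (2 * c ^ 2))) + S.a ^ 2 / 2 + |S.k|,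
    S.R₁ + 1, ?_⟩
  filter_upwards [S.data.lap_far, S.gn_eq] with x hlap hgn hx
  have hR₀ : 1 ≤ S.R₀ := S.data.one_le
  have h01 := S.R₀_le
  have hfar : x ∈ far S.R₁ := show S.R₁ < ‖x‖ by linarith
  have hx0 : S.R₀ ≤ ‖x‖ := by linarith
  have hr : 0 < ‖x‖ := by linarith
  set e := (‖x‖ ^ 3)⁻¹
  set w := |height x| + e
  have he : 0 < e := by positivity
  have hw : 0 < w := by have := abs_nonneg (height x); positivity
  set G := tailG S.a S.k ‖x‖ with hG
  have hG0 : 0 < G := mul_pos (Real.rpow_pos_of_pos hr _) (Real.exp_pos _)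
  set s := Real.sqrt (S.n x)
  have hn0 := S.data.positive x
  have hs0 : 0 < s := Real.sqrt_pos.2 hn0
  have hsn : s ^ 2 = S.n x := Real.sq_sqrt hn0.le
  have hlow : c * w * G ≤ s := hcdef ▸ S.data.lower x hx0
  have hn : c ^ 2 * w ^ 2 * G ^ 2 ≤ S.n x := by
    rw [← hsn, ← mul_pow, ← mul_pow]
    exact pow_le_pow_left₀ (by positivity) hlow 2
  set u := (1 + |height x|) / w
  have hu : u ^ 2 ≤ 3 * (1 + (w ^ 2)⁻¹) := by
    have h1 : u ≤ 1 + w⁻¹ := by
      rw [show 1 + w⁻¹ = (w + 1) / w by field_simp]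
      exact div_le_div_of_nonneg_right (by linarith) hw.le
    have h0 : 0 ≤ u := by positivity
    have h2 := pow_le_pow_left₀ h0 h1 2
    rw [← inv_pow]
    nlinarith [sq_nonneg (1 - w⁻¹), sq_nonneg w⁻¹]
  -- the Laplacian term
  have hA : |S.ln x / (4 * S.n x)| ≤ |S.C| / (4 * c ^ 2) * u ^ 2 := by
    rw [abs_div, abs_of_pos (show 0 < 4 * S.n x by linarith)]
    calc |S.ln x| / (4 * S.n x)
        ≤ |S.C| * ((1 + |height x|) * G) ^ 2 / (4 * (c ^ 2 * w ^ 2 * G ^ 2)) := by
          refine div_le_div₀ (by positivity) ((hlap hx0).trans ?_) (by positivity) (by linarith)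
          exact mul_le_mul_of_nonneg_right (le_abs_self _) (sq_nonneg _)
      _ = _ := by simp only [u]; field_simp
  -- the gradient term
  have hds : DifferentiableAt ℝ (fun y => Real.sqrt (S.n y)) x :=
    differentiableAt_of_c1 (isOpen_far _) S.c1_sqrt hfar
  have hL : ‖fderiv ℝ (fun y => Real.sqrt (S.n y)) x‖ ≤ |S.C| * ((1 + |height x|) * G) := by
    refine hds.hasFDerivAt.le_of_lip' (by positivity) ?_
    filter_upwards [ball_mem_nhds x one_pos] with y hy
    rw [mem_ball, dist_eq_norm] at hy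
    have hy0 : S.R₀ ≤ ‖y‖ := by
      have := norm_le_norm_add_norm_sub y x
      linarith [norm_sub_rev x y]
    have h := S.data.lipschitz x y hx0 hy0 (by rw [dist_comm, dist_eq_norm]; exact hy.le)
    rw [Real.norm_eq_abs, abs_sub_comm]
    refine h.trans (le_trans (le_of_eq ?_) (mul_le_mul_of_nonneg_right
      (mul_le_mul_of_nonneg_right (le_abs_self S.C) (by positivity)) (norm_nonneg _)))
    rw [← hG, dist_comm, dist_eq_norm]
    ring
  have hB : |(∑ i, S.gn i x ^ 2) / (8 * S.n x ^ 2)| ≤ 3 * (|S.C| ^ 2 / (2 * c ^ 2)) * u ^ 2 := by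
    have hd : ∀ i, S.gn i x = 2 * s * deriv3 i (fun y => Real.sqrt (S.n y)) x := by
      intro i
      rw [hgn hfar i, deriv3, deriv3, fderiv_sqrt (differentiableAt_of_c1 (isOpen_far _) S.c1_n hfar)
        hn0.ne', smul_apply, smul_eq_mul]
      simp only [s]
      field_simp
    have hb : ∀ i, deriv3 i (fun y => Real.sqrt (S.n y)) x ^ 2 ≤
        (|S.C| * ((1 + |height x|) * G)) ^ 2 := fun i => by
      rw [← sq_abs]
      refine pow_le_pow_left₀ (abs_nonneg _) ?_ 2
      refine ((Real.norm_eq_abs _).symm.trans_le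
        (ContinuousLinearMap.le_opNorm _ _)).trans ?_
      simpa [unit3] using hL
    rw [abs_of_nonneg (by positivity)]
    calc (∑ i, S.gn i x ^ 2) / (8 * S.n x ^ 2)
        = (∑ i, deriv3 i (fun y => Real.sqrt (S.n y)) x ^ 2) / (2 * S.n x) := by
          simp only [hd, mul_pow, hsn, ← Finset.mul_sum]
          field_simp
          ring
      _ ≤ 3 * (|S.C| * ((1 + |height x|) * G)) ^ 2 / (2 * (c ^ 2 * w ^ 2 * G ^ 2)) := by
          refine div_le_div₀ (by positivity) ?_ (by positivity) (by linarith)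
          refine (Finset.sum_le_card_nsmul _ _ _ fun i _ => hb i).trans (le_of_eq ?_)
          simp
      _ = _ := by simp only [u]; field_simp
  have hF : |farPot S.a S.k ‖x‖| ≤ S.a ^ 2 / 2 + |S.k| := by
    refine (abs_sub _ _).trans (add_le_add (abs_of_nonneg (by positivity)).le ?_)
    rw [abs_div, abs_of_pos hr]
    exact div_le_self (abs_nonneg _) (by linarith)
  have hP : 0 ≤ |S.C| / (4 * c ^ 2) + 3 * (|S.C| ^ 2 / (2 * c ^ 2)) := by positivity
  have hQ : 0 ≤ S.a ^ 2 / 2 + |S.k| := by positivity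
  have hw2 : 0 ≤ (w ^ 2)⁻¹ := by positivity
  calc |S.X x| ≤ |S.ln x / (4 * S.n x)| + |(∑ i, S.gn i x ^ 2) / (8 * S.n x ^ 2)| +
        |farPot S.a S.k ‖x‖| := by
        refine (abs_sub _ _).trans (add_le_add (abs_sub _ _) le_rfl)
    _ ≤ _ := by
        linarith [mul_le_mul_of_nonneg_left hu hP, mul_nonneg hQ hw2]

/-- The budget identity. -/
theorem budget : BudgetStmt := by
  intro S ζ hζ
  have hU := isOpen_far S.R₁
  have hb : IsBump (far S.R₁) ζ := hζ.mono fun x hx => hx.1
  have hs := sqrtStmt S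
  have hsc : Continuous fun x => Real.sqrt (S.n x) := S.data.continuous.sqrt
  set h1 : Space → ℝ := fun x => 2 * (S.X x + farPot S.a S.k ‖x‖) * Real.sqrt (S.n x)
  set h2 : Space → ℝ := fun x => 2 * (S.v x - S.μ) * S.φu x
  have i1 : Integrable fun x => h1 x * ζ x :=
    integrable_mul_of_tsupport hs.2.1 hb.smooth.continuous hb.compact hb.supp
  have i2 : Integrable fun x => h2 x * ζ x :=
    integrable_mul_of_tsupport S.eq_u.2.1 hb.smooth.continuous hb.compact hb.supp
  have hqc : Continuous fun x => S.φu x / Real.sqrt (S.n x) * ζ x :=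
    (S.cont_u.div hsc fun x => (S.sqrt_pos x).ne').mul hb.smooth.continuous
  have i3 : Integrable fun x => h1 x * (S.φu x / Real.sqrt (S.n x) * ζ x) :=
    integrable_mul_of_tsupport hs.2.1 hqc hb.compact.mul_left
      (tsupport_mul_subset_right.trans hb.supp)
  have il : ∀ {p : Space → ℝ}, Continuous p → Integrable fun x => p x * lap ζ x := fun hp =>
    (hp.mul hb.lap_continuous).integrable_of_hasCompactSupport
      (hasCompactSupport_lap hb.compact).mul_left
  have e : ∀ x, ζ x * (2 * (S.X x - S.W x) * S.φu x) =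
      h1 x * (S.φu x / Real.sqrt (S.n x) * ζ x) - h2 x * ζ x := fun x => by
    have := (S.sqrt_pos x).ne'
    simp only [h1, h2, Setup.W]
    field_simp
    ring
  have e' : ∀ x, (Real.sqrt (S.n x) - S.φu x) *
      (lap ζ x - 2 * (S.X x + farPot S.a S.k ‖x‖) * ζ x) =
      (Real.sqrt (S.n x) * lap ζ x - h1 x * ζ x) -
        (S.φu x * lap ζ x - h1 x * (S.φu x / Real.sqrt (S.n x) * ζ x)) := fun x => by
    have := (S.sqrt_pos x).ne'
    simp only [h1]
    field_simp
  simp only [e, e']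
  refine ⟨i3.sub i2, ?_⟩
  have j1 : Integrable fun x => Real.sqrt (S.n x) * lap ζ x - h1 x * ζ x := (il hsc).sub i1
  have j2 : Integrable fun x => S.φu x * lap ζ x - h1 x * (S.φu x / Real.sqrt (S.n x) * ζ x) :=
    (il S.cont_u).sub i3
  rw [integral_sub i3 i2, integral_sub j1 j2,
    integral_sub (il hsc) i1, integral_sub (il S.cont_u) i3, hs.2.2 ζ hb, S.eq_u.2.2 ζ hb]
  ring

end Vale.Agent.P363.Ext
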