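import Vale.Agent.P363.Ext.Sqrt
import Vale.Agent.P363.Tool.Hopf
import Vale.Agent.P363.Tool.Weak.Chain

/-!
P363, Kohn-Sham side: the minimum principle for `φu / √n` above the plane and positivity of the odd
orbital.
-/

noncomputable section

namespace Vale.Agent.P363.Ext

open MeasureTheory Filter Set Metric
open scoped BigOperators Topology ENNReal

namespace Setup

variable (S : Setup)

/-- The square of the positive part. -/
lemma contDiff_posSq : ContDiff ℝ 1 fun t : ℝ => max t 0 ^ 2 :=
  contDiff_one_iff_deriv.2 ⟨fun t => (hasDerivAt_max_sq t).differentiableAt, by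
    have e : deriv (fun t : ℝ => max t 0 ^ 2) = fun t => 2 * max t 0 :=
      funext fun t => (hasDerivAt_max_sq t).deriv
    rw [e]; fun_prop⟩

/-- The minimum principle for `φu / √n` on `{δ ≤ height, R ≤ ‖x‖}`. -/
theorem min_principle {c δ R : ℝ} (hδ : 0 < δ) (hR : S.R₁ < R)
    (hb : ∀ x, R ≤ ‖x‖ → δ ≤ height x → (‖x‖ = R ∨ height x = δ) →
      c * Real.sqrt (S.n x) ≤ S.φu x) :
    ∀ x, R ≤ ‖x‖ → δ ≤ height x → c * Real.sqrt (S.n x) ≤ S.φu x := by
  set B : Space → ℝ := fun x => S.φu x / Real.sqrt (S.n x) with hB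
  set U : Set Space := {x | R < ‖x‖ ∧ δ < height x} with hUdef
  have hUo : IsOpen U := (isOpen_lt continuous_const continuous_norm).inter
    (isOpen_lt continuous_const contHeight)
  have hUfar : U ⊆ far S.R₁ := fun x hx => hR.trans hx.1
  have hcl : closure U ⊆ {x | R ≤ ‖x‖ ∧ δ ≤ height x} :=
    closure_minimal (fun x hx => ⟨hx.1.le, hx.2.le⟩)
      ((isClosed_le continuous_const continuous_norm).inter
        (isClosed_le continuous_const contHeight))
  have hBc : Continuous B := S.cont_u.div (by have := S.data.continuous; fun_prop)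
    fun x => (S.sqrt_pos x).ne'
  have hB1 : ContDiffOn ℝ 1 B U :=
    (S.c1_u.mono hUfar).div (S.c1_sqrt.mono hUfar) fun x _ => (S.sqrt_pos x).ne'
  have hBb : ∀ x, R ≤ ‖x‖ → δ ≤ height x → x ∉ U → c ≤ B x := fun x h1 h2 h3 => by
    rw [hB, le_div_iff₀ (S.sqrt_pos x)]
    refine hb x h1 h2 ?_
    by_contra h
    push Not at h
    exact h3 ⟨lt_of_le_of_ne h1 (Ne.symm h.1), lt_of_le_of_ne h2 (Ne.symm h.2)⟩
  have hB0 : ∀ x ∈ U, 0 ≤ B x := fun x hx =>
    div_nonneg (S.nonneg_u x (hδ.trans hx.2).le) (Real.sqrt_nonneg _)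
  obtain ⟨ρ, hρ⟩ : ∃ ρ : ContDiffBump (0 : Space), ρ.rIn = 1 :=
    ⟨⟨1, 2, one_pos, one_lt_two⟩, rfl⟩
  obtain ⟨M, hM⟩ : ∃ M : ℝ, ∀ a x, |deriv3 a (fun y => ρ y) x| ≤ M := by
    choose M hM using fun a : Fin 3 =>
      (ρ.hasCompactSupport.fderiv_apply ℝ (unit3 a)).exists_bound_of_continuous
        ((ρ.contDiff (n := 1)).continuous_fderiv one_ne_zero |>.clm_apply continuous_const)
    exact ⟨|M 0| + |M 1| + |M 2|, fun a x => by
      have := hM a x
      rw [Real.norm_eq_abs] at this
      simp only [deriv3]
      obtain ha | ha | ha : a = 0 ∨ a = 1 ∨ a = 2 := by omega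
      all_goals subst ha; linarith [le_abs_self (M 0), le_abs_self (M 1), le_abs_self (M 2),
        abs_nonneg (M 0), abs_nonneg (M 1), abs_nonneg (M 2)]⟩
  -- no gradient where `B` is below `c`
  have grad0 : ∀ ε : ℝ, 0 < ε → ∀ x ∈ U, B x < c - ε → fderiv ℝ B x = 0 := by
    intro ε hε x hx hlt
    set s : Space → ℝ := fun y => c - ε - B y with hs
    set cp := max c 0 with hcp
    have energy : ∀ L : ℝ, 0 < L →
        Integrable (U.indicator fun y => S.n y * max (s y) 0 * ρ (L⁻¹ • y) ^ 2 * gradDot B B y) ∧
        ∫ y, U.indicator (fun y => S.n y * max (s y) 0 * ρ (L⁻¹ • y) ^ 2 * gradDot B B y) y ≤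
          cp ^ 3 * (3 * M ^ 2 / L ^ 2) * ∫ y, S.n y := by
      intro L hL
      set χ : Space → ℝ := fun y => ρ (L⁻¹ • y) with hχ
      have hχc : ContDiff ℝ 1 χ := ρ.contDiff.comp (contDiff_const_smul L⁻¹)
      have hχs : HasCompactSupport χ :=
        ρ.hasCompactSupport.comp_homeomorph (Homeomorph.smulOfNeZero L⁻¹ (inv_ne_zero hL.ne'))
      have hχd : ∀ a y, deriv3 a χ y = L⁻¹ * deriv3 a (fun z => ρ z) (L⁻¹ • y) := fun a y => by
        have hd : HasFDerivAt χ ((fderiv ℝ (fun z => ρ z) (L⁻¹ • y)).comp
            (L⁻¹ • ContinuousLinearMap.id ℝ Space)) y :=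
          ((ρ.contDiff (n := 1)).differentiable one_ne_zero _).hasFDerivAt.comp y
            ((hasFDerivAt_id y).const_smul L⁻¹)
        rw [deriv3, hd.fderiv]
        simp [deriv3]
      set w : Space → ℝ := U.indicator fun y => χ y ^ 2 * max (s y) 0 ^ 2 with hw
      set K : Set Space := tsupport χ ∩ closure U ∩ {y | B y ≤ c - ε}
      have hKc : IsCompact K :=
        (hχs.inter_right isClosed_closure).inter_right (isClosed_le hBc continuous_const)
      have hKU : K ⊆ U := fun y ⟨⟨_, hy1⟩, hy2⟩ => by
        by_contra h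
        have hy2' : B y ≤ c - ε := hy2
        linarith [hBb y (hcl hy1).1 (hcl hy1).2 h]
      have hsupp : Function.support w ⊆ K := fun y hy => by
        obtain ⟨hyU, hne⟩ := indicator_apply_ne_zero.1 hy
        refine ⟨⟨subset_tsupport _ fun h => hne (by simp [h]), subset_closure hyU⟩, ?_⟩
        by_contra h
        refine hne ?_
        have : max (s y) 0 = 0 := max_eq_right (by
          show c - ε - B y ≤ 0
          linarith [show c - ε < B y from not_le.1 h])
        simp [this]
      have hwt : IsC1Test U w := by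
        refine ⟨contDiff_iff_contDiffAt.2 fun y => ?_,
          hKc.of_isClosed_subset (isClosed_tsupport _) (closure_minimal hsupp hKc.isClosed),
          (closure_minimal hsupp hKc.isClosed).trans hKU⟩
        by_cases hy : y ∈ U
        · refine (((hχc.contDiffAt).pow 2).mul
            (contDiff_posSq.contDiffAt.comp y ((contDiffAt_const (c := c - ε)).sub
              (hB1.contDiffAt (hUo.mem_nhds hy))))).congr_of_eventuallyEq ?_
          filter_upwards [hUo.mem_nhds hy] with z hz
          rw [hw, indicator_of_mem hz]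
          rfl
        · refine (contDiffAt_const (c := (0 : ℝ))).congr_of_eventuallyEq ?_
          filter_upwards [hKc.isClosed.isOpen_compl.mem_nhds fun h => hy (hKU h)] with z hz
          exact Function.notMem_support.1 fun h => hz (hsupp h)
      have hflux := ratio_flux hUo (S.eq_u.mono hUfar) (S.c1_u.mono hUfar)
        ((sqrtStmt S).mono hUfar) (S.c1_sqrt.mono hUfar) (fun y _ => (S.sqrt_pos y).ne') hwt
      have hw0 : ∀ y, 0 ≤ w y := fun y => indicator_nonneg (fun z _ => by positivity) y
      have hnn : 0 ≤ ∫ y, Real.sqrt (S.n y) ^ 2 * gradDot B w y := by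
        rw [hB, hflux, ← integral_neg]
        refine integral_nonneg_of_ae ?_
        filter_upwards [S.defect_ge] with y hy
        by_cases hyU : y ∈ U
        · have e : -((Real.sqrt (S.n y) * (2 * (S.v y - S.μ) * S.φu y) -
              S.φu y * (2 * (S.X y + farPot S.a S.k ‖y‖) * Real.sqrt (S.n y))) * w y) =
              2 * (Real.sqrt (S.n y) * S.φu y) *
                (S.X y - (S.v y - S.μ - farPot S.a S.k ‖y‖)) * w y := by ring
          show 0 ≤ -(_ * w y)
          rw [e]
          exact mul_nonneg (mul_nonneg (mul_nonneg zero_le_two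
            (mul_nonneg (Real.sqrt_nonneg _) (S.nonneg_u y (hδ.trans hyU.2).le)))
            (sub_nonneg.2 (hy (hUfar hyU)))) (hw0 y)
        · simp [hw, indicator_of_notMem hyU]
      simp only [Real.sq_sqrt (S.data.positive _).le] at hnn
      set q : Space → ℝ :=
        U.indicator fun y => S.n y * max (s y) 0 * χ y ^ 2 * gradDot B B y with hq
      have hqK : q = K.indicator fun y => S.n y * max (s y) 0 * χ y ^ 2 * gradDot B B y := by
        funext y
        by_cases hy : y ∈ K
        · rw [hq, indicator_of_mem (hKU hy), indicator_of_mem hy]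
        · rw [indicator_of_notMem hy, hq]
          by_cases hyU : y ∈ U
          · rw [indicator_of_mem hyU]
            by_cases hχ0 : χ y = 0
            · simp [hχ0]
            · have : max (s y) 0 = 0 := max_eq_right (by
                show c - ε - B y ≤ 0
                linarith [show c - ε < B y from
                  not_le.1 fun h => hy ⟨⟨subset_tsupport _ hχ0, subset_closure hyU⟩, h⟩])
              simp [this]
          · rw [indicator_of_notMem hyU]
      have hgc : ContinuousOn (gradDot B B) U := continuousOn_finsetSum _ fun a _ =>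
        (continuousOn_deriv3 hUo hB1 a).mul (continuousOn_deriv3 hUo hB1 a)
      have hqi : Integrable q := by
        rw [hqK, integrable_indicator_iff hKc.measurableSet]
        refine ContinuousOn.integrableOn_compact hKc (ContinuousOn.mul ?_ (hgc.mono hKU))
        have := S.data.continuous
        have := hχc.continuous
        exact Continuous.continuousOn (by fun_prop)
      refine ⟨hqi, ?_⟩
      have hpt : ∀ y, S.n y * gradDot B w y ≤ -q y + cp ^ 3 * (3 * M ^ 2 / L ^ 2) * S.n y := by
        intro y
        have hn0 := (S.data.positive y).le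
        have hK0 : 0 ≤ cp ^ 3 * (3 * M ^ 2 / L ^ 2) * S.n y :=
          mul_nonneg (mul_nonneg (pow_nonneg (le_max_right _ _) 3) (by positivity)) hn0
        by_cases hy : y ∈ U
        · have hd : DifferentiableAt ℝ (fun z => c - ε - B z) y :=
            (differentiableAt_const _).sub (differentiableAt_of_c1 hUo hB1 hy)
          have hdw : ∀ a, deriv3 a w y = 2 * χ y * deriv3 a χ y * max (s y) 0 ^ 2 +
              χ y ^ 2 * (2 * max (s y) 0 * -deriv3 a B y) := fun a => by
            have hh := (((hχc.differentiable one_ne_zero y).hasFDerivAt).pow 2).fun_mul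
              ((hasDerivAt_max_sq (s y)).comp_hasFDerivAt y hd.hasFDerivAt)
            have hev : w =ᶠ[𝓝 y]
                fun z => χ z ^ 2 * ((fun t : ℝ => max t 0 ^ 2) ∘ fun u => c - ε - B u) z := by
              filter_upwards [hUo.mem_nhds hy] with z hz
              rw [hw, indicator_of_mem hz]
              rfl
            rw [deriv3, hev.fderiv_eq, hh.fderiv, fderiv_const_sub]
            simp [deriv3, hs]
            ring
          rw [hq, indicator_of_mem hy]
          set σ := max (s y) 0 with hσ
          have hσ0 : 0 ≤ σ := le_max_right _ _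
          have hσc : σ ≤ cp := max_le_max_right 0 (by
            show c - ε - B y ≤ c
            linarith [hB0 y hy])
          have hcomp : gradDot B w y =
              ∑ a, (2 * χ y * σ ^ 2 * deriv3 a B y * deriv3 a χ y -
                2 * σ * χ y ^ 2 * deriv3 a B y ^ 2) := by
            simp only [gradDot, hdw]
            exact Finset.sum_congr rfl fun a _ => by ring
          have hb1 : gradDot B w y ≤
              -(σ * χ y ^ 2 * gradDot B B y) + σ ^ 3 * ∑ a, deriv3 a χ y ^ 2 := by
            rw [hcomp, gradDot, Finset.mul_sum, Finset.mul_sum, ← Finset.sum_neg_distrib,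
              ← Finset.sum_add_distrib]
            refine Finset.sum_le_sum fun a _ => ?_
            have := mul_nonneg hσ0 (sq_nonneg (χ y * deriv3 a B y - σ * deriv3 a χ y))
            linarith
          have hb2 : ∑ a, deriv3 a χ y ^ 2 ≤ 3 * M ^ 2 / L ^ 2 := by
            have : ∀ a, deriv3 a χ y ^ 2 ≤ M ^ 2 / L ^ 2 := fun a => by
              rw [hχd, mul_pow, inv_pow, inv_mul_eq_div]
              refine div_le_div_of_nonneg_right ?_ (sq_nonneg L)
              rw [← sq_abs]
              exact pow_le_pow_left₀ (abs_nonneg _) (hM a _) 2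
            rw [Fin.sum_univ_three]
            rw [show 3 * M ^ 2 / L ^ 2 = M ^ 2 / L ^ 2 + M ^ 2 / L ^ 2 + M ^ 2 / L ^ 2 by ring]
            exact add_le_add (add_le_add (this 0) (this 1)) (this 2)
          have hb3 : σ ^ 3 * ∑ a, deriv3 a χ y ^ 2 ≤ cp ^ 3 * (3 * M ^ 2 / L ^ 2) :=
            mul_le_mul (pow_le_pow_left₀ hσ0 hσc 3) hb2
              (Finset.sum_nonneg fun a _ => sq_nonneg _) (pow_nonneg (le_max_right _ _) 3)
          have hb4 := mul_le_mul_of_nonneg_left (hb1.trans (add_le_add le_rfl hb3)) hn0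
          linarith
        · have h0 : ∀ a, deriv3 a w y = 0 := fun a =>
            deriv3_eq_zero_of_notMem a fun h => hy (hwt.supp h)
          simp only [gradDot, h0, mul_zero, Finset.sum_const_zero, hq, indicator_of_notMem hy,
            neg_zero, zero_add]
          exact hK0
      have hi : Integrable fun y => S.n y * gradDot B w y :=
        (integrable_gradDot hUo hB1 hwt).bdd_mul S.data.continuous.aestronglyMeasurable
          (.of_forall fun y => by
            rw [Real.norm_of_nonneg (S.data.positive y).le]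
            exact S.data.bounded y)
      have hqn : Integrable fun y => -q y := hqi.neg
      have hn' : Integrable fun y => cp ^ 3 * (3 * M ^ 2 / L ^ 2) * S.n y :=
        S.data.integrable.const_mul _
      have hu := integral_mono (μ := volume) hi (hqn.add hn') hpt
      simp only [Pi.add_apply] at hu
      rw [integral_add hqn hn', integral_const_mul, integral_neg] at hu
      linarith
    -- letting the cut-off go to infinity
    obtain ⟨r, hr, hrU⟩ := Metric.isOpen_iff.1 hUo x hx
    have hgc : ContinuousOn (gradDot B B) U := continuousOn_finsetSum _ fun a _ =>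
      (continuousOn_deriv3 hUo hB1 a).mul (continuousOn_deriv3 hUo hB1 a)
    set f : Space → ℝ := fun y => S.n y * max (s y) 0 * gradDot B B y with hf
    have hfc : ContinuousOn f U := ContinuousOn.mul
      (Continuous.continuousOn (by have := S.data.continuous; fun_prop)) hgc
    have hcb : closedBall x (r / 2) ⊆ U :=
      (closedBall_subset_ball (by linarith)).trans hrU
    have hfi : IntegrableOn f (ball x (r / 2)) :=
      ((hfc.mono hcb).integrableOn_compact (isCompact_closedBall _ _)).mono_set
        ball_subset_closedBall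
    have hf0 : ∀ y, 0 ≤ f y := fun y => mul_nonneg (mul_nonneg (S.data.positive y).le
      (le_max_right _ _)) (Finset.sum_nonneg fun a _ => mul_self_nonneg _)
    have hle : ∀ L : ℝ, ‖x‖ + r ≤ L → 0 < L →
        ∫ y in ball x (r / 2), f y ≤ cp ^ 3 * (3 * M ^ 2 / L ^ 2) * ∫ y, S.n y := by
      intro L hL hL0
      obtain ⟨hi, hb⟩ := energy L hL0
      refine le_trans ?_ hb
      rw [← integral_indicator measurableSet_ball]
      refine integral_mono ((integrable_indicator_iff measurableSet_ball).2 hfi) hi fun y => ?_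
      by_cases hy : y ∈ ball x (r / 2)
      · have hyU : y ∈ U := hrU (ball_subset_ball (by linarith) hy)
        have h1 : ρ (L⁻¹ • y) = 1 := ρ.one_of_mem_closedBall (by
          rw [mem_closedBall_zero_iff, hρ, norm_smul, norm_inv, Real.norm_of_nonneg hL0.le,
            inv_mul_le_iff₀ hL0]
          have := mem_ball_iff_norm.1 hy
          linarith [norm_le_norm_add_norm_sub x y, norm_sub_rev x y])
        rw [indicator_of_mem hy, indicator_of_mem hyU, h1]
        simp [hf]
      · rw [indicator_of_notMem hy]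
        refine indicator_nonneg (fun z _ => ?_) y
        exact mul_nonneg (mul_nonneg (mul_nonneg (S.data.positive z).le (le_max_right _ _))
          (sq_nonneg _)) (Finset.sum_nonneg fun a _ => mul_self_nonneg _)
    have hlim : Tendsto (fun L : ℝ => cp ^ 3 * (3 * M ^ 2 / L ^ 2) * ∫ y, S.n y) atTop (𝓝 0) := by
      simpa using ((tendsto_const_nhds (x := (3 * M ^ 2 : ℝ))).div_atTop
        (tendsto_pow_atTop two_ne_zero)).const_mul (cp ^ 3) |>.mul_const (∫ y, S.n y)
    have hzero : ∫ y in ball x (r / 2), f y = 0 :=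
      le_antisymm (ge_of_tendsto hlim ((eventually_ge_atTop (max (‖x‖ + r) 1)).mono fun L hL =>
        hle L (le_of_max_le_left hL) (lt_of_lt_of_le one_pos (le_of_max_le_right hL))))
        (integral_nonneg hf0)
    have hfx : f x = 0 := Measure.eqOn_open_of_ae_eq
      ((integral_eq_zero_iff_of_nonneg hf0 hfi).1 hzero) isOpen_ball
      (hfc.mono (ball_subset_closedBall.trans hcb)) continuousOn_const
      (mem_ball_self (by linarith))
    have hspos : 0 < S.n x * max (s x) 0 := mul_pos (S.data.positive x) (lt_max_of_lt_left (by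
      show 0 < c - ε - B x
      linarith))
    have hg0 : gradDot B B x = 0 := (mul_eq_zero.1 hfx).resolve_left hspos.ne'
    have hd0 : ∀ a, deriv3 a B x = 0 := fun a => mul_self_eq_zero.1
      ((Finset.sum_eq_zero_iff_of_nonneg fun b _ => mul_self_nonneg _).1 hg0 a (Finset.mem_univ a))
    refine ContinuousLinearMap.coe_injective ((EuclideanSpace.basisFun (Fin 3) ℝ).toBasis.ext
      fun a => ?_)
    simpa [deriv3, unit3, EuclideanSpace.basisFun_apply] using hd0 a
  -- radially inwards down to the boundary
  intro x hx1 hx2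
  by_contra hlt
  rw [not_le] at hlt
  have hBx : B x < c := by rw [hB, div_lt_iff₀ (S.sqrt_pos x)]; exact hlt
  set ε := (c - B x) / 2 with hεdef
  have hε : 0 < ε := by rw [hεdef]; linarith
  have hxU : x ∈ U := by
    by_contra h
    linarith [hBb x hx1 hx2 h]
  set g : ℝ → ℝ := fun t => B (t • x) with hg
  have hgc : Continuous g := hBc.comp (continuous_id.smul continuous_const)
  have hxn : 0 < ‖x‖ := by
    have h1 := S.data.one_le
    linarith [S.R₀_le]
  have hxh : 0 < height x := hδ.trans_le hx2
  set t₀ := max (R / ‖x‖) (δ / height x) with ht₀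
  have ht₀1 : t₀ ≤ 1 := max_le ((div_le_one hxn).2 hx1) ((div_le_one hxh).2 hx2)
  have ht₀0 : 0 < t₀ := lt_max_of_lt_right (div_pos hδ hxh)
  have hnh : ∀ t : ℝ, 0 ≤ t → ‖t • x‖ = t * ‖x‖ ∧ height (t • x) = t * height x := fun t ht =>
    ⟨by rw [norm_smul, Real.norm_of_nonneg ht], by simp [height]⟩
  have hin : ∀ t, t₀ ≤ t → R ≤ ‖t • x‖ ∧ δ ≤ height (t • x) := fun t ht => by
    obtain ⟨e1, e2⟩ := hnh t (ht₀0.le.trans ht)
    rw [e1, e2]
    exact ⟨(div_le_iff₀ hxn).1 ((le_max_left _ _).trans ht),
      (div_le_iff₀ hxh).1 ((le_max_right _ _).trans ht)⟩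
  have hUt : ∀ t, t₀ < t → t • x ∈ U := fun t ht => by
    obtain ⟨e1, e2⟩ := hnh t (ht₀0.le.trans ht.le)
    show R < ‖t • x‖ ∧ δ < height (t • x)
    rw [e1, e2]
    exact ⟨(div_lt_iff₀ hxn).1 ((le_max_left _ _).trans_lt ht),
      (div_lt_iff₀ hxh).1 ((le_max_right _ _).trans_lt ht)⟩
  set A := {t | t ∈ Icc t₀ 1 ∧ c - ε ≤ g t} with hA
  have hAne : A.Nonempty := ⟨t₀, ⟨le_rfl, ht₀1⟩, by
    have hnotU : t₀ • x ∉ U := fun ⟨a, b⟩ => by
      obtain ⟨e1, e2⟩ := hnh t₀ ht₀0.le
      rw [e1] at a
      rw [e2] at b
      rcases max_choice (R / ‖x‖) (δ / height x) with h | h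
      · rw [ht₀, h, div_mul_cancel₀ _ hxn.ne'] at a
        exact lt_irrefl R a
      · rw [ht₀, h, div_mul_cancel₀ _ hxh.ne'] at b
        exact lt_irrefl δ b
    have := hBb _ (hin t₀ le_rfl).1 (hin t₀ le_rfl).2 hnotU
    show c - ε ≤ B (t₀ • x)
    linarith⟩
  have hAb : BddAbove A := ⟨1, fun t ht => ht.1.2⟩
  have hAc : IsClosed A := isClosed_Icc.inter (isClosed_le continuous_const hgc)
  obtain ⟨⟨hT0, hT1⟩, hT2⟩ := hAc.csSup_mem hAne hAb
  set T := sSup A
  have hT3 : T < 1 := lt_of_le_of_ne hT1 fun h => by
    rw [h] at hT2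
    simp only [hg, one_smul] at hT2
    linarith
  have hder : ∀ t ∈ Ioo T 1, HasDerivAt g 0 t := fun t ht => by
    have hU' : t • x ∈ U := hUt t (hT0.trans_lt ht.1)
    have hlt' : B (t • x) < c - ε := by
      by_contra h
      exact (le_csSup hAb ⟨⟨hT0.trans ht.1.le, ht.2.le⟩, not_lt.1 h⟩).not_gt ht.1
    have hd := (differentiableAt_of_c1 hUo hB1 hU').hasFDerivAt.comp_hasDerivAt t
      ((hasDerivAt_id t).smul_const x)
    exact HasDerivAt.congr_deriv hd (by simp [grad0 ε hε _ hU' hlt'])
  obtain ⟨t, ht, he⟩ := exists_hasDerivAt_eq_slope g (fun _ => 0) hT3 hgc.continuousOn hder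
  rw [eq_comm, div_eq_zero_iff] at he
  rcases he with he | he
  · simp only [hg, one_smul] at he hT2
    linarith
  · linarith

/-- The far upper half space is connected. -/
lemma isPreconnected_upperFar (R : ℝ) :
    IsPreconnected ({x : Space | 0 < height x} ∩ far R) := by
  set e := unit3 2
  set p : Space := (|R| + 1) • e
  have hh : ∀ (x : Space) (t : ℝ), height (x + t • e) = height x + t := fun x t => by
    simp [height, e, unit3]
  refine isPreconnected_of_forall p fun x hx => ?_
  obtain ⟨hx1, hx2⟩ := hx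
  set T := |R| + 1
  have hT : 0 < T := by positivity
  refine ⟨segment ℝ x (x + T • e) ∪ segment ℝ (x + T • e) p, ?_,
    Or.inr (right_mem_segment ℝ _ _), Or.inl (left_mem_segment ℝ _ _),
    IsPreconnected.union' ⟨x + T • e, right_mem_segment ℝ _ _, left_mem_segment ℝ _ _⟩
      (convex_segment _ _).isPreconnected (convex_segment _ _).isPreconnected⟩
  have hhn : ∀ z : Space, height z ≤ ‖z‖ := fun z =>
    (le_abs_self _).trans (by simpa [height] using PiLp.norm_apply_le z 2)
  rintro y (hy | hy)
  · rw [segment_eq_image'] at hy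
    obtain ⟨θ, hθ, rfl⟩ := hy
    simp only [add_sub_cancel_left, smul_smul]
    have hθT : 0 ≤ θ * T := mul_nonneg hθ.1 hT.le
    refine ⟨by show 0 < height _; rw [hh]; exact add_pos_of_pos_of_nonneg hx1 hθT, ?_⟩
    show R < ‖x + (θ * T) • e‖
    refine lt_of_lt_of_le (show R < ‖x‖ from hx2) ?_
    have h0 : 0 ≤ height x * (θ * T) := mul_nonneg (le_of_lt hx1) hθT
    rw [← sq_le_sq₀ (norm_nonneg _) (norm_nonneg _), EuclideanSpace.norm_sq_eq,
      EuclideanSpace.norm_sq_eq]
    simp [Fin.sum_univ_three, e, unit3, height] at h0 ⊢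
    nlinarith [sq_nonneg (θ * T)]
  · have hc : Convex ℝ {z : Space | T ≤ height z} :=
      convex_halfSpace_ge (f := height) ⟨fun a b => by simp [height], fun a b => by
        simp [height]⟩ T
    have hy' : T ≤ height y := hc.segment_subset
      (show T ≤ height (x + T • e) by rw [hh]; linarith [show (0 : ℝ) < height x from hx1])
      (show T ≤ height p by simp [p, height, e, unit3, T]) hy
    exact ⟨hT.trans_le hy', lt_of_lt_of_le (lt_of_lt_of_le (lt_of_le_of_lt (le_abs_self R)
      (lt_add_one _)) hy') (hhn y)⟩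

/-- The odd orbital is zero or positive above the plane in the far region. -/
theorem pos_or_zero_u :
    (∀ x ∈ far S.R₁, 0 < height x → S.φu x = 0) ∨
      ∀ x ∈ far S.R₁, 0 < height x → 0 < S.φu x := by
  set U := {x : Space | 0 < height x} ∩ far S.R₁ with hU
  have hUo : IsOpen U := (isOpen_lt continuous_const contHeight).inter (isOpen_far _)
  set P := U ∩ {x | 0 < S.φu x} with hP
  have hPo : IsOpen P := hUo.inter (isOpen_lt continuous_const S.cont_u)
  by_cases hne : (U ∩ P).Nonempty
  swap
  · refine Or.inl fun x hx1 hx2 => le_antisymm (not_lt.1 fun h => ?_) (S.nonneg_u x hx2.le)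
    exact hne ⟨x, ⟨hx2, hx1⟩, ⟨hx2, hx1⟩, h⟩
  refine Or.inr fun x hx1 hx2 => ((isPreconnected_upperFar S.R₁).subset_of_closure_inter_subset
    hPo hne ?_ (show x ∈ U from ⟨hx2, hx1⟩)).2
  rintro y ⟨hyP, hyU⟩
  obtain ⟨r, hr, hrU⟩ := Metric.isOpen_iff.1 hUo y hyU
  obtain ⟨B, hB⟩ := S.lap_bdd (‖y‖ + r)
  set r' := r / 2
  have hr' : 0 < r' := by positivity
  obtain ⟨z, -, hz⟩ := (isCompact_closedBall y r').exists_isMinOn ⟨y, mem_closedBall_self hr'.le⟩
    S.data.continuous.continuousOn
  set m := S.n z
  have hm : 0 < m := S.data.positive z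
  set C := max B 0 / (4 * m) with hC
  have hsub : WeakSubPoisson (ball y r') (-S.φu) (-fun u => 2 * (S.v u - S.μ) * S.φu u) := by
    have h' := ((S.eq_u.mono (fun u hu => (hrU (ball_subset_ball (half_le_self hr.le) hu)).2)
      ).const_mul (-1)).toSub
    simp only [neg_one_mul] at h'
    exact h'
  rcases positive (ball y r') S.φu _ (2 * C) isOpen_ball (convex_ball y r').isPreconnected
    S.cont_u.continuousOn
    (fun u hu => S.nonneg_u u (hrU (ball_subset_ball (half_le_self hr.le) hu)).1.le) hsub
    (by
      filter_upwards [S.defect_ge, hB] with u hu hl hm'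
      have huU := hrU (ball_subset_ball (half_le_self hr.le) hm')
      have hn := hz (ball_subset_closedBall hm')
      have hlB := (le_abs_self _).trans (hl huU.2 (by
        have := mem_ball_iff_norm.1 hm'
        linarith [norm_le_norm_add_norm_sub y u, norm_sub_rev y u, show r' ≤ r from half_le_self hr.le]))
      refine mul_le_mul_of_nonneg_right ?_ (S.nonneg_u u huU.1.le)
      have h1 : S.v u - S.μ ≤ S.ln u / (4 * S.n u) := by
        have := hu huU.2
        simp only [sqrtDefect] at this
        have : 0 ≤ (∑ i, S.gn i u ^ 2) / (8 * S.n u ^ 2) :=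
          div_nonneg (Finset.sum_nonneg fun i _ => sq_nonneg _) (by positivity)
        linarith
      have h2 : S.ln u / (4 * S.n u) ≤ C := by
        calc S.ln u / (4 * S.n u) ≤ max B 0 / (4 * S.n u) :=
              div_le_div_of_nonneg_right (hlB.trans (le_max_left _ _))
                (by linarith [S.data.positive u])
          _ ≤ C := div_le_div_of_nonneg_left (le_max_right _ _) (by linarith)
                (by linarith [show m ≤ S.n u from hn])
      linarith) with h0 | hp
  · obtain ⟨u, hu, huP⟩ := mem_closure_iff.1 hyP (ball y r') isOpen_ball (mem_ball_self hr')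
    exact absurd (h0 u hu) huP.2.ne'
  · exact ⟨hyU, hp y (mem_ball_self hr')⟩

end Setup

end Vale.Agent.P363.Ext
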