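import Vale.Agent.P363.Ext.PlaneTools

/-!
P363, Kohn-Sham side: a mirror-even function below `√n` that solves the orbital equation is
`o(z G)` between the heights `1 / r` and a small `δ`. The mean value formula at `x`, at its mirror
image and at their midpoint on the plane leaves second differences of the weight, `O(z²)`, and
differences of the cut kernel against the potential, which ring averaging makes small.
-/

noncomputable section

namespace Vale.Agent.P363.Ext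

open MeasureTheory Metric Set
open scoped BigOperators Topology

/-- The value on the plane is negligible against `z G` above the height `1 / r`. -/
lemma EvenSol.abs_plane_le {S : Setup} {B : ℝ} {f w : Space → ℝ} (hf : EvenSol S B f w) {CG : ℝ}
    (htail : ∀ r s : ℝ, 2 ≤ r → |s - r| ≤ 1 → tailG S.a S.k s ≤ CG * tailG S.a S.k r)
    {r z : ℝ} {p : Space} (hp : height p = 0) (hpb : p ∈ belt S.R₁)
    (hpr : |‖p‖ - r| ≤ 1) (hr : 2 ≤ r) (hz : 1 ≤ r * z) :
    |f p| ≤ 8 * (S.C * CG) / r ^ 2 * (z * tailG S.a S.k r) := by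
  have hC0 : 0 < S.C := lt_of_lt_of_le (S.data.positive 0) (S.data.bounded 0)
  refine (hf.bound p hpb).trans ((S.data.upper p (S.R₀_le.trans hpb.1.le)).trans ?_)
  rw [hp, abs_zero, zero_add]
  obtain ⟨h1', h2'⟩ := abs_le.1 hpr
  have hp0 : 0 < ‖p‖ := by linarith
  have hr0 : 0 < r := by linarith
  have hG := htail r ‖p‖ hr hpr
  have hz0 : 0 ≤ z := by
    by_contra h
    nlinarith [not_le.1 h]
  have h3 : (‖p‖ ^ 3)⁻¹ ≤ 8 * z / r ^ 2 := by
    have h1 : r ^ 3 ≤ 8 * ‖p‖ ^ 3 :=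
      calc r ^ 3 ≤ (‖p‖ * 2) ^ 3 := pow_le_pow_left₀ hr0.le (by linarith) 3
        _ = 8 * ‖p‖ ^ 3 := by ring
    rw [inv_eq_one_div, div_le_div_iff₀ (by positivity) (by positivity)]
    nlinarith [pow_pos hp0 3, pow_pos hr0 2, mul_le_mul_of_nonneg_left hz (sq_nonneg r)]
  calc S.C * (‖p‖ ^ 3)⁻¹ * tailG S.a S.k ‖p‖
      ≤ S.C * (8 * z / r ^ 2) * (CG * tailG S.a S.k r) := by
        refine mul_le_mul (mul_le_mul_of_nonneg_left h3 hC0.le) hG (tailG_pos _ _ hp0).le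
          (by positivity)
    _ = 8 * (S.C * CG) / r ^ 2 * (z * tailG S.a S.k r) := by ring

/-- The mean value formulas at `x`, at its mirror image and at their midpoint. -/
lemma EvenSol.second_diff {S : Setup} {B : ℝ} {f w : Space → ℝ} (hf : EvenSol S B f w)
    (hP : PointStmt) {ρ z L CK M I : ℝ} (hρ : 0 < ρ) (hz : 0 ≤ z) (hzρ : z ≤ ρ / 2) (hL : 0 ≤ L)
    (hCK : 0 ≤ CK)
    (hdiff : ∀ (u : Space) (t : ℝ), 0 ≤ t → |kerW 0 (cutProf ρ) (u + t • unit3 2) +
      kerW 0 (cutProf ρ) (u + (-t) • unit3 2) - 2 * kerW 0 (cutProf ρ) u| ≤ L * t ^ 2)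
    (hker : ∀ u w : Space, u ≠ 0 → w ≠ 0 → dist u w ≤ z →
      |kerK 0 (cutProf ρ) u - kerK 0 (cutProf ρ) w| ≤
        CK * ((ball 0 (3 * ρ)).indicator (fun y => mz z ‖y‖) u +
          (ball 0 (3 * ρ)).indicator (fun y => mz z ‖y‖) w))
    {p x q : Space} (hx : x = p + z • unit3 2) (hq : q = p + (-z) • unit3 2) (hM : 0 ≤ M)
    (hsub : ∀ c, dist c p ≤ z → ball c (3 * ρ) ⊆ belt S.R₁)
    (hfM : ∀ y, dist y p < 4 * ρ → y ∈ belt S.R₁ → |f y| ≤ M) {b : Space → ℝ}
    (hdom : ∀ c, dist c p ≤ z → ∀ y ∈ ball c (3 * ρ), |2 * (S.v y - S.μ + w y) * f y| ≤ b y)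
    (hpot : ∀ c, dist c p ≤ z →
      IntegrableOn (fun y => b y * ‖y - c‖⁻¹) (ball c (3 * ρ)) ∧
      IntegrableOn (fun y => b y * mz z ‖y - c‖) (ball c (3 * ρ)) ∧
      ∫ y in ball c (3 * ρ), b y * mz z ‖y - c‖ ≤ I)
    (hev : f q = f x) :
    |2 * f x - 2 * f p| ≤ L * z ^ 2 * M * volume.real (ball (0 : Space) (2 * ρ)) + 4 * CK * I := by
  have hd : ∀ t : ℝ, dist (p + t • unit3 2) p = |t| := fun t => by
    rw [dist_eq_norm, add_sub_cancel_left, norm_smul, norm_unit, mul_one, Real.norm_eq_abs]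
  have hcx : dist x p ≤ z := by rw [hx, hd, abs_of_nonneg hz]
  have hcq : dist q p ≤ z := by rw [hq, hd, abs_neg, abs_of_nonneg hz]
  have hcp : dist p p ≤ z := by rw [dist_self]; exact hz
  set h : Space → ℝ := fun y => 2 * (S.v y - S.μ + w y) * f y
  have hball : ∀ c : Space, closedBall c ρ ⊆ ball c (3 * ρ) := fun c =>
    closedBall_subset_ball (by linarith)
  have hiW : ∀ c, dist c p ≤ z → Integrable fun y => kerW 0 (cutProf ρ) (y - c) * f y := fun c hc =>
    integrable_kerW_mul hρ (hf.cont.mono ((hball c).trans (hsub c hc)))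
  have hiK : ∀ c, dist c p ≤ z → Integrable fun y => kerK 0 (cutProf ρ) (y - c) * h y := fun c hc =>
    integrable_kerK_mul hρ ((hf.locMemLp _ (isCompact_closedBall _ _)
      ((hball c).trans (hsub c hc))).1) (fun y hy => hdom c hc y (hball c hy))
      ((hpot c hc).1.mono_set (hball c))
  have hrep : ∀ c, dist c p ≤ z → f c = (∫ y, kerW 0 (cutProf ρ) (y - c) * f y) -
      ∫ y, kerK 0 (cutProf ρ) (y - c) * h y := by
    intro c hc
    have := hP 0 ρ (3 * ρ) (cutProf ρ) le_rfl hρ (by linarith)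
      ((contDiff_cutProf ρ).of_le (by norm_cast)) (cutProf_zero ρ)
      (fun t ht => cutProf_of_ge hρ ht) c f h (hf.cont.mono (hsub c hc))
      (hf.eqn.mono (hsub c hc)) (hf.locMemLp.mono (hsub c hc))
    simpa using this
  have e0 := hrep x hcx
  have e1 := hrep q hcq
  have e2 := hrep p hcp
  rw [hev] at e1
  set IW := ∫ y, (kerW 0 (cutProf ρ) (y - x) * f y + kerW 0 (cutProf ρ) (y - q) * f y -
    2 * (kerW 0 (cutProf ρ) (y - p) * f y)) with hIW
  set J₀ := ∫ y, (kerK 0 (cutProf ρ) (y - x) * h y - kerK 0 (cutProf ρ) (y - p) * h y) with hJ0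
  set J₁ := ∫ y, (kerK 0 (cutProf ρ) (y - q) * h y - kerK 0 (cutProf ρ) (y - p) * h y) with hJ1
  have hsum : 2 * f x - 2 * f p = IW - (J₀ + J₁) := by
    rw [hIW, hJ0, hJ1, integral_sub ((hiW x hcx).fun_add (hiW q hcq)) ((hiW p hcp).const_mul 2),
      integral_add (hiW x hcx) (hiW q hcq), integral_const_mul,
      integral_sub (hiK x hcx) (hiK p hcp), integral_sub (hiK q hcq) (hiK p hcp)]
    linarith [e0, e1, e2]
  have hIWb : |IW| ≤ L * z ^ 2 * M * volume.real (ball (0 : Space) (2 * ρ)) :=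
    kerW_part hρ hz hzρ hL hdiff hx hq hM fun y hy =>
      hfM y ((mem_ball.1 hy).trans (by linarith)) (hsub p hcp (ball_subset_ball (by linarith) hy))
  have hJ : ∀ c, dist c p ≤ z → |∫ y, (kerK 0 (cutProf ρ) (y - c) * h y -
      kerK 0 (cutProf ρ) (y - p) * h y)| ≤ 2 * CK * I := fun c hc =>
    kerK_part hρ hz hCK hker hc (fun y hy => hy.elim (hdom c hc y) (hdom p hcp y))
      (hpot c hc).2.1 (hpot p hcp).2.1 (hpot c hc).2.2 (hpot p hcp).2.2
  rw [hsum]
  refine (abs_sub _ _).trans (add_le_add hIWb ((abs_add_le _ _).trans ?_))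
  linarith [hJ x hcx, hJ q hcq]

/-- The radii used in the ring bound. -/
lemma ring_scale {ρ r z : ℝ} (hρ : 0 < ρ) (hρ6 : ρ ≤ 1 / 6) (hr : 0 < r) (hz : 0 ≤ z)
    (hrz : 1 ≤ r * z) :
    ρ * (Real.sqrt z * (3 * ρ) ^ (1 / 6 : ℝ) / (r / 2) ^ (2 / 3 : ℝ) + z * (3 * ρ)) ≤
      (r ^ (-(1 / 6) : ℝ) + 3 * ρ * ρ) * z := by
  rw [mul_add, add_mul]
  refine add_le_add ?_ (le_of_eq (by ring))
  have h1 : ρ * (3 * ρ) ^ (1 / 6 : ℝ) ≤ 1 / 2 := by
    have : (3 * ρ) ^ (1 / 6 : ℝ) ≤ 1 :=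
      Real.rpow_le_one (by positivity) (by linarith) (by norm_num)
    nlinarith
  have h2 : Real.sqrt z ≤ Real.sqrt r * z :=
    calc Real.sqrt z = Real.sqrt z * 1 := (mul_one _).symm
      _ ≤ Real.sqrt z * Real.sqrt (r * z) :=
          mul_le_mul_of_nonneg_left (Real.one_le_sqrt.2 hrz) (Real.sqrt_nonneg _)
      _ = Real.sqrt r * z := by
          rw [Real.sqrt_mul hr.le, mul_left_comm, Real.mul_self_sqrt hz]
  have h3 : Real.sqrt r / (r / 2) ^ (2 / 3 : ℝ) ≤ 2 * r ^ (-(1 / 6) : ℝ) := by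
    have h2r : (2 : ℝ) ^ (2 / 3 : ℝ) ≤ 2 :=
      Real.rpow_le_self_of_one_le (by norm_num) (by norm_num)
    rw [Real.div_rpow hr.le (by norm_num), div_div_eq_mul_div, Real.sqrt_eq_rpow,
      mul_div_right_comm, ← Real.rpow_sub hr, mul_comm]
    norm_num
    exact mul_le_mul_of_nonneg_right h2r (by positivity)
  calc ρ * (Real.sqrt z * (3 * ρ) ^ (1 / 6 : ℝ) / (r / 2) ^ (2 / 3 : ℝ))
      = ρ * (3 * ρ) ^ (1 / 6 : ℝ) * (Real.sqrt z / (r / 2) ^ (2 / 3 : ℝ)) := by ring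
    _ ≤ 1 / 2 * (Real.sqrt r * z / (r / 2) ^ (2 / 3 : ℝ)) := by
        refine mul_le_mul h1 (div_le_div_of_nonneg_right h2 (by positivity)) (by positivity)
          (by norm_num)
    _ = 1 / 2 * (Real.sqrt r / (r / 2) ^ (2 / 3 : ℝ)) * z := by ring
    _ ≤ 1 / 2 * (2 * r ^ (-(1 / 6) : ℝ)) * z := by gcongr
    _ = r ^ (-(1 / 6) : ℝ) * z := by ring

/-- The near-plane estimate. -/
theorem near_plane (hP : PointStmt) (hR : RingStmt) (S : Setup) (B ε : ℝ) (hε : 0 < ε) :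
    ∃ δ R : ℝ, 0 < δ ∧ S.R₁ ≤ R ∧ ∀ f w : Space → ℝ, EvenSol S B f w → ∀ x : Space,
      R ≤ ‖x‖ → 1 / ‖x‖ ≤ height x → height x ≤ δ → |f x| ≤ ε * height x * S.G x := by
  have hd := S.data
  obtain ⟨Cv, hCv, hringv⟩ := hR S.v S.inV S.meas_v S.axial_v
  obtain ⟨C1, hC1, hring1⟩ := hR (fun _ => 1) inV_one measurable_const (axialSym_const 1)
  obtain ⟨CK, hCK, hker⟩ := abs_kerK_sub_le
  obtain ⟨CG, hCG, htail⟩ := tailG_le hd.a_pos S.k
  have hC0 : 0 < S.C := lt_of_lt_of_le (hd.positive 0) (hd.bounded 0)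
  set β := |S.μ| + |B| with hβdef
  have hβ : 0 ≤ β := by positivity
  -- the constant in front of `ρ² + r^(-1/6)`
  set A := 8 * CK * (Cv + β * C1) * (8 * S.C * CG) with hA
  have hA0 : 0 ≤ A := by positivity
  set ρ := min (1 / 6) (ε / (8 * A + 1)) with hρdef
  have hρ : 0 < ρ := lt_min (by norm_num) (by positivity)
  have hρ6 : ρ ≤ 1 / 6 := min_le_left _ _
  have hρA : A * (3 * ρ * ρ) ≤ ε / 4 := by
    have h1 : ρ * (8 * A + 1) ≤ ε := (le_div_iff₀ (by positivity)).1 (min_le_right _ _)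
    have h2 : A * ρ * 8 ≤ ε := by linarith [mul_comm A ρ]
    calc A * (3 * ρ * ρ) = A * ρ * (3 * ρ) := by ring
      _ ≤ A * ρ * (1 / 2) :=
          mul_le_mul_of_nonneg_left (by linarith) (mul_nonneg hA0 hρ.le)
      _ ≤ ε / 4 := by linarith
  obtain ⟨L, hL, hdiff⟩ := kerW_second_diff hρ
  set V := volume.real (ball (0 : Space) (2 * ρ)) with hV
  have hV0 : 0 ≤ V := measureReal_nonneg
  set A' := L * V * (8 * S.C * CG) with hA'
  have hA'0 : 0 ≤ A' := by positivity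
  set δ := min (ρ / 2) (ε / (4 * A' + 1)) with hδdef
  have hδ : 0 < δ := lt_min (by positivity) (by positivity)
  -- radii beyond which the small powers of `1 / r` are negligible
  have hev : ∀ᶠ r : ℝ in Filter.atTop, S.R₁ + 8 ≤ r ∧
      A * r ^ (-(1 / 6) : ℝ) ≤ ε / 4 ∧ 8 * (S.C * CG) / r ^ 2 ≤ ε / 4 := by
    refine (Filter.eventually_ge_atTop _).and (Filter.Eventually.and ?_ ?_)
    · have h := (tendsto_rpow_neg_atTop (by norm_num : (0 : ℝ) < 1 / 6)).const_mul A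
      rw [mul_zero] at h
      exact h.eventually (eventually_le_nhds (by positivity))
    · have h : Filter.Tendsto (fun r : ℝ => 8 * (S.C * CG) / r ^ 2) Filter.atTop (𝓝 0) :=
        tendsto_const_nhds.div_atTop (Filter.tendsto_pow_atTop (by norm_num))
      exact h.eventually (eventually_le_nhds (by positivity))
  obtain ⟨R, hR'⟩ := Filter.eventually_atTop.1 hev
  refine ⟨δ, max R S.R₁, hδ, le_max_right _ _, fun f w hf x hxR hxK hxδ => ?_⟩
  obtain ⟨hr, hr6, hr2⟩ := hR' ‖x‖ ((le_max_left _ _).trans hxR)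
  have hR1 : 1 ≤ S.R₁ := hd.one_le.trans S.R₀_le
  set r := ‖x‖ with hrdef
  set z := height x with hzdef
  have hr0 : 0 < r := by linarith
  have hz : 0 < z := lt_of_lt_of_le (by positivity) hxK
  have hzρ : z ≤ ρ / 2 := hxδ.trans (min_le_left _ _)
  have hrz : 1 ≤ r * z := by rwa [div_le_iff₀' hr0] at hxK
  have hzA' : A' * z ≤ ε / 4 := by
    have h1 : z ≤ ε / (4 * A' + 1) := hxδ.trans (min_le_right _ _)
    rw [le_div_iff₀ (by positivity)] at h1
    have h2 : z * A' * 4 ≤ ε := by linarith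
    linarith [mul_comm A' z]
  set p := proj x with hp
  set q := mirror x with hq
  have hpx : dist x p = z := by rw [hp, dist_proj, ← hzdef, abs_of_pos hz]
  have hqp : dist q p = z := by rw [hq, hp, dist_mirror_proj, ← hzdef, abs_of_pos hz]
  have hpn := norm_sub_dist_le x p
  rw [hpx, ← hrdef] at hpn
  have hp0 : height p = 0 := height_proj x
  have hpr : |‖p‖ - r| ≤ ρ := abs_le.2 ⟨by linarith, by linarith⟩
  -- the three centres
  have hcen : ∀ c : Space, dist c p ≤ z →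
      ball c (3 * ρ) ⊆ belt S.R₁ ∧ 1 ≤ axisDist c ∧ 2 * (3 * ρ) ≤ axisDist c ∧
        r / 2 ≤ axisDist c := by
    intro c hc
    have h1 := norm_sub_dist_le p c
    have h2 := abs_height_sub_le c p
    rw [hp0, sub_zero] at h2
    rw [dist_comm] at h1
    have h3 := axisDist_ge c
    refine ⟨ball_subset_belt ?_ ?_, ?_, ?_, ?_⟩ <;> linarith [h1.1, h1.2]
  have hcx : dist x p ≤ z := hpx.le
  have hcq : dist q p ≤ z := hqp.le
  have hcp : dist p p ≤ z := by rw [dist_self]; exact hz.le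
  -- the bound of `f`
  set M := 8 * S.C * CG * ρ * S.G x with hM
  have hGx : 0 < S.G x := tailG_pos _ _ hr0
  have hM0 : 0 ≤ M := by positivity
  have hρr : 1 ≤ 2 * ρ * r := by
    have h1 : r * z ≤ r * ρ := mul_le_mul_of_nonneg_left (by linarith) hr0.le
    linarith [mul_comm r ρ]
  have hfM : ∀ y : Space, dist y p < 4 * ρ → y ∈ belt S.R₁ → |f y| ≤ M := fun y hy hyb =>
    hf.abs_le_near htail hp0 hpr (by linarith)
      hρr (by linarith) hy hyb
  set b : Space → ℝ := fun y => (|S.v y| + β) * (2 * M) with hb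
  have h3ρ : 0 < 3 * ρ := mul_pos three_pos hρ
  have hdom : ∀ c : Space, dist c p ≤ z → ∀ y ∈ ball c (3 * ρ),
      |2 * (S.v y - S.μ + w y) * f y| ≤ b y := by
    intro c hc y hy
    have hyb : y ∈ belt S.R₁ := (hcen c hc).1 hy
    have hyp : dist y p < 4 * ρ := by linarith [dist_triangle y c p, mem_ball.1 hy]
    simp only [hb, abs_mul, abs_two]
    rw [show (|S.v y| + β) * (2 * M) = 2 * (|S.v y| + β) * M by ring]
    refine mul_le_mul (mul_le_mul_of_nonneg_left ?_ zero_le_two) (hfM y hyp hyb) (abs_nonneg _)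
      (by positivity)
    calc |S.v y - S.μ + w y| ≤ |S.v y - S.μ| + |w y| := abs_add_le _ _
      _ ≤ |S.v y| + |S.μ| + |B| :=
          add_le_add (abs_sub _ _) ((hf.w_le y hyb).trans (le_abs_self B))
      _ = |S.v y| + β := by rw [hβdef]; ring
  set E := Real.sqrt z * (3 * ρ) ^ (1 / 6 : ℝ) / (r / 2) ^ (2 / 3 : ℝ) + z * (3 * ρ) with hE
  have hpot : ∀ c : Space, dist c p ≤ z →
      IntegrableOn (fun y => b y * ‖y - c‖⁻¹) (ball c (3 * ρ)) ∧
      IntegrableOn (fun y => b y * mz z ‖y - c‖) (ball c (3 * ρ)) ∧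
      ∫ y in ball c (3 * ρ), b y * mz z ‖y - c‖ ≤ 2 * M * ((Cv + β * C1) * E) := by
    intro c hc
    obtain ⟨-, hax1, hax2, hax3⟩ := hcen c hc
    obtain ⟨hv1, hv2⟩ := hringv c (3 * ρ) hax1 h3ρ hax2
    obtain ⟨h11, h12⟩ := hring1 c (3 * ρ) hax1 h3ρ hax2
    have hE' : Real.sqrt z * (3 * ρ) ^ (1 / 6 : ℝ) / axisDist c ^ (2 / 3 : ℝ) + z * (3 * ρ) ≤ E := by
      refine add_le_add (div_le_div_of_nonneg_left (by positivity) (by positivity) ?_) le_rfl
      exact Real.rpow_le_rpow (by positivity) hax3 (by norm_num)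
    have hzR : z ≤ 3 * ρ := by linarith
    have j1 := (hv2 z hz hzR).trans (mul_le_mul_of_nonneg_left hE' hCv)
    have j2 := (h12 z hz hzR).trans (mul_le_mul_of_nonneg_left hE' hC1)
    exact pot_ring (E := E) S.meas_v hβ hM0 hz.le hv1.1 h11.1 j1 j2
  have hmain : |2 * f x - 2 * f p| ≤
      L * z ^ 2 * M * V + 4 * CK * (2 * M * ((Cv + β * C1) * E)) := by
    refine hf.second_diff hP hρ hz.le hzρ hL hCK hdiff (fun u w => hker ρ z hρ hz.le (by linarith) u w)
      (q := q) ?_ ?_ hM0 (fun c hc => (hcen c hc).1) (fun y hy hyb => hfM y hy hyb) hdom hpot ?_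
    · rw [hp]; exact eq_proj_add x
    · rw [hq, hp]; exact mirror_eq x
    · exact hf.even x ((hcen x hcx).1 (mem_ball_self h3ρ))
  -- assembly
  have hEz : ρ * E ≤ (r ^ (-(1 / 6) : ℝ) + 3 * ρ * ρ) * z := ring_scale hρ hρ6 hr0 hz.le hrz
  have hGz : 0 ≤ z * S.G x := by positivity
  have b1 : L * z ^ 2 * M * V ≤ ε / 4 * (z * S.G x) := by
    have e : L * z ^ 2 * M * V = A' * z * (z * S.G x) * ρ := by rw [hA', hM]; ring
    rw [e]
    have : A' * z * (z * S.G x) * ρ ≤ A' * z * (z * S.G x) :=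
      mul_le_of_le_one_right (by positivity) (by linarith)
    exact this.trans (mul_le_mul_of_nonneg_right hzA' hGz)
  have b2 : 4 * CK * (2 * M * ((Cv + β * C1) * E)) ≤ ε / 2 * (z * S.G x) := by
    have e : 4 * CK * (2 * M * ((Cv + β * C1) * E)) = A * S.G x * (ρ * E) := by
      rw [hA, hM]; ring
    rw [e]
    have hAG : 0 ≤ A * S.G x := mul_nonneg hA0 hGx.le
    refine (mul_le_mul_of_nonneg_left hEz hAG).trans ?_
    have e2 : A * S.G x * ((r ^ (-(1 / 6) : ℝ) + 3 * ρ * ρ) * z) =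
        A * r ^ (-(1 / 6) : ℝ) * (z * S.G x) + A * (3 * ρ * ρ) * (z * S.G x) := by ring
    rw [e2]
    linarith [mul_le_mul_of_nonneg_right hr6 hGz, mul_le_mul_of_nonneg_right hρA hGz]
  have b3 : |f p| ≤ ε / 4 * (z * S.G x) :=
    (hf.abs_plane_le htail hp0 ((hcen p hcp).1 (mem_ball_self h3ρ))
      (hpr.trans (by linarith)) (by linarith) hrz).trans (mul_le_mul_of_nonneg_right hr2 hGz)
  show |f x| ≤ ε * z * S.G x
  have := abs_sub_abs_le_abs_sub (2 * f x) (2 * f p)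
  rw [abs_mul, abs_mul, abs_two] at this
  linarith [mul_nonneg hε.le hGz, mul_assoc ε z (S.G x), abs_nonneg (f p)]

end Vale.Agent.P363.Ext
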