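import Vale.Agent.P363.Ext.ToolSpec
import Vale.Agent.P363.Tool.YukTest
import Vale.Agent.P363.Tool.Weak

/-!
P363, Kohn-Sham side: the exact mean value formula for the cut kernel `θ(|y|) Y_m(y)`, and the
profile `θ t = (1 - t / R)₊ ^ 5`, whose weight is positive of mass at most one.
-/

noncomputable section

namespace Vale.Agent.P363.Ext

open MeasureTheory Filter Metric
open scoped BigOperators Topology ENNReal ContDiff

namespace Point

variable {m : ℝ} {θ : ℝ → ℝ}

/-- The numerator of the cut kernel. -/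
def num (m : ℝ) (θ : ℝ → ℝ) (s : ℝ) : ℝ := θ s * Real.exp (-(m * s))

/-- Its derivative. -/
def num1 (m : ℝ) (θ : ℝ → ℝ) (s : ℝ) : ℝ := (deriv θ s - m * θ s) * Real.exp (-(m * s))

/-- Its second derivative. -/
def num2 (m : ℝ) (θ : ℝ → ℝ) (s : ℝ) : ℝ :=
  (deriv (deriv θ) s - 2 * m * deriv θ s + m ^ 2 * θ s) * Real.exp (-(m * s))

lemma contDiff_deriv (hθ : ContDiff ℝ 2 θ) : ContDiff ℝ 1 (deriv θ) :=
  ContDiff.deriv' (n := 1) hθ

lemma continuous_deriv2 (hθ : ContDiff ℝ 2 θ) : Continuous (deriv (deriv θ)) :=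
  (contDiff_deriv hθ).continuous_deriv le_rfl

lemma hasDerivAt_num (hθ : ContDiff ℝ 2 θ) (s : ℝ) : HasDerivAt (num m θ) (num1 m θ s) s := by
  refine ((hθ.differentiable two_ne_zero s).hasDerivAt.fun_mul
    (Yuk.hasDerivAt_expk m s)).congr_deriv ?_
  simp only [num1]
  ring

lemma hasDerivAt_num1 (hθ : ContDiff ℝ 2 θ) (s : ℝ) : HasDerivAt (num1 m θ) (num2 m θ s) s := by
  refine ((((contDiff_deriv hθ).differentiable one_ne_zero s).hasDerivAt.fun_sub
    ((hθ.differentiable two_ne_zero s).hasDerivAt.const_mul m)).fun_mul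
      (Yuk.hasDerivAt_expk m s)).congr_deriv ?_
  simp only [num2]
  ring

lemma contDiff_num (hθ : ContDiff ℝ 2 θ) : ContDiff ℝ 2 (num m θ) :=
  hθ.mul (contDiff_const.mul contDiff_id).neg.exp

lemma continuous_num2 (hθ : ContDiff ℝ 2 θ) : Continuous (num2 m θ) := by
  have := hθ.continuous
  have := (contDiff_deriv hθ).continuous
  have := continuous_deriv2 hθ
  unfold num2
  fun_prop

lemma continuous_num1 (hθ : ContDiff ℝ 2 θ) : Continuous (num1 m θ) := by
  have := hθ.continuous
  have := (contDiff_deriv hθ).continuous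
  unfold num1
  fun_prop

/-- The regularised cut kernel. -/
def cutSoft (m : ℝ) (θ : ℝ → ℝ) (ε : ℝ) (z : Space) : ℝ :=
  num m θ (Yuk.rho ε z) / (4 * Real.pi * Yuk.rho ε z)

lemma contDiff_cutSoft (hθ : ContDiff ℝ 2 θ) {ε : ℝ} (hε : ε ≠ 0) :
    ContDiff ℝ 2 (cutSoft m θ ε) :=
  ((contDiff_num hθ).comp (Yuk.contDiff_rho hε)).div
    (contDiff_const.mul (Yuk.contDiff_rho hε)) fun x => by
      have := Yuk.rho_pos hε x
      positivity

/-- The regular part of the Laplacian of the regularised cut kernel. -/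
def regPart (m : ℝ) (θ : ℝ → ℝ) (ε : ℝ) (z : Space) : ℝ :=
  num2 m θ (Yuk.rho ε z) / (4 * Real.pi * Yuk.rho ε z) * (1 - ε ^ 2 / Yuk.rho ε z ^ 2) +
    3 * ε ^ 2 * num1 m θ (Yuk.rho ε z) / (4 * Real.pi * Yuk.rho ε z ^ 4) -
    3 * ε ^ 2 * (num m θ (Yuk.rho ε z) - 1) / (4 * Real.pi * Yuk.rho ε z ^ 5)

lemma lap_cutSoft (hθ : ContDiff ℝ 2 θ) {ε : ℝ} (hε : ε ≠ 0) (x : Space) :
    lap (cutSoft m θ ε) x = regPart m θ ε x - Yuk.bumpKer 0 ε x := by
  have hS : IsOpen (Set.Ioi (-ε ^ 2)) := isOpen_Ioi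
  have hρ : ∀ t ∈ Set.Ioi (-ε ^ 2), HasDerivAt (fun u => Real.sqrt (u + ε ^ 2))
      (1 / (2 * Real.sqrt (t + ε ^ 2))) t := fun t ht =>
    ((hasDerivAt_id t).add_const _).sqrt (by simp at ht; simp; linarith)
  have hpos : ∀ t ∈ Set.Ioi (-ε ^ 2), 0 < Real.sqrt (t + ε ^ 2) := fun t ht =>
    Real.sqrt_pos.2 (by simp at ht; linarith)
  have d1 : ∀ t ∈ Set.Ioi (-ε ^ 2), HasDerivAt
      (fun u => num m θ (Real.sqrt (u + ε ^ 2)) / (4 * Real.pi * Real.sqrt (u + ε ^ 2)))
      ((fun u => (num1 m θ (Real.sqrt (u + ε ^ 2)) * Real.sqrt (u + ε ^ 2) -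
        num m θ (Real.sqrt (u + ε ^ 2))) / (8 * Real.pi * Real.sqrt (u + ε ^ 2) ^ 3)) t) t := by
    intro t ht
    have := hpos t ht
    refine ((((hasDerivAt_num hθ _).comp t (hρ t ht)).fun_div ((hρ t ht).const_mul (4 * Real.pi))
      (by positivity))).congr_deriv ?_
    simp only [Function.comp_apply]
    field_simp
    ring
  have d2 : ∀ t ∈ Set.Ioi (-ε ^ 2), HasDerivAt
      (fun u => (num1 m θ (Real.sqrt (u + ε ^ 2)) * Real.sqrt (u + ε ^ 2) -
        num m θ (Real.sqrt (u + ε ^ 2))) / (8 * Real.pi * Real.sqrt (u + ε ^ 2) ^ 3))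
      ((fun u => (num2 m θ (Real.sqrt (u + ε ^ 2)) * Real.sqrt (u + ε ^ 2) ^ 2 -
        3 * (num1 m θ (Real.sqrt (u + ε ^ 2)) * Real.sqrt (u + ε ^ 2) -
        num m θ (Real.sqrt (u + ε ^ 2)))) / (16 * Real.pi * Real.sqrt (u + ε ^ 2) ^ 5)) t) t := by
    intro t ht
    have := hpos t ht
    refine (((((hasDerivAt_num1 hθ _).comp t (hρ t ht)).fun_mul (hρ t ht)).fun_sub
      ((hasDerivAt_num hθ _).comp t (hρ t ht))).fun_div
      (((hρ t ht).fun_pow 3).const_mul (8 * Real.pi)) (by positivity)).congr_deriv ?_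
    simp only [Function.comp_apply]
    field_simp
    ring
  have hx : ‖x - 0‖ ^ 2 ∈ Set.Ioi (-ε ^ 2) := by
    have : (0 : ℝ) < ε ^ 2 := by positivity
    simp; nlinarith [sq_nonneg ‖x‖]
  have h := lap_radial (0 : Space) hS d1 d2 hx
  have e : (fun y : Space => (fun u => num m θ (Real.sqrt (u + ε ^ 2)) /
      (4 * Real.pi * Real.sqrt (u + ε ^ 2))) (‖y - 0‖ ^ 2)) = cutSoft m θ ε := by
    funext y; simp [cutSoft, Yuk.rho]
  rw [e] at h
  rw [h]
  have hn : ‖x‖ ^ 2 = Yuk.rho ε x ^ 2 - ε ^ 2 := by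
    rw [Yuk.rho, Real.sq_sqrt (by positivity)]; ring
  simp only [sub_zero, regPart, Yuk.bumpKer, show Real.sqrt (‖x‖ ^ 2 + ε ^ 2) = Yuk.rho ε x from rfl]
  have hp := Yuk.rho_pos hε x
  generalize Yuk.rho ε x = s at hp hn ⊢
  rw [hn]
  simp only [zero_mul, neg_zero, Real.exp_zero, mul_one, mul_zero, add_zero, ne_eq,
    OfNat.ofNat_ne_zero, not_false_eq_true, zero_pow]
  field_simp
  ring

lemma kerK_eq (m : ℝ) (θ : ℝ → ℝ) (z : Space) :
    kerK m θ z = num m θ ‖z‖ / (4 * Real.pi * ‖z‖) := by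
  simp [kerK, yuk, num, mul_div_assoc]

lemma kerW_add (m : ℝ) (θ : ℝ → ℝ) (z : Space) :
    kerW m θ z + m ^ 2 * kerK m θ z = num2 m θ ‖z‖ / (4 * Real.pi * ‖z‖) := by
  simp only [kerW, kerK, yuk, num2]
  ring

lemma measurable_kerK (hθ : Continuous θ) : Measurable (kerK m θ) :=
  (hθ.measurable.comp measurable_norm).mul (Yuk.measurable_yuk m)

lemma measurable_kerW (hθ : ContDiff ℝ 2 θ) : Measurable (kerW m θ) :=
  (Yuk.measurable_yuk m).mul (((continuous_deriv2 hθ).measurable.comp measurable_norm).sub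
    (((contDiff_deriv hθ).continuous.measurable.comp measurable_norm).const_mul (2 * m)))

lemma memLp_ker {K : Space → ℝ} (hK : Measurable K) {M R : ℝ} (hM : ∀ y, ‖y‖ ≤ R → |K y| ≤ M * ‖y‖⁻¹)
    (hR : ∀ y, R < ‖y‖ → K y = 0) : MemLp K 2 := by
  rw [memLp_two_iff_integrable_sq hK.aestronglyMeasurable]
  refine ((integrable_indicator_iff measurableSet_closedBall).2
    ((Yuk.integrableOn_rpow_ball (by norm_num : (2 : ℝ) < 3) 0 R).const_mul (M ^ 2))).mono'
    (hK.pow_const 2).aestronglyMeasurable (Eventually.of_forall fun y => ?_)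
  rw [Real.norm_eq_abs, abs_of_nonneg (sq_nonneg _)]
  by_cases hy : y ∈ closedBall (0 : Space) R
  · rw [Set.indicator_of_mem hy, zero_sub, norm_neg, Real.rpow_neg (norm_nonneg _), Real.rpow_two,
      ← inv_pow, ← mul_pow, ← sq_abs]
    exact pow_le_pow_left₀ (abs_nonneg _) (hM y (mem_closedBall_zero_iff.1 hy)) 2
  · rw [Set.indicator_of_notMem hy, hR y (not_le.1 fun h => hy (mem_closedBall_zero_iff.2 h))]
    simp

/-- The kernel identity on test functions. -/
lemma test_point (hθ : ContDiff ℝ 2 θ) (h0 : θ 0 = 1) {φ : Space → ℝ}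
    (h : IsBump Set.univ φ) :
    φ 0 = (∫ z, num2 m θ ‖z‖ / (4 * Real.pi * ‖z‖) * φ z) - ∫ z, kerK m θ z * lap φ z := by
  have hφc := h.smooth.continuous
  have hlc := Yuk.continuous_lap h
  obtain ⟨S, hS⟩ := (h.compact.isCompact.union
    (Yuk.hasCompactSupport_lap h).isCompact).isBounded.subset_closedBall (0 : Space)
  have hz : ∀ z, z ∉ closedBall (0 : Space) S → φ z = 0 ∧ lap φ z = 0 := fun z hz =>
    ⟨image_eq_zero_of_notMem_tsupport fun hm => hz (hS (Or.inl hm)),
      image_eq_zero_of_notMem_tsupport fun hm => hz (hS (Or.inr hm))⟩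
  obtain ⟨A, hA⟩ := hφc.bounded_above_of_compact_support h.compact
  obtain ⟨B, hB⟩ := hlc.bounded_above_of_compact_support (Yuk.hasCompactSupport_lap h)
  obtain ⟨M0, hM0⟩ := (isCompact_Icc (a := (0 : ℝ)) (b := |S| + 1)).exists_bound_of_continuousOn
    (contDiff_num (m := m) hθ).continuous.continuousOn
  obtain ⟨M1, hM1⟩ := (isCompact_Icc (a := (0 : ℝ)) (b := |S| + 1)).exists_bound_of_continuousOn
    (continuous_num1 (m := m) hθ).continuousOn
  obtain ⟨M2, hM2⟩ := (isCompact_Icc (a := (0 : ℝ)) (b := |S| + 1)).exists_bound_of_continuousOn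
    (continuous_num2 (m := m) hθ).continuousOn
  set e : ℕ → ℝ := fun n => 1 / (n + 1) with he
  have he0 : ∀ n, 0 < e n := fun n => by simp only [he]; positivity
  have he1 : ∀ n, e n ≤ 1 := fun n => by
    simp only [he]; rw [div_le_one (by positivity)]; simp
  have het : Tendsto e atTop (𝓝 0) := tendsto_one_div_add_atTop_nhds_zero_nat
  have hρ : ∀ n z, z ∈ closedBall (0 : Space) S → z ≠ 0 →
      ‖z‖ ≤ Yuk.rho (e n) z ∧ Yuk.rho (e n) z ∈ Set.Icc 0 (|S| + 1) ∧ e n ≤ Yuk.rho (e n) z := by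
    intro n z hzS hz0
    refine ⟨Real.le_sqrt_of_sq_le (le_add_of_nonneg_right (sq_nonneg _)),
      ⟨Real.sqrt_nonneg _, ?_⟩, Real.le_sqrt_of_sq_le (le_add_of_nonneg_left (sq_nonneg _))⟩
    rw [Yuk.rho, Real.sqrt_le_left (by positivity)]
    have h1 : ‖z‖ ≤ |S| := (mem_closedBall_zero_iff.1 hzS).trans (le_abs_self S)
    nlinarith [norm_nonneg z, he1 n, he0 n]
  have hlim : ∀ z : Space, Tendsto (fun n => Yuk.rho (e n) z) atTop (𝓝 ‖z‖) := fun z => by
    have : Continuous fun t : ℝ => Yuk.rho t z := by unfold Yuk.rho; fun_prop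
    simpa [Function.comp_def, Yuk.rho_zero] using (this.tendsto 0).comp het
  have hT : Tendsto (fun n => ∫ z, cutSoft m θ (e n) z * lap φ z) atTop
      (𝓝 (∫ z, kerK m θ z * lap φ z)) := by
    refine tendsto_integral_of_dominated_convergence
      ((closedBall (0 : Space) S).indicator fun z => ‖(0 : Space) - z‖ ^ (-(1 : ℝ)) * (M0 * B))
      (fun n => ((contDiff_cutSoft hθ (he0 n).ne').continuous.mul hlc).aestronglyMeasurable)
      ((integrable_indicator_iff measurableSet_closedBall).2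
        ((Yuk.integrableOn_rpow_ball (by norm_num : (1 : ℝ) < 3) 0 S).mul_const _)) (fun n => ?_) ?_
    · filter_upwards [Measure.ae_ne volume (0 : Space)] with z hz0
      by_cases hzS : z ∈ closedBall (0 : Space) S
      · obtain ⟨h1, h2, -⟩ := hρ n z hzS hz0
        have hp : 0 < ‖z‖ := norm_pos_iff.2 hz0
        rw [Set.indicator_of_mem hzS, norm_mul, zero_sub, norm_neg, Real.rpow_neg_one,
          cutSoft, norm_div, Real.norm_of_nonneg (mul_nonneg (by positivity) (Real.sqrt_nonneg _) :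
            0 ≤ 4 * Real.pi * Yuk.rho (e n) z),
          ← mul_assoc]
        have h00 := (norm_nonneg _).trans (hM0 _ h2)
        refine mul_le_mul ?_ (hB z) (norm_nonneg _)
          (mul_nonneg (inv_nonneg.2 hp.le) h00)
        rw [mul_comm _ M0, ← div_eq_mul_inv]
        refine div_le_div₀ ((norm_nonneg _).trans (hM0 _ h2)) (hM0 _ h2) hp ?_
        nlinarith [Real.pi_gt_three]
      · rw [Set.indicator_of_notMem hzS, (hz z hzS).2]
        simp
    · filter_upwards [Measure.ae_ne volume (0 : Space)] with z hz0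
      have hp : ‖z‖ ≠ 0 := norm_ne_zero_iff.2 hz0
      rw [kerK_eq]
      exact ((((contDiff_num hθ).continuous.tendsto _).comp (hlim z)).div
        ((hlim z).const_mul _) (by positivity)).mul_const _
  have hP : Tendsto (fun n => ∫ z, regPart m θ (e n) z * φ z) atTop
      (𝓝 (∫ z, num2 m θ ‖z‖ / (4 * Real.pi * ‖z‖) * φ z)) := by
    refine tendsto_integral_of_dominated_convergence
      ((closedBall (0 : Space) S).indicator fun z =>
        (M2 * ‖(0 : Space) - z‖ ^ (-(1 : ℝ)) + 6 * M1 * ‖(0 : Space) - z‖ ^ (-(2 : ℝ))) * A)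
      (fun n => ?_)
      ((integrable_indicator_iff measurableSet_closedBall).2
        ((((Yuk.integrableOn_rpow_ball (by norm_num : (1 : ℝ) < 3) 0 S).const_mul _).add
        ((Yuk.integrableOn_rpow_ball (by norm_num : (2 : ℝ) < 3) 0 S).const_mul _)).mul_const _))
      (fun n => ?_) ?_
    · have hc : ∀ z, Yuk.rho (e n) z ≠ 0 := fun z => (Yuk.rho_pos (he0 n).ne' z).ne'
      have := Yuk.continuous_rho (e n)
      have := continuous_num1 (m := m) hθ
      have := continuous_num2 (m := m) hθ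
      have := (contDiff_num (m := m) hθ).continuous
      have hcont : Continuous (regPart m θ (e n)) := by
        unfold regPart
        fun_prop (disch := intro z; have := Yuk.rho_pos (he0 n).ne' z; positivity)
      exact (hcont.mul hφc).aestronglyMeasurable
    · filter_upwards [Measure.ae_ne volume (0 : Space)] with z hz0
      by_cases hzS : z ∈ closedBall (0 : Space) S
      · obtain ⟨h1, h2, h3⟩ := hρ n z hzS hz0
        have hp : 0 < ‖z‖ := norm_pos_iff.2 hz0
        rw [Set.indicator_of_mem hzS, norm_mul, zero_sub, norm_neg, Real.rpow_neg_one,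
          Real.rpow_neg hp.le, Real.rpow_two]
        refine mul_le_mul ?_ (hA z) (norm_nonneg _) (add_nonneg
          (mul_nonneg ((norm_nonneg _).trans (hM2 _ h2)) (inv_nonneg.2 hp.le))
          (mul_nonneg (mul_nonneg (by norm_num) ((norm_nonneg _).trans (hM1 _ h2)))
            (inv_nonneg.2 (sq_nonneg _))))
        have hnum : |num m θ (Yuk.rho (e n) z) - 1| ≤ M1 * Yuk.rho (e n) z := by
          have hb := Convex.norm_image_sub_le_of_norm_hasDerivWithin_le
            (s := Set.Icc (0 : ℝ) (|S| + 1)) (fun t _ => (hasDerivAt_num (m := m) hθ t).hasDerivWithinAt)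
            (fun t ht => hM1 t ht) (convex_Icc _ _) ⟨le_rfl, by positivity⟩ h2
          simpa [num, h0, Real.norm_eq_abs, abs_of_nonneg h2.1] using hb
        have a1 : |num1 m θ (Yuk.rho (e n) z)| ≤ M1 := hM1 _ h2
        have a2 : |num2 m θ (Yuk.rho (e n) z)| ≤ M2 := hM2 _ h2
        have hM10 : 0 ≤ M1 := (abs_nonneg _).trans a1
        have hM20 : 0 ≤ M2 := (abs_nonneg _).trans a2
        simp only [regPart, Real.norm_eq_abs]
        generalize Yuk.rho (e n) z = s at h1 h2 h3 hnum a1 a2 ⊢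
        have hε0 := he0 n
        generalize e n = ε at h3 hε0 ⊢
        have hs : 0 < s := hp.trans_le h1
        have he : 0 ≤ ε := hε0.le
        have hq : ε ^ 2 / s ^ 2 ≤ 1 := (div_le_one (by positivity)).2 (pow_le_pow_left₀ he h3 2)
        have t1 : |num2 m θ s / (4 * Real.pi * s) * (1 - ε ^ 2 / s ^ 2)| ≤ M2 * ‖z‖⁻¹ := by
          rw [abs_mul, abs_div, abs_of_pos (by positivity : 0 < 4 * Real.pi * s),
            abs_of_nonneg (by linarith : 0 ≤ 1 - ε ^ 2 / s ^ 2)]
          refine (mul_le_of_le_one_right (by positivity) (by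
            have : 0 ≤ ε ^ 2 / s ^ 2 := by positivity
            linarith)).trans ?_
          rw [← div_eq_mul_inv]
          refine div_le_div₀ hM20 a2 hp ?_
          nlinarith [Real.pi_gt_three]
        have hk : ε ^ 2 / s ^ 4 ≤ (‖z‖ ^ 2)⁻¹ := by
          rw [show ε ^ 2 / s ^ 4 = ε ^ 2 / s ^ 2 * (s ^ 2)⁻¹ by field_simp]
          calc _ ≤ 1 * (s ^ 2)⁻¹ := mul_le_mul_of_nonneg_right hq (by positivity)
            _ ≤ _ := by rw [one_mul]; exact inv_anti₀ (by positivity) (pow_le_pow_left₀ hp.le h1 2)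
        have t2 : |3 * ε ^ 2 * num1 m θ s / (4 * Real.pi * s ^ 4)| ≤ 3 * M1 * (‖z‖ ^ 2)⁻¹ := by
          rw [show 3 * ε ^ 2 * num1 m θ s / (4 * Real.pi * s ^ 4) =
            (3 / (4 * Real.pi)) * num1 m θ s * (ε ^ 2 / s ^ 4) by field_simp,
            abs_mul, abs_mul, abs_of_nonneg (by positivity : (0 : ℝ) ≤ 3 / (4 * Real.pi)),
            abs_of_nonneg (by positivity : 0 ≤ ε ^ 2 / s ^ 4)]
          gcongr
          rw [div_le_iff₀ (by positivity)]
          nlinarith [Real.pi_gt_three]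
        have t3 : |3 * ε ^ 2 * (num m θ s - 1) / (4 * Real.pi * s ^ 5)| ≤
            3 * M1 * (‖z‖ ^ 2)⁻¹ := by
          rw [show 3 * ε ^ 2 * (num m θ s - 1) / (4 * Real.pi * s ^ 5) =
            (3 / (4 * Real.pi)) * ((num m θ s - 1) / s) * (ε ^ 2 / s ^ 4) by field_simp,
            abs_mul, abs_mul, abs_of_nonneg (by positivity : (0 : ℝ) ≤ 3 / (4 * Real.pi)),
            abs_of_nonneg (by positivity : 0 ≤ ε ^ 2 / s ^ 4), abs_div, abs_of_pos hs]
          gcongr
          · rw [div_le_iff₀ (by positivity)]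
            nlinarith [Real.pi_gt_three]
          · rwa [div_le_iff₀ hs]
        have := abs_sub (num2 m θ s / (4 * Real.pi * s) * (1 - ε ^ 2 / s ^ 2) +
          3 * ε ^ 2 * num1 m θ s / (4 * Real.pi * s ^ 4))
          (3 * ε ^ 2 * (num m θ s - 1) / (4 * Real.pi * s ^ 5))
        have := abs_add_le (num2 m θ s / (4 * Real.pi * s) * (1 - ε ^ 2 / s ^ 2))
          (3 * ε ^ 2 * num1 m θ s / (4 * Real.pi * s ^ 4))
        linarith
      · rw [Set.indicator_of_notMem hzS, (hz z hzS).1]
        simp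
    · filter_upwards [Measure.ae_ne volume (0 : Space)] with z hz0
      have hp : ‖z‖ ≠ 0 := norm_ne_zero_iff.2 hz0
      refine Tendsto.mul_const _ ?_
      have l2 := ((continuous_num2 (m := m) hθ).tendsto _).comp (hlim z)
      have l1 := ((continuous_num1 (m := m) hθ).tendsto _).comp (hlim z)
      have l0 := (((contDiff_num (m := m) hθ).continuous).tendsto _).comp (hlim z)
      have q := het.pow 2
      have hlimit := (((l2.div ((hlim z).const_mul (4 * Real.pi)) (by positivity)).mul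
        ((q.div ((hlim z).pow 2) (by positivity)).const_sub 1)).add
        (((q.const_mul 3).mul l1).div (((hlim z).pow 4).const_mul (4 * Real.pi)) (by positivity))).sub
        (((q.const_mul 3).mul (l0.sub_const 1)).div (((hlim z).pow 5).const_mul (4 * Real.pi))
          (by positivity))
      simpa [regPart, Function.comp_def] using hlimit
  have hD := Yuk.tendsto_bumpKer le_rfl hφc h.compact
  have hid : ∀ n, ∫ z, cutSoft m θ (e n) z * lap φ z =
      (∫ z, regPart m θ (e n) z * φ z) - ∫ z, Yuk.bumpKer 0 (e n) z * φ z := by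
    intro n
    have hne := (he0 n).ne'
    rw [Yuk.integral_mul_lap (contDiff_cutSoft hθ hne) h]
    have ib : Integrable fun z => Yuk.bumpKer 0 (e n) z * φ z :=
      ((Yuk.continuous_bumpKer 0 hne).mul hφc).integrable_of_hasCompactSupport h.compact.mul_left
    have il : Integrable fun z => lap (cutSoft m θ (e n)) z * φ z :=
      ((Vale.Agent.P363.continuous_lap (contDiff_cutSoft hθ hne)).mul
        hφc).integrable_of_hasCompactSupport h.compact.mul_left
    have ir : Integrable fun z => regPart m θ (e n) z * φ z := by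
      refine (il.add ib).congr (Eventually.of_forall fun z => ?_)
      simp only [Pi.add_apply, lap_cutSoft hθ hne]
      ring
    rw [← integral_sub ir ib]
    exact integral_congr_ae (Eventually.of_forall fun z => by
      simp only [lap_cutSoft hθ hne]; ring)
  simp only [hid] at hT
  have := tendsto_nhds_unique hT (hP.sub hD)
  linarith

lemma kerK_zero {R : ℝ} (hz : ∀ t, R ≤ t → θ t = 0) {y : Space} (hy : R < ‖y‖) :
    kerK m θ y = 0 := by simp [kerK, hz _ hy.le]

lemma kerW_zero {R : ℝ} (hz : ∀ t, R ≤ t → θ t = 0) {y : Space} (hy : R < ‖y‖) :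
    kerW m θ y = 0 := by
  have e : ∀ t, R < t → deriv θ t = 0 := fun t ht => by
    have he : θ =ᶠ[𝓝 t] fun _ => (0 : ℝ) := (eventually_gt_nhds ht).mono fun u hu => hz u hu.le
    rw [he.deriv_eq]
    simp
  have e2 : deriv (deriv θ) ‖y‖ = 0 := by
    have he : deriv θ =ᶠ[𝓝 ‖y‖] fun _ => (0 : ℝ) := (eventually_gt_nhds hy).mono e
    rw [he.deriv_eq]
    simp
  simp [kerW, e _ hy, e2]

lemma memLp_kerK (hm : 0 ≤ m) (hθ : Continuous θ) {R : ℝ} (hz : ∀ t, R ≤ t → θ t = 0) :
    MemLp (kerK m θ) 2 := by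
  obtain ⟨M, hM⟩ := (isCompact_Icc (a := (0 : ℝ)) (b := |R|)).exists_bound_of_continuousOn
    hθ.continuousOn
  refine memLp_ker (measurable_kerK hθ) (M := M) (R := R) (fun y hy => ?_)
    fun y hy => kerK_zero hz hy
  rw [kerK, abs_mul, abs_of_nonneg (Yuk.yuk_nonneg m y)]
  have hb := hM _ ⟨norm_nonneg y, hy.trans (le_abs_self R)⟩
  exact mul_le_mul hb ((Yuk.yuk_le m y).trans (mul_le_of_le_one_right (by positivity)
    (Real.exp_le_one_iff.2 (by nlinarith [norm_nonneg y])))) (Yuk.yuk_nonneg m y)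
    ((norm_nonneg _).trans hb)

lemma memLp_kerW (hm : 0 ≤ m) (hθ : ContDiff ℝ 2 θ) {R : ℝ} (hz : ∀ t, R ≤ t → θ t = 0) :
    MemLp (kerW m θ) 2 := by
  obtain ⟨M, hM⟩ := (isCompact_Icc (a := (0 : ℝ)) (b := |R|)).exists_bound_of_continuousOn
    ((continuous_deriv2 hθ).sub ((contDiff_deriv hθ).continuous.const_mul (2 * m))).continuousOn
  refine memLp_ker (measurable_kerW hθ) (M := M) (R := R) (fun y hy => ?_)
    fun y hy => kerW_zero hz hy
  rw [kerW, abs_mul, abs_of_nonneg (Yuk.yuk_nonneg m y), mul_comm]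
  have hb := hM _ ⟨norm_nonneg y, hy.trans (le_abs_self R)⟩
  exact mul_le_mul hb ((Yuk.yuk_le m y).trans (mul_le_of_le_one_right (by positivity)
    (Real.exp_le_one_iff.2 (by nlinarith [norm_nonneg y])))) (Yuk.yuk_nonneg m y)
    ((norm_nonneg _).trans hb)

lemma lap_congr {u v : Space → ℝ} {x : Space} (h : u =ᶠ[𝓝 x] v) : lap u x = lap v x := by
  have h1 : ∀ a, deriv3 a u =ᶠ[𝓝 x] deriv3 a v := fun a =>
    h.eventuallyEq_nhds.mono fun y hy => by simp only [deriv3, hy.fderiv_eq]
  exact Finset.sum_congr rfl fun a _ => by rw [deriv3, deriv3, (h1 a).fderiv_eq]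

lemma lap_moll {F : Space → ℝ} (hF : LocallyIntegrable F) (k : ℕ) (x : Space) :
    lap (moll k F) x = ∫ y, F y * lap (fun z => mollKer k (x - z)) y := by
  have e : moll k F = conv3 (mollKer k) F := funext fun z => by
    rw [moll_eq', conv3]; exact integral_congr_ae (Eventually.of_forall fun y => mul_comm _ _)
  have hs : ContDiff ℝ 2 (mollKer k) := (mollKer_smooth k).of_le (by
    exact WithTop.coe_le_coe.2 le_top)
  rw [e, lap_conv3 hs (mollKer_compact k) hF x, conv3]
  simp only [lap_comp_sub hs]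

end Point

open Point in
/-- The mean value formula. -/
theorem point : PointStmt := by
  intro m R R' θ hm hR hRR' hθ h0 hz x₀ f h hfc hpois hh
  obtain ⟨R₁, hR₁, hR₁'⟩ := exists_between hRR'
  obtain ⟨R₂, hR₂, hR₂'⟩ := exists_between hR₁'
  obtain ⟨R₃, hR₃, hR₃'⟩ := exists_between hR₂'
  set χ : ContDiffBump x₀ := ⟨R₂, R₃, by linarith, hR₃⟩
  set χ₁ : ContDiffBump x₀ := ⟨R₁, R₂, by linarith, hR₂⟩
  have hχs : tsupport (χ : Space → ℝ) ⊆ ball x₀ R' := by
    rw [χ.tsupport_eq]
    exact closedBall_subset_ball hR₃'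
  set F : Space → ℝ := fun y => f y * χ y
  set H : Space → ℝ := fun y => h y * χ y
  have hFc : Continuous F := by
    refine continuous_of_tsupport fun y hy => ?_
    have hy' : y ∈ ball x₀ R' := hχs (closure_mono (fun z hz => right_ne_zero_of_mul hz) hy)
    exact (hfc.continuousAt (isOpen_ball.mem_nhds hy')).mul χ.continuous.continuousAt
  have hFs : HasCompactSupport F := χ.hasCompactSupport.mul_left
  have hFl := hFc.locallyIntegrable (μ := (volume : Measure Space))
  have hF2 : MemLp F 2 := hFc.memLp_of_hasCompactSupport hFs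
  have hH2 : MemLp H 2 := hh.memLp_mul χ.continuous χ.hasCompactSupport hχs
  have hHl := hH2.locallyIntegrable one_le_two
  have hone : ∀ y, dist y x₀ ≤ R₂ → F y = f y ∧ H y = h y := fun y hy => by
    simp [F, H, χ.one_of_mem_closedBall (show y ∈ closedBall x₀ χ.rIn from hy)]
  set u : ℕ → Space → ℝ := fun k => moll k F
  set w : ℕ → Space → ℝ := fun k => moll k H
  have hlap : ∀ᶠ k : ℕ in atTop, ∀ x, dist x x₀ ≤ R₁ → lap (u k) x = w k x := by
    filter_upwards [tendsto_one_div_add_atTop_nhds_zero_nat.eventually_lt_const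
      (show (0 : ℝ) < R₂ - R₁ by linarith)] with k hk x hx
    have hη : IsBump (ball x₀ R') fun y => mollKer k (x - y) := by
      refine isBump_comp_sub (mollKer_smooth k) (δ := 1 / ((k : ℝ) + 1))
        (closure_minimal (fun z hz => mem_closedBall_zero_iff.2 (mollKer_small hz).le)
          isClosed_closedBall) fun y hy => ?_
      rw [mem_ball]
      have := dist_triangle y x x₀
      rw [mem_closedBall] at hy
      linarith
    have hnear : ∀ y, y ∈ tsupport (fun y => mollKer k (x - y)) → F y = f y ∧ H y = h y := by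
      intro y hy
      have hsub : tsupport (fun y => mollKer k (x - y)) ⊆ closedBall x (1 / ((k : ℝ) + 1)) := by
        refine closure_minimal (fun z hz => ?_) isClosed_closedBall
        have := mollKer_small hz
        rw [mem_closedBall, dist_eq_norm, norm_sub_rev]
        exact this.le
      refine hone y ?_
      have := mem_closedBall.1 (hsub hy)
      have := dist_triangle y x x₀
      linarith
    have key := hpois.2.2 _ hη
    rw [lap_moll hFl k x]
    simp only [w]
    rw [moll_eq']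
    calc _ = ∫ y, f y * lap (fun z => mollKer k (x - z)) y :=
          integral_congr_ae (Eventually.of_forall fun y => by
            beta_reduce
            by_cases hy : lap (fun z => mollKer k (x - z)) y = 0
            · simp [hy]
            · rw [(hnear y (tsupport_lap _ (subset_tsupport _ hy))).1])
      _ = ∫ y, h y * mollKer k (x - y) := key
      _ = _ := integral_congr_ae (Eventually.of_forall fun y => by
            beta_reduce
            by_cases hy : mollKer k (x - y) = 0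
            · simp [hy]
            · rw [(hnear y (subset_tsupport _ hy)).2, mul_comm])
  have hK := memLp_kerK hm hθ.continuous hz
  have hW := memLp_kerW hm hθ hz
  have hK' : MemLp (fun y => kerK m θ (y - x₀)) 2 :=
    hK.comp_measurePreserving (measurePreserving_sub_right volume x₀)
  have hW' : MemLp (fun y => kerW m θ (y - x₀)) 2 :=
    hW.comp_measurePreserving (measurePreserving_sub_right volume x₀)
  have hid : ∀ᶠ k : ℕ in atTop, u k x₀ = (∫ y, kerW m θ (y - x₀) * u k y) +
      m ^ 2 * (∫ y, kerK m θ (y - x₀) * u k y) - ∫ y, kerK m θ (y - x₀) * w k y := by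
    filter_upwards [hlap] with k hk
    set φ : Space → ℝ := fun y => χ₁ y * u k y
    have hus : ContDiff ℝ ∞ (u k) := contDiff_moll k hFl
    have hφ : IsBump Set.univ φ :=
      ⟨χ₁.contDiff.mul hus, χ₁.hasCompactSupport.mul_right, Set.subset_univ _⟩
    have hφ' : IsBump Set.univ fun z => φ (z + x₀) := Yuk.isBump_translate hφ x₀
    have t := test_point (m := m) hθ h0 hφ'
    have eL : ∀ z, lap (fun z => φ (z + x₀)) z = lap φ (z + x₀) := fun z => by
      simp only [lap, Yuk.deriv3_translate]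
    simp only [eL, zero_add] at t
    rw [← integral_sub_right_eq_self (fun z => num2 m θ ‖z‖ / (4 * Real.pi * ‖z‖) * φ (z + x₀)) x₀,
      ← integral_sub_right_eq_self (fun z => kerK m θ z * lap φ (z + x₀)) x₀] at t
    simp only [sub_add_cancel] at t
    have hφ0 : φ x₀ = u k x₀ := by
      simp [φ, χ₁.one_of_mem_closedBall (mem_closedBall_self (by linarith : (0 : ℝ) ≤ χ₁.rIn))]
    have hin : ∀ y, ‖y - x₀‖ ≤ R → φ y = u k y ∧ lap φ y = w k y := by
      intro y hy
      have hy1 : dist y x₀ < R₁ := by rw [dist_eq_norm]; linarith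
      have he : φ =ᶠ[𝓝 y] u k := eventually_of_mem (isOpen_ball.mem_nhds (mem_ball.2 hy1)) fun z hz => by
        simp [φ, χ₁.one_of_mem_closedBall (ball_subset_closedBall hz)]
      exact ⟨he.eq_of_nhds, (lap_congr he).trans (hk y hy1.le)⟩
    have e1 : ∫ y, num2 m θ ‖y - x₀‖ / (4 * Real.pi * ‖y - x₀‖) * φ y =
        (∫ y, kerW m θ (y - x₀) * u k y) + m ^ 2 * ∫ y, kerK m θ (y - x₀) * u k y := by
      have hu2 : MemLp (u k) 2 := (memLp_two_iff_integrable_sq
        hus.continuous.aestronglyMeasurable).2 (integral_sq_moll_le k hFl hF2.integrable_sq).1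
      rw [← integral_const_mul, ← integral_add (f := fun y => kerW m θ (y - x₀) * u k y)
        (g := fun y => m ^ 2 * (kerK m θ (y - x₀) * u k y)) (hW'.integrable_mul hu2)
        ((hK'.integrable_mul hu2).const_mul _)]
      refine integral_congr_ae (Eventually.of_forall fun y => ?_)
      beta_reduce
      rw [← kerW_add]
      by_cases hy : ‖y - x₀‖ ≤ R
      · rw [(hin y hy).1]; ring
      · rw [kerW_zero hz (not_le.1 hy), kerK_zero hz (not_le.1 hy)]; ring
    have e2 : ∫ y, kerK m θ (y - x₀) * lap φ y = ∫ y, kerK m θ (y - x₀) * w k y := by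
      refine integral_congr_ae (Eventually.of_forall fun y => ?_)
      beta_reduce
      by_cases hy : ‖y - x₀‖ ≤ R
      · rw [(hin y hy).2]
      · rw [kerK_zero hz (not_le.1 hy)]; ring
    rw [← hφ0, t, e1, e2]
  have hu : Tendsto (fun k => u k x₀) atTop (𝓝 (f x₀)) := by
    rw [← (hone x₀ (by simp; linarith)).1]
    exact moll_tendsto_continuous hFc x₀
  have hm2 : ∀ {q : Space → ℝ}, MemLp q 2 → ∀ k, MemLp (moll k q) 2 := fun {q} hq k =>
    (memLp_two_iff_integrable_sq
      (contDiff_moll k (hq.locallyIntegrable one_le_two)).continuous.aestronglyMeasurable).2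
      (integral_sq_moll_le k (hq.locallyIntegrable one_le_two) hq.integrable_sq).1
  have l1 := tendsto_integral_mul_of_L2 hW' (hm2 hF2) hF2 (moll_tendsto_L2 hFl hF2.integrable_sq)
  have l2 := tendsto_integral_mul_of_L2 hK' (hm2 hF2) hF2 (moll_tendsto_L2 hFl hF2.integrable_sq)
  have l3 := tendsto_integral_mul_of_L2 hK' (hm2 hH2) hH2 (moll_tendsto_L2 hHl hH2.integrable_sq)
  have := tendsto_nhds_unique (hu.congr' hid) ((l1.add (l2.const_mul (m ^ 2))).sub l3)
  rw [this]
  have ew : ∫ y, kerW m θ (y - x₀) * F y = ∫ y, kerW m θ (y - x₀) * f y :=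
    integral_congr_ae (Eventually.of_forall fun y => by
      beta_reduce
      by_cases hy : ‖y - x₀‖ ≤ R
      · rw [(hone y (by rw [dist_eq_norm]; linarith)).1]
      · rw [kerW_zero hz (not_le.1 hy)]; ring)
  have ek : ∫ y, kerK m θ (y - x₀) * (h y - m ^ 2 * f y) =
      (∫ y, kerK m θ (y - x₀) * H y) - m ^ 2 * ∫ y, kerK m θ (y - x₀) * F y := by
    rw [← integral_const_mul, ← integral_sub (f := fun y => kerK m θ (y - x₀) * H y)
      (g := fun y => m ^ 2 * (kerK m θ (y - x₀) * F y)) (hK'.integrable_mul hH2)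
      ((hK'.integrable_mul hF2).const_mul _)]
    refine integral_congr_ae (Eventually.of_forall fun y => ?_)
    beta_reduce
    by_cases hy : ‖y - x₀‖ ≤ R
    · rw [(hone y (by rw [dist_eq_norm]; linarith)).1, (hone y (by rw [dist_eq_norm]; linarith)).2]
      ring
    · rw [kerK_zero hz (not_le.1 hy)]; ring
  rw [ew, ek]
  ring

/-- The profile `(1 - t / R)₊ ^ 5`. -/
def cutTheta (R t : ℝ) : ℝ := max (1 - t / R) 0 ^ 5

namespace Point

lemma hasDerivAt_posPow {n : ℕ} (hn : 1 ≤ n) (s : ℝ) :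
    HasDerivAt (fun u : ℝ => max u 0 ^ (n + 1)) (((n : ℝ) + 1) * max s 0 ^ n) s := by
  refine hasDerivAt_of_hasDerivAt_of_ne' (f := fun u : ℝ => max u 0 ^ (n + 1))
    (g := fun u : ℝ => ((n : ℝ) + 1) * max u 0 ^ n) (x := 0) (fun y hy => ?_) (by fun_prop)
    (by fun_prop) s
  rcases lt_or_gt_of_ne hy with h | h
  · have e : (fun u : ℝ => max u 0 ^ (n + 1)) =ᶠ[𝓝 y] fun _ => 0 :=
      (eventually_lt_nhds h).mono fun u hu => by simp [max_eq_right hu.le]
    simpa [max_eq_right h.le, zero_pow (by omega : n ≠ 0)] using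
      (hasDerivAt_const y (0 : ℝ)).congr_of_eventuallyEq e
  · have e : (fun u : ℝ => max u 0 ^ (n + 1)) =ᶠ[𝓝 y] fun u => u ^ (n + 1) :=
      (eventually_gt_nhds h).mono fun u hu => by simp [max_eq_left hu.le]
    simpa [max_eq_left h.le] using (hasDerivAt_pow (n + 1) y).congr_of_eventuallyEq e

lemma hasDerivAt_cutTheta (R : ℝ) {n : ℕ} (hn : 1 ≤ n) (t : ℝ) :
    HasDerivAt (fun u => max (1 - u / R) 0 ^ (n + 1))
      (-(((n : ℝ) + 1) / R) * max (1 - t / R) 0 ^ n) t := by
  refine ((hasDerivAt_posPow hn _).comp t (((hasDerivAt_id t).div_const R).const_sub 1)).congr_deriv ?_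
  simp only [id_eq]
  ring

end Point

open Point

lemma deriv_cutTheta (R : ℝ) :
    deriv (cutTheta R) = fun t => -(5 / R) * max (1 - t / R) 0 ^ 4 :=
  funext fun t => by
    unfold cutTheta
    rw [(hasDerivAt_cutTheta R (n := 4) (by norm_num) t).deriv]
    norm_num

lemma deriv2_cutTheta (R : ℝ) :
    deriv (deriv (cutTheta R)) = fun t => 20 / R ^ 2 * max (1 - t / R) 0 ^ 3 :=
  funext fun t => by
    rw [deriv_cutTheta, ((hasDerivAt_cutTheta R (n := 3) (by norm_num) t).const_mul _).deriv]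
    push_cast
    ring

lemma contDiff_cutTheta (R : ℝ) : ContDiff ℝ 2 (cutTheta R) := by
  rw [show (2 : WithTop ℕ∞) = 1 + 1 by norm_num, contDiff_succ_iff_deriv]
  refine ⟨fun t => (hasDerivAt_cutTheta R (n := 4) (by norm_num) t).differentiableAt,
    fun h => absurd h (by decide), ?_⟩
  rw [contDiff_one_iff_deriv]
  refine ⟨?_, ?_⟩
  · rw [deriv_cutTheta]
    exact fun t => ((hasDerivAt_cutTheta R (n := 3) (by norm_num) t).const_mul _).differentiableAt
  · rw [deriv2_cutTheta]
    fun_prop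

lemma cutTheta_zero (R : ℝ) : cutTheta R 0 = 1 := by simp [cutTheta]

lemma cutTheta_nonneg (R t : ℝ) : 0 ≤ cutTheta R t := pow_nonneg (le_max_right _ _) _

lemma cutTheta_le_one {R t : ℝ} (hR : 0 < R) (ht : 0 ≤ t) : cutTheta R t ≤ 1 :=
  pow_le_one₀ (le_max_right _ _) (max_le (by linarith [div_nonneg ht hR.le]) zero_le_one)

lemma cutTheta_eq_zero {R : ℝ} (hR : 0 < R) : ∀ t, R ≤ t → cutTheta R t = 0 := fun t ht => by
  rw [cutTheta, max_eq_right (by rw [sub_nonpos, le_div_iff₀ hR]; linarith), zero_pow (by norm_num)]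

lemma kerW_cutTheta_nonneg {m R : ℝ} (hm : 0 ≤ m) (hR : 0 < R) (y : Space) :
    0 ≤ kerW m (cutTheta R) y := by
  rw [kerW, deriv2_cutTheta, deriv_cutTheta]
  refine mul_nonneg (Yuk.yuk_nonneg m y) ?_
  have h3 : 0 ≤ 20 / R ^ 2 * max (1 - ‖y‖ / R) 0 ^ 3 :=
    mul_nonneg (by positivity) (pow_nonneg (le_max_right _ _) _)
  have h4 : 0 ≤ 2 * m * (5 / R) * max (1 - ‖y‖ / R) 0 ^ 4 :=
    mul_nonneg (by positivity) (pow_nonneg (le_max_right _ _) _)
  linarith

lemma kerK_cutTheta_nonneg (m R : ℝ) (y : Space) : 0 ≤ kerK m (cutTheta R) y :=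
  mul_nonneg (cutTheta_nonneg R _) (Yuk.yuk_nonneg m y)

/-- The weight has mass at most one; it is exactly `1 - m² ∫ kerK`. -/
lemma integral_kerW_cutTheta {m R : ℝ} (hm : 0 ≤ m) (hR : 0 < R) :
    Integrable (kerW m (cutTheta R)) ∧
      ∫ y, kerW m (cutTheta R) y = 1 - m ^ 2 * ∫ y, kerK m (cutTheta R) y ∧
      ∫ y, kerW m (cutTheta R) y ≤ 1 := by
  have hW : Integrable (kerW m (cutTheta R)) := by
    have h2 := memLp_kerW hm (contDiff_cutTheta R) (cutTheta_eq_zero hR)
    have : IsFiniteMeasure ((volume : Measure Space).restrict (closedBall 0 R)) :=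
      ⟨by rw [Measure.restrict_apply_univ]; exact measure_closedBall_lt_top⟩
    refine (integrableOn_iff_integrable_of_support_subset fun y hy => ?_).1
      ((h2.restrict (closedBall (0 : Space) R)).integrable one_le_two)
    exact mem_closedBall_zero_iff.2
      (le_of_not_gt fun h => hy (kerW_zero (cutTheta_eq_zero hR) h))
  have hc : ContDiff ℝ 2 fun _ : Space => (1 : ℝ) := contDiff_const
  have hl0 : lap (fun _ : Space => (1 : ℝ)) = fun _ => 0 := by
    funext x
    have : ∀ a, deriv3 a (fun _ : Space => (1 : ℝ)) = fun _ => 0 := fun a => by funext y; simp [deriv3]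
    simp [lap, this]
  have hp := point m R (R + 1) (cutTheta R) hm hR (by linarith) (contDiff_cutTheta R)
    (cutTheta_zero R) (cutTheta_eq_zero hR) 0 (fun _ => 1) (fun _ => 0) continuousOn_const
    (hl0 ▸ WeakPoisson.of_contDiffOn isOpen_ball hc.contDiffOn)
    (LocMemLp.of_continuousOn continuousOn_const)
  simp only [sub_zero, mul_one, zero_sub, mul_neg, integral_neg, sub_neg_eq_add,
    integral_mul_const] at hp
  refine ⟨hW, by linarith, ?_⟩
  have : 0 ≤ m ^ 2 * ∫ y, kerK m (cutTheta R) y :=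
    mul_nonneg (sq_nonneg m) (integral_nonneg (kerK_cutTheta_nonneg m R))
  linarith

end Vale.Agent.P363.Ext
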