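import Vale.Agent.P363.Ext.ToolSpec
import Vale.Agent.P363.KS.AxialAvg
import Vale.Agent.P363.Tool.YukPot

/-!
P363, exterior argument: a rotation invariant `L^{3/2}` potential is small in the mean on balls
far from the axis. A ball of radius `s` at distance `ρ` from the axis has about `ρ / s` disjoint
rotated copies, so the integral over it is at most `C s^{5/3} ρ^{-2/3}`.
-/

noncomputable section

namespace Vale.Agent.P363.Ext

open MeasureTheory Filter Metric
open scoped BigOperators Topology ENNReal Real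

/-- A nonnegative rotation invariant function in `L^{3/2}`. -/
structure RingPot (w : Space → ℝ) : Prop where
  nonneg : ∀ x, 0 ≤ w x
  rot_inv : ∀ t x, w (rot t x) = w x
  meas : Measurable w
  mem : MemLp w (3 / 2)

lemma axisDist_nonneg (x : Space) : 0 ≤ axisDist x := Real.sqrt_nonneg _

lemma axisDist_rot (t : ℝ) (x : Space) : axisDist (rot t x) = axisDist x := by
  simp only [axisDist, rot_zero, rot_one]
  congr 1
  linear_combination (x 0 ^ 2 + x 1 ^ 2) * Real.sin_sq_add_cos_sq t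

lemma rot_chord (t u : ℝ) (x : Space) :
    ‖rot t x - rot u x‖ = 2 * axisDist x * |Real.sin ((t - u) / 2)| := by
  have e : ‖rot t x - rot u x‖ ^ 2 = (x 0 ^ 2 + x 1 ^ 2) * (2 - 2 * Real.cos (t - u)) := by
    rw [EuclideanSpace.norm_sq_eq, Fin.sum_univ_three, Real.cos_sub]
    simp only [PiLp.sub_apply, rot_zero, rot_one, rot_two, Real.norm_eq_abs, sq_abs]
    linear_combination (x 0 ^ 2 + x 1 ^ 2) *
      (Real.sin_sq_add_cos_sq t + Real.sin_sq_add_cos_sq u)
  rw [← sq_eq_sq₀ (norm_nonneg _) (by positivity [axisDist_nonneg x]), e, mul_pow, mul_pow, sq_abs,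
    axisDist, Real.sq_sqrt (by positivity), Real.sin_sq_eq_half_sub, mul_div_cancel₀ _ two_ne_zero]
  ring

/-- The splitting of an invariant potential. -/
theorem axial_split {v : Space → ℝ} (hv : InV v) (hr : ∀ t x, v (rot t x) = v x)
    (hm : Measurable v) :
    ∃ (w : Space → ℝ) (M : ℝ), RingPot w ∧ 0 ≤ M ∧ ∀ x, |v x| ≤ w x + M := by
  obtain ⟨v₁, v₂, h1, h2, e⟩ := hv
  set M := (eLpNorm v₂ ∞ volume).toReal with hM
  refine ⟨fun x => max (|v x| - M) 0, M, ⟨fun x => le_max_right _ _, fun t x => by simp only [hr],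
    (hm.abs.sub_const M).max measurable_const, ?_⟩, ENNReal.toReal_nonneg,
    fun x => by linarith [le_max_left (|v x| - M) 0]⟩
  refine h1.mono ((hm.abs.sub_const M).max measurable_const).aestronglyMeasurable ?_
  filter_upwards [ae_le_eLpNormEssSup (f := v₂) (μ := volume)] with x hx
  have h : |v₂ x| ≤ M := by
    rw [hM, eLpNorm_exponent_top]
    have := ENNReal.toReal_mono (by simpa using h2.eLpNorm_ne_top) hx
    simpa using this
  rw [Real.norm_eq_abs, Real.norm_eq_abs, abs_of_nonneg (le_max_right _ _), e, Pi.add_apply]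
  exact max_le (by linarith [abs_add_le (v₁ x) (v₂ x)]) (abs_nonneg _)

/-- The size of a ring potential. -/
def ringNorm (w : Space → ℝ) : ℝ := (eLpNorm w (3 / 2) volume).toReal

lemma ringNorm_nonneg (w : Space → ℝ) : 0 ≤ ringNorm w := ENNReal.toReal_nonneg

/-- Hölder's inequality on a set. -/
theorem ring_set {w : Space → ℝ} (hw : RingPot w) {A : Set Space}
    (hfin : volume A < ∞) :
    IntegrableOn w A ∧ ∫ x in A, w x ≤ ringNorm w * volume.real A ^ (1 / 3 : ℝ) := by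
  have : IsFiniteMeasure (volume.restrict A) := isFiniteMeasure_restrict.2 hfin.ne
  have h32 : (1 : ℝ≥0∞) ≤ 3 / 2 := by
    rw [ENNReal.le_div_iff_mul_le (by simp) (by simp)]; norm_num
  have hi : IntegrableOn w A := (hw.mem.restrict A).integrable h32
  refine ⟨hi, ?_⟩
  have h := eLpNorm_le_eLpNorm_mul_rpow_measure_univ (μ := volume.restrict A) (p := 1) h32
    hw.meas.aestronglyMeasurable
  rw [Measure.restrict_apply_univ, ENNReal.toReal_one, ENNReal.toReal_div] at h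
  norm_num at h
  have h2 : eLpNorm w 1 (volume.restrict A) = ENNReal.ofReal (∫ x in A, w x) := by
    rw [eLpNorm_one_eq_lintegral_enorm, ofReal_integral_eq_lintegral_ofReal hi
      (ae_of_all _ hw.nonneg)]
    exact lintegral_congr fun x => Real.enorm_of_nonneg (hw.nonneg x)
  rw [h2] at h
  have hn : eLpNorm w (3 / 2) (volume.restrict A) ≤ eLpNorm w (3 / 2) volume :=
    eLpNorm_mono_measure _ Measure.restrict_le_self
  have h3 := h.trans (mul_le_mul' hn le_rfl)
  rw [ENNReal.ofReal_le_iff_le_toReal (ENNReal.mul_ne_top hw.mem.eLpNorm_ne_top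
    (ENNReal.rpow_ne_top_of_nonneg (by norm_num) hfin.ne)), ENNReal.toReal_mul,
    ← ENNReal.toReal_rpow] at h3
  exact h3

/-- Hölder's inequality against a weight. -/
theorem ring_lp {w g : Space → ℝ} (hw : RingPot w) (hg : MemLp g 3) :
    Integrable (fun x => w x * g x) ∧
      |∫ x, w x * g x| ≤ ringNorm w * (eLpNorm g 3 volume).toReal := by
  have : ENNReal.HolderTriple (3 / 2) 3 1 := ⟨by
    rw [ENNReal.inv_div (by simp) (by simp), inv_eq_one_div, ← ENNReal.add_div, inv_one]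
    norm_num
    exact ENNReal.div_self (by simp) (by simp)⟩
  have hle := eLpNorm_smul_le_mul_eLpNorm (p := 3 / 2) (q := 3) (r := 1) hg.1 hw.mem.1
  have hfin := ENNReal.mul_lt_top hw.mem.2 hg.2
  have hi : Integrable (fun x => w x * g x) :=
    memLp_one_iff_integrable.1 ⟨hw.mem.1.mul hg.1, hle.trans_lt hfin⟩
  refine ⟨hi, ?_⟩
  rw [← Real.norm_eq_abs, ringNorm, ← ENNReal.toReal_mul]
  refine (norm_integral_le_integral_norm _).trans ?_
  have h := ENNReal.toReal_mono hfin.ne hle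
  rw [eLpNorm_one_eq_lintegral_enorm] at h
  rw [integral_norm_eq_lintegral_enorm hi.1]
  exact h

lemma ball_rot_integral {w : Space → ℝ} (hw : RingPot w) (t : ℝ) (x : Space) (s : ℝ) :
    ∫ y in ball (rot t x) s, w y = ∫ y in ball x s, w y := by
  set e := axIso false t
  have he : ∀ y, e y = rot t y := fun y => by simp [e, axMap]
  have hp : e ⁻¹' ball (rot t x) s = ball x s := by
    ext y
    rw [Set.mem_preimage, mem_ball, mem_ball, ← he x, e.dist_map]
  rw [← (e.measurePreserving).setIntegral_preimage_emb e.toHomeomorph.measurableEmbedding w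
    (ball (rot t x) s), hp]
  simp only [he, hw.rot_inv]

/-- The integral over a ball far from the axis. -/
theorem ring_ball {w : Space → ℝ} (hw : RingPot w) :
    ∃ C, 0 ≤ C ∧ ∀ (x : Space) (s : ℝ), 0 < s → s ≤ axisDist x →
      IntegrableOn w (ball x s) ∧
        ∫ y in ball x s, w y ≤ C * (s ^ (5 / 3 : ℝ) / axisDist x ^ (2 / 3 : ℝ)) := by
  set V := volume.real (ball (0 : Space) 1)
  have hV : 0 ≤ V := measureReal_nonneg
  refine ⟨ringNorm w * V ^ (1 / 3 : ℝ), mul_nonneg (ringNorm_nonneg w) (Real.rpow_nonneg hV _),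
    fun x s hs hsx => ?_⟩
  have hball : ∀ y : Space, volume.real (ball y s) = s ^ 3 * V := fun y => by
    rw [measureReal_def, Measure.addHaar_ball_of_pos volume y hs, ENNReal.toReal_mul,
      ENNReal.toReal_ofReal (by positivity), Yuk.finrank_space]
    rfl
  refine ⟨(ring_set hw measure_ball_lt_top).1, ?_⟩
  set ρ := axisDist x
  have hρ : 0 < ρ := hs.trans_le hsx
  set N := ⌊ρ / s⌋₊ + 1 with hN
  have hNρ : ρ / s ≤ N := by
    push_cast [hN]; exact (Nat.lt_floor_add_one _).le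
  have hNle : ((N : ℝ) - 1) ≤ ρ / s := by
    push_cast [hN]
    simpa using Nat.floor_le (div_nonneg hρ.le hs.le)
  set θ := π * s / ρ with hθ
  have hθ0 : 0 < θ := by positivity
  let B : Fin N → Set Space := fun i => ball (rot ((i : ℕ) * θ) x) s
  have hdisj : Pairwise (Function.onFun Disjoint B) := by
    intro i j hij
    refine ball_disjoint_ball ?_
    rw [dist_eq_norm, rot_chord, ← sub_mul]
    have hne : (1 : ℝ) ≤ |((i : ℕ) : ℝ) - (j : ℕ)| := by
      have h : (i : ℤ) - (j : ℤ) ≠ 0 := sub_ne_zero.2 (by exact_mod_cast Fin.val_ne_iff.2 hij)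
      exact_mod_cast Int.one_le_abs h
    have hmax : |((i : ℕ) : ℝ) - (j : ℕ)| ≤ (N : ℝ) - 1 := by
      have hi : ((i : ℕ) : ℝ) ≤ (N : ℝ) - 1 := by
        have : ((i : ℕ) : ℝ) + 1 ≤ (N : ℝ) := by exact_mod_cast i.isLt
        linarith
      have hj : ((j : ℕ) : ℝ) ≤ (N : ℝ) - 1 := by
        have : ((j : ℕ) : ℝ) + 1 ≤ (N : ℝ) := by exact_mod_cast j.isLt
        linarith
      rw [abs_le]
      constructor <;> linarith [(Nat.cast_nonneg (i : ℕ) : (0 : ℝ) ≤ _),
        (Nat.cast_nonneg (j : ℕ) : (0 : ℝ) ≤ _)]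
    have hsin : |Real.sin ((((i : ℕ) : ℝ) - (j : ℕ)) * θ / 2)| =
        |Real.sin (|((i : ℕ) : ℝ) - (j : ℕ)| * θ / 2)| := by
      rcases abs_choice (((i : ℕ) : ℝ) - (j : ℕ)) with h | h <;> rw [h]
      rw [neg_mul, neg_div, Real.sin_neg, abs_neg]
    rw [hsin]
    set d := |((i : ℕ) : ℝ) - (j : ℕ)|
    have hd2 : d * θ / 2 ≤ π / 2 := by
      have h1 : d * θ ≤ ρ / s * θ := mul_le_mul_of_nonneg_right (hmax.trans hNle) hθ0.le
      rw [show ρ / s * θ = π by rw [hθ]; field_simp] at h1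
      linarith
    have h := (Real.mul_le_sin (by positivity) hd2).trans (le_abs_self _)
    calc s + s = 2 * ρ * (2 / π * (1 * θ / 2)) := by rw [hθ]; field_simp; ring
      _ ≤ 2 * ρ * (2 / π * (d * θ / 2)) := by gcongr
      _ ≤ _ := by gcongr
  have hfin : volume (⋃ i, B i) < ∞ :=
    (measure_iUnion_fintype_le volume B).trans_lt
      (ENNReal.sum_lt_top.2 fun i _ => measure_ball_lt_top)
  have hU : ∫ y in ⋃ i, B i, w y = N * ∫ y in ball x s, w y := by
    rw [integral_iUnion_fintype (fun i => measurableSet_ball) hdisj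
      fun i => (ring_set hw measure_ball_lt_top).1]
    simp [ball_rot_integral hw]
  have hvol : volume.real (⋃ i, B i) ≤ N * (s ^ 3 * V) := by
    refine (measureReal_iUnion_fintype_le B).trans_eq ?_
    simp [B, hball]
  have h := (ring_set hw hfin).2.trans (mul_le_mul_of_nonneg_left
    (Real.rpow_le_rpow measureReal_nonneg hvol (by norm_num)) (ringNorm_nonneg w))
  rw [hU, Real.mul_rpow (Nat.cast_nonneg _) (by positivity), Real.mul_rpow (by positivity) hV,
    ← Real.rpow_natCast s 3, ← Real.rpow_mul hs.le] at h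
  norm_num at h
  have hNpos : (0 : ℝ) < N := by positivity
  have hI : ∫ y in ball x s, w y ≤
      ringNorm w * V ^ (1 / 3 : ℝ) * (s * (N : ℝ) ^ (-(2 / 3) : ℝ)) := by
    have e : (N : ℝ) ^ (1 / 3 : ℝ) = N * (N : ℝ) ^ (-(2 / 3) : ℝ) := by
      nth_rewrite 2 [← Real.rpow_one (N : ℝ)]
      rw [← Real.rpow_add hNpos]; norm_num
    rw [e] at h
    refine le_of_mul_le_mul_left (h.trans (le_of_eq ?_)) hNpos
    ring
  refine hI.trans (mul_le_mul_of_nonneg_left ?_
    (mul_nonneg (ringNorm_nonneg w) (Real.rpow_nonneg hV _)))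
  calc s * (N : ℝ) ^ (-(2 / 3) : ℝ) ≤ s * (ρ / s) ^ (-(2 / 3) : ℝ) :=
        mul_le_mul_of_nonneg_left
          (Real.rpow_le_rpow_of_nonpos (by positivity) hNρ (by norm_num)) hs.le
    _ = s ^ (5 / 3 : ℝ) / ρ ^ (2 / 3 : ℝ) := by
        rw [Real.div_rpow hρ.le hs.le, Real.rpow_neg hρ.le, Real.rpow_neg hs.le,
          show (5 / 3 : ℝ) = 1 + 2 / 3 by norm_num, Real.rpow_add hs, Real.rpow_one]
        field_simp

/-- Growth of the mass on small balls bounds the integral against a singular kernel. -/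
theorem ball_kernel {β a : ℝ} (hb0 : 0 ≤ β) (hab : β < a) :
    ∃ K, 0 ≤ K ∧ ∀ (w : Space → ℝ) (x : Space) (R D : ℝ), Measurable w → (∀ y, 0 ≤ w y) →
      0 < R → 0 ≤ D → (∀ s, 0 < s → s ≤ R →
        IntegrableOn w (ball x s) ∧ ∫ y in ball x s, w y ≤ D * s ^ a) →
      IntegrableOn (fun y => w y * ‖x - y‖ ^ (-β)) (ball x R) ∧
        ∫ y in ball x R, w y * ‖x - y‖ ^ (-β) ≤ K * D * R ^ (a - β) := by
  set γ := a - β with hγ
  set q := (1 / 2 : ℝ) ^ γ with hq
  have hγ0 : 0 < γ := sub_pos.2 hab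
  have hq0 : 0 ≤ q := by positivity
  have hq1 : q < 1 := Real.rpow_lt_one (by norm_num) (by norm_num) hγ0
  refine ⟨2 ^ β * (1 - q)⁻¹, by positivity [sub_pos.2 hq1], fun w x R D hwm hw0 hR hD hball => ?_⟩
  set f : Space → ℝ := fun y => w y * ‖x - y‖ ^ (-β) with hf
  have hfm : Measurable f :=
    hwm.mul ((measurable_const.sub measurable_id).norm.pow_const (-β))
  have hf0 : ∀ y, 0 ≤ f y := fun y =>
    mul_nonneg (hw0 y) (Real.rpow_nonneg (norm_nonneg _) _)
  let t : ℕ → ℝ := fun j => R * (1 / 2) ^ j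
  have ht : ∀ j, 0 < t j := fun j => by positivity
  have htR : ∀ j, t j ≤ R := fun j =>
    mul_le_of_le_one_right hR.le (pow_le_one₀ (by norm_num) (by norm_num))
  let g : ℕ → Space → ℝ≥0∞ := fun j => (ball x (t j)).indicator
    fun y => ENNReal.ofReal (w y * (t j / 2) ^ (-β))
  have hpt : ∀ y, y ≠ x → y ∈ ball x R → ENNReal.ofReal (f y) ≤ ∑' j, g j y := by
    intro y hne hy
    set d := ‖x - y‖
    have hd : 0 < d := norm_pos_iff.2 (sub_ne_zero.2 hne.symm)
    have hdR : d < R := by rwa [mem_ball, dist_comm, dist_eq_norm] at hy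
    obtain ⟨n, hn⟩ := exists_pow_lt_of_lt_one (div_pos hd hR) (by norm_num : (1 / 2 : ℝ) < 1)
    have hex : ∃ m, t (m + 1) ≤ d := ⟨n, by
      have h1 : R * (1 / 2) ^ n < d := by
        rw [lt_div_iff₀ hR] at hn; linarith
      have h2 : (1 / 2 : ℝ) ^ (n + 1) ≤ (1 / 2) ^ n :=
        pow_le_pow_of_le_one (by norm_num) (by norm_num) (by omega)
      exact (mul_le_mul_of_nonneg_left h2 hR.le).trans h1.le⟩
    set m := Nat.find hex
    have h1 : t (m + 1) ≤ d := Nat.find_spec hex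
    have h2 : d < t m := by
      rcases Nat.eq_zero_or_pos m with h0 | h0
      · simpa [t, h0] using hdR
      · have := Nat.find_min hex (show m - 1 < m by omega)
        rw [not_le, show m - 1 + 1 = m by omega] at this
        exact this
    refine le_trans ?_ (ENNReal.le_tsum m)
    simp only [g]
    rw [Set.indicator_of_mem (by rwa [mem_ball, dist_comm, dist_eq_norm])]
    refine ENNReal.ofReal_le_ofReal (mul_le_mul_of_nonneg_left
      (Real.rpow_le_rpow_of_nonpos (by linarith [ht m]) ?_ (neg_nonpos.2 hb0)) (hw0 y))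
    calc t m / 2 = t (m + 1) := by simp only [t, pow_succ]; ring
      _ ≤ d := h1
  have hgi : ∀ j, ∫⁻ y, g j y ≤
      ENNReal.ofReal (2 ^ β * D * R ^ γ * q ^ j) := by
    intro j
    obtain ⟨hi, hle⟩ := hball (t j) (ht j) (htR j)
    simp only [g]
    rw [lintegral_indicator measurableSet_ball,
      ← ofReal_integral_eq_lintegral_ofReal (hi.mul_const _) (ae_of_all _ fun y =>
        mul_nonneg (hw0 y) (Real.rpow_nonneg (by linarith [ht j]) _)), integral_mul_const]
    refine ENNReal.ofReal_le_ofReal ((mul_le_mul_of_nonneg_right hle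
      (Real.rpow_nonneg (by linarith [ht j]) _)).trans_eq ?_)
    have e1 : (t j / 2) ^ (-β) = 2 ^ β * t j ^ (-β) := by
      rw [Real.div_rpow (ht j).le zero_le_two, Real.rpow_neg zero_le_two]
      field_simp
    have e2 : t j ^ a * t j ^ (-β) = R ^ γ * q ^ j := by
      rw [← Real.rpow_add (ht j), ← sub_eq_add_neg, ← hγ, hq, ← Real.rpow_natCast,
        ← Real.rpow_mul (by norm_num), mul_comm γ, Real.rpow_natCast_mul (by norm_num),
        Real.mul_rpow hR.le (by positivity)]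
    rw [e1]
    linear_combination (2 ^ β * D) * e2
  set b := 2 ^ β * D * R ^ γ
  have hb' : 0 ≤ b := by positivity
  have hlin : ∫⁻ y in ball x R, ENNReal.ofReal (f y) ≤ ENNReal.ofReal (b * (1 - q)⁻¹) := by
    have hgm : ∀ j, Measurable (g j) := fun j =>
      ((hwm.mul_const _).ennreal_ofReal).indicator measurableSet_ball
    calc ∫⁻ y in ball x R, ENNReal.ofReal (f y) ≤ ∫⁻ y in ball x R, ∑' j, g j y := by
          refine lintegral_mono_ae ?_
          filter_upwards [ae_restrict_mem measurableSet_ball,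
            ae_restrict_of_ae (Measure.ae_ne volume x)] with y hy hne using hpt y hne hy
      _ ≤ ∫⁻ y, ∑' j, g j y := setLIntegral_le_lintegral _ _
      _ = ∑' j, ∫⁻ y, g j y := lintegral_tsum fun j => (hgm j).aemeasurable
      _ ≤ ∑' j, ENNReal.ofReal (b * q ^ j) := ENNReal.tsum_le_tsum hgi
      _ = _ := by
          rw [← ENNReal.ofReal_tsum_of_nonneg (fun j => by positivity)
            ((summable_geometric_of_lt_one hq0 hq1).mul_left b), tsum_mul_left,
            tsum_geometric_of_lt_one hq0 hq1]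
  have hi : IntegrableOn f (ball x R) := ⟨hfm.aestronglyMeasurable, by
    rw [hasFiniteIntegral_iff_ofReal (ae_of_all _ hf0)]
    exact hlin.trans_lt ENNReal.ofReal_lt_top⟩
  refine ⟨hi, ?_⟩
  rw [integral_eq_lintegral_of_nonneg_ae (ae_of_all _ hf0) hfm.aestronglyMeasurable]
  refine (ENNReal.toReal_mono ENNReal.ofReal_ne_top hlin).trans_eq ?_
  rw [ENNReal.toReal_ofReal (by positivity [sub_pos.2 hq1])]
  simp only [b]
  ring

/-- The integral against a kernel singular at the centre. -/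
theorem ring_kernel {w : Space → ℝ} (hw : RingPot w) {β : ℝ} (hb0 : 0 ≤ β) (hb : β < 5 / 3) :
    ∃ C, 0 ≤ C ∧ ∀ (x : Space) (R : ℝ), 0 < R → R ≤ axisDist x →
      IntegrableOn (fun y => w y * ‖x - y‖ ^ (-β)) (ball x R) ∧
        ∫ y in ball x R, w y * ‖x - y‖ ^ (-β) ≤
          C * (R ^ (5 / 3 - β) / axisDist x ^ (2 / 3 : ℝ)) := by
  obtain ⟨C, hC, hball⟩ := ring_ball hw
  obtain ⟨K, hK, hker⟩ := ball_kernel hb0 hb
  refine ⟨K * C, mul_nonneg hK hC, fun x R hR hRx => ?_⟩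
  obtain ⟨hi, hle⟩ := hker w x R (C / axisDist x ^ (2 / 3 : ℝ)) hw.meas hw.nonneg hR
    (div_nonneg hC (Real.rpow_nonneg (axisDist_nonneg x) _)) fun s hs hsR =>
      ⟨(hball x s hs (hsR.trans hRx)).1, (hball x s hs (hsR.trans hRx)).2.trans_eq (by ring)⟩
  exact ⟨hi, hle.trans_eq (by ring)⟩

/-- The integral of a singular kernel over a ball. -/
theorem unit_kernel {β : ℝ} (hb0 : 0 ≤ β) (hb : β < 3) :
    ∃ K, 0 ≤ K ∧ ∀ (x : Space) (R : ℝ), 0 < R →
      IntegrableOn (fun y => ‖x - y‖ ^ (-β)) (ball x R) ∧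
        ∫ y in ball x R, ‖x - y‖ ^ (-β) ≤ K * R ^ (3 - β) := by
  obtain ⟨K, hK, hker⟩ := ball_kernel hb0 hb
  set V := volume.real (ball (0 : Space) 1)
  refine ⟨K * V, mul_nonneg hK measureReal_nonneg, fun x R hR => ?_⟩
  obtain ⟨hi, hle⟩ := hker (fun _ => (1 : ℝ)) x R V measurable_const (fun _ => zero_le_one) hR
    measureReal_nonneg fun s hs _ => ⟨integrableOn_const measure_ball_lt_top.ne, by
      rw [setIntegral_const, smul_eq_mul, mul_one, measureReal_def,
        Measure.addHaar_ball_of_pos volume x hs, ENNReal.toReal_mul,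
        ENNReal.toReal_ofReal (by positivity), Yuk.finrank_space,
        show (3 : ℝ) = ((3 : ℕ) : ℝ) by norm_num, Real.rpow_natCast, mul_comm]
      rfl⟩
  simp only [one_mul] at hi hle
  exact ⟨hi, hle⟩

/-- Ring averaging of the kernel against a potential of the class. -/
theorem ring : RingStmt := by
  intro v hv hvm hva
  obtain ⟨w, M, hw, hM, hle⟩ := axial_split hv hva.1 hvm
  obtain ⟨C₁, hC₁, h₁⟩ := ring_kernel hw zero_le_one (by norm_num : (1 : ℝ) < 5 / 3)
  obtain ⟨C₂, hC₂, h₂⟩ := ring_kernel hw (by norm_num : (0 : ℝ) ≤ 3 / 2) (by norm_num)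
  obtain ⟨K₁, hK₁, g₁⟩ := unit_kernel zero_le_one (by norm_num : (1 : ℝ) < 3)
  obtain ⟨K₂, hK₂, g₂⟩ := unit_kernel zero_le_two (by norm_num : (2 : ℝ) < 3)
  refine ⟨C₁ + C₂ + M * K₁ + M * K₂, by positivity, fun x₀ R hρ hR h2R => ?_⟩
  set ρ := axisDist x₀
  have hρ0 : 0 < ρ := one_pos.trans_le hρ
  have hRρ : R ≤ ρ := by linarith
  have hn : ∀ y, ‖y - x₀‖⁻¹ = ‖x₀ - y‖ ^ (-(1 : ℝ)) := fun y => by
    rw [Real.rpow_neg_one, norm_sub_rev]
  obtain ⟨i₁, b₁⟩ := h₁ x₀ R hR hRρ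
  obtain ⟨j₁, c₁⟩ := g₁ x₀ R hR
  obtain ⟨i₂, b₂⟩ := h₂ x₀ R hR hRρ
  obtain ⟨j₂, c₂⟩ := g₂ x₀ R hR
  have hm : Measurable fun y => |v y| * ‖y - x₀‖⁻¹ :=
    hvm.abs.mul (measurable_id.sub measurable_const).norm.inv
  have hp : ∀ y, |v y| * ‖y - x₀‖⁻¹ ≤
      w y * ‖x₀ - y‖ ^ (-(1 : ℝ)) + M * ‖x₀ - y‖ ^ (-(1 : ℝ)) := fun y => by
    rw [hn, ← add_mul]
    exact mul_le_mul_of_nonneg_right (hle y) (Real.rpow_nonneg (norm_nonneg _) _)
  have hdom : IntegrableOn (fun y => w y * ‖x₀ - y‖ ^ (-(1 : ℝ)) + M * ‖x₀ - y‖ ^ (-(1 : ℝ)))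
      (ball x₀ R) := i₁.add (j₁.const_mul M)
  have hi : IntegrableOn (fun y => |v y| * ‖y - x₀‖⁻¹) (ball x₀ R) :=
    hdom.mono' hm.aestronglyMeasurable (ae_of_all _ fun y => by
      rw [Real.norm_eq_abs, abs_of_nonneg (mul_nonneg (abs_nonneg _) (inv_nonneg.2 (norm_nonneg _)))]
      exact hp y)
  refine ⟨⟨hi, (setIntegral_mono hi hdom hp).trans ?_⟩, fun z hz _ => ?_⟩
  · rw [integral_add i₁ (j₁.const_mul M), integral_const_mul, Real.div_rpow hR.le hρ0.le]
    norm_num at b₁ c₁ ⊢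
    have h0 : 0 ≤ R ^ (2 / 3 : ℝ) / ρ ^ (2 / 3 : ℝ) := by positivity
    nlinarith [mul_le_mul_of_nonneg_left c₁ hM, mul_nonneg hC₂ h0,
      mul_nonneg (mul_nonneg hM hK₁) h0, mul_nonneg (mul_nonneg hM hK₂) h0,
      mul_nonneg hC₁ (sq_nonneg R), mul_nonneg hC₂ (sq_nonneg R),
      mul_nonneg (mul_nonneg hM hK₂) (sq_nonneg R)]
  have hdom2 : IntegrableOn (fun y => √z * (w y * ‖x₀ - y‖ ^ (-(3 / 2) : ℝ)) +
      z * M * ‖x₀ - y‖ ^ (-(2 : ℝ))) (ball x₀ R) :=
    (i₂.const_mul _).add (j₂.const_mul _)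
  have hp2 : ∀ y, |v y| * min ‖y - x₀‖⁻¹ (z * (‖y - x₀‖ ^ 2)⁻¹) ≤
      √z * (w y * ‖x₀ - y‖ ^ (-(3 / 2) : ℝ)) + z * M * ‖x₀ - y‖ ^ (-(2 : ℝ)) := fun y => by
    rw [norm_sub_rev y x₀]
    set d := ‖x₀ - y‖
    have hd : 0 ≤ d := norm_nonneg _
    have hm0 : 0 ≤ min d⁻¹ (z * (d ^ 2)⁻¹) := le_min (inv_nonneg.2 hd) (by positivity)
    have h2 : min d⁻¹ (z * (d ^ 2)⁻¹) ≤ z * d ^ (-(2 : ℝ)) := by
      rw [Real.rpow_neg hd, Real.rpow_two]; exact min_le_right _ _
    have h3 : min d⁻¹ (z * (d ^ 2)⁻¹) ≤ √z * d ^ (-(3 / 2) : ℝ) := by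
      rcases eq_or_lt_of_le hd with h | h
      · refine (min_le_left _ _).trans ?_
        rw [← h]
        simp
      · have e : d ^ (-(3 / 2) : ℝ) = d⁻¹ / √d := by
          rw [Real.sqrt_eq_rpow, ← Real.rpow_neg_one, ← Real.rpow_sub h]; norm_num
        rw [e]
        rcases le_total d z with hdz | hdz
        · refine (min_le_left _ _).trans ?_
          rw [mul_div_assoc', le_div_iff₀ (Real.sqrt_pos.2 h), mul_comm]
          exact mul_le_mul_of_nonneg_right (Real.sqrt_le_sqrt hdz) (inv_nonneg.2 hd)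
        · refine (min_le_right _ _).trans ?_
          rw [mul_div_assoc', le_div_iff₀ (Real.sqrt_pos.2 h)]
          calc z * (d ^ 2)⁻¹ * √d = √z * (√z * √d) * (d ^ 2)⁻¹ := by
                linear_combination (-((d ^ 2)⁻¹ * √d)) * Real.mul_self_sqrt hz.le
            _ ≤ √z * (√d * √d) * (d ^ 2)⁻¹ := by
                gcongr
            _ = √z * d⁻¹ := by
                rw [Real.mul_self_sqrt hd]; field_simp
    calc |v y| * min d⁻¹ (z * (d ^ 2)⁻¹) ≤ (w y + M) * min d⁻¹ (z * (d ^ 2)⁻¹) :=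
          mul_le_mul_of_nonneg_right (hle y) hm0
      _ = w y * min d⁻¹ (z * (d ^ 2)⁻¹) + M * min d⁻¹ (z * (d ^ 2)⁻¹) := by ring
      _ ≤ w y * (√z * d ^ (-(3 / 2) : ℝ)) + M * (z * d ^ (-(2 : ℝ))) :=
          add_le_add (mul_le_mul_of_nonneg_left h3 (hw.nonneg y)) (mul_le_mul_of_nonneg_left h2 hM)
      _ = _ := by ring
  have hi2 : IntegrableOn (fun y => |v y| * min ‖y - x₀‖⁻¹ (z * (‖y - x₀‖ ^ 2)⁻¹))
      (ball x₀ R) := hdom2.mono' (hvm.abs.mul ((measurable_id.sub measurable_const).norm.inv.min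
        (((measurable_id.sub measurable_const).norm.pow_const 2).inv.const_mul z))).aestronglyMeasurable
      (ae_of_all _ fun y => by
        rw [Real.norm_eq_abs, abs_of_nonneg (mul_nonneg (abs_nonneg _)
          (le_min (inv_nonneg.2 (norm_nonneg _)) (by positivity)))]
        exact hp2 y)
  refine (setIntegral_mono hi2 hdom2 hp2).trans ?_
  rw [integral_add (i₂.const_mul _) (j₂.const_mul _), integral_const_mul, integral_const_mul]
  rw [show (5 / 3 - 3 / 2 : ℝ) = 1 / 6 by norm_num] at b₂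
  rw [show (3 - 2 : ℝ) = 1 by norm_num, Real.rpow_one] at c₂
  rw [mul_div_assoc]
  have h0 : 0 ≤ √z * (R ^ (1 / 6 : ℝ) / ρ ^ (2 / 3 : ℝ)) := by positivity
  have hz0 : 0 ≤ z * R := by positivity
  nlinarith [mul_le_mul_of_nonneg_left b₂ (Real.sqrt_nonneg z),
    mul_le_mul_of_nonneg_left c₂ (mul_nonneg hz.le hM), mul_nonneg hC₁ h0,
    mul_nonneg (mul_nonneg hM hK₁) h0, mul_nonneg (mul_nonneg hM hK₂) h0,
    mul_nonneg hC₁ hz0, mul_nonneg hC₂ hz0, mul_nonneg (mul_nonneg hM hK₁) hz0]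

/-- The defect `W` of a setup outside a large ball. -/
theorem setup_split (S : Setup) :
    ∃ (w : Space → ℝ) (M : ℝ), RingPot w ∧ 0 ≤ M ∧
      ∀ x : Space, 1 ≤ ‖x‖ → |S.v x| ≤ w x + M ∧ |S.W x| ≤ w x + M := by
  obtain ⟨w, M, hw, hM, h⟩ := axial_split S.inV S.axial_v.1 S.meas_v
  refine ⟨w, M + |S.μ| + |S.a ^ 2 / 2| + |S.k|, hw, by positivity, fun x hx =>
    ⟨by linarith [h x, abs_nonneg S.μ, abs_nonneg (S.a ^ 2 / 2), abs_nonneg S.k], ?_⟩⟩
  have hk : |S.k / ‖x‖| ≤ |S.k| := by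
    rw [abs_div, abs_norm]; exact div_le_self (abs_nonneg _) hx
  simp only [Setup.W, farPot]
  have h1 := abs_sub (S.v x - S.μ) (S.a ^ 2 / 2 - S.k / ‖x‖)
  have h2 := abs_sub (S.v x) S.μ
  have h3 := abs_sub (S.a ^ 2 / 2) (S.k / ‖x‖)
  linarith [h x]

end Vale.Agent.P363.Ext
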