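import Vale.Agent.P363.Ext.Combination
import Vale.Agent.P363.Ext.MinPrinciple
import Vale.Agent.P363.Ext.NearPlane
import Vale.Agent.P363.Ext.Point
import Vale.Agent.P363.Ext.Ring

/-!
P363, Kohn-Sham side: the odd orbital carries the linear zero. Between the heights `1 / r` and
`δ` everything else is small by the near-plane estimate, and above `δ` the minimum principle for
`φu / √n` keeps the bound.
-/

noncomputable section

namespace Vale.Agent.P363.Ext

open MeasureTheory Metric Set
open scoped BigOperators Topology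

/-- Between `1 / r` and a small height everything but the odd orbital is small. -/
theorem near_small (S : Setup) (ε : ℝ) (hε : 0 < ε) :
    ∃ δ R : ℝ, 0 < δ ∧ S.R₁ + 2 ≤ R ∧ 4 * δ ≤ 1 ∧ ∀ x : Space, R ≤ ‖x‖ → 1 / ‖x‖ ≤ height x →
      height x ≤ δ → S.n x - S.φu x ^ 2 ≤ ε * (height x * S.G x) ^ 2 := by
  set η := Real.sqrt (ε / 4) with hη
  have hη0 : 0 < η := Real.sqrt_pos.2 (by positivity)
  have hη2 : η ^ 2 = ε / 4 := Real.sq_sqrt (by positivity)
  obtain ⟨δ₁, R₁', hδ₁, hR₁', h₁⟩ := near_plane point ring S 1 η hη0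
  obtain ⟨δ₂, R₂', hδ₂, hR₂', h₂⟩ := near_plane point ring S S.gap η hη0
  refine ⟨min (min δ₁ δ₂) (1 / 4), max (max R₁' R₂') (S.R₁ + 2), by positivity, le_max_right _ _,
    by linarith [min_le_right (min δ₁ δ₂) (1 / 4)], fun x hx hxK hxδ => ?_⟩
  have hx₁ : R₁' ≤ ‖x‖ := le_trans ((le_max_left _ _).trans (le_max_left _ _)) hx
  have hx₂ : R₂' ≤ ‖x‖ := le_trans ((le_max_right _ _).trans (le_max_left _ _)) hx
  have hxR : S.R₁ + 2 ≤ ‖x‖ := (le_max_right _ _).trans hx
  have hxd₁ : height x ≤ δ₁ := hxδ.trans ((min_le_left _ _).trans (min_le_left _ _))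
  have hxd₂ : height x ≤ δ₂ := hxδ.trans ((min_le_left _ _).trans (min_le_right _ _))
  have hx4 : height x ≤ 1 / 4 := hxδ.trans (min_le_right _ _)
  have h1 : (1 : ℝ) ≤ S.R₁ := S.data.one_le.trans S.R₀_le
  have hz : 0 ≤ height x := le_trans (by positivity) hxK
  have hxb : x ∈ belt S.R₁ := ⟨by linarith, by rw [abs_of_nonneg hz]; linarith⟩
  have hG : 0 < S.G x := tailG_pos _ _ (by linarith)
  have hp : ∀ (ν : ℝ) (f : Space → ℝ), Profile S ν f → |f x| ≤ η * height x * S.G x := by
    intro ν f hf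
    obtain ⟨w, hw, -⟩ := hf.evenSol
    exact h₁ f w hw x hx₁ hxK hxd₁
  have hprof := profile_part_le hxb hp
  have hg := h₂ S.φ₀ _ (evenSol_ground S) x hx₂ hxK hxd₂
  rw [abs_of_nonneg (S.nonneg₀ x)] at hg
  have hg2 := pow_le_pow_left₀ (S.nonneg₀ x) hg 2
  calc S.n x - S.φu x ^ 2 ≤ 4 * (η * height x * S.G x) ^ 2 := by linarith
    _ = ε * (height x * S.G x) ^ 2 := by rw [mul_assoc η, mul_pow η, hη2]; ring

/-- The odd orbital is at least `c' z G` from the height `1 / r` on. -/
theorem bulkOne : BulkOneStmt := by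
  intro S
  have hd := S.data
  have hc := hd.c_pos
  have hC : 0 < S.C := lt_of_lt_of_le (hd.positive 0) (hd.bounded 0)
  obtain ⟨δ, R₀', hδ, hR₀', h4δ, hsmall⟩ := near_small S (3 * S.c ^ 2 / 4) (by positivity)
  set R := max R₀' (1 / δ + 1) with hR
  have hRR : R₀' ≤ R := le_max_left _ _
  have hRδ : 1 / δ + 1 ≤ R := le_max_right _ _
  have hR1 : (1 : ℝ) ≤ S.R₁ := hd.one_le.trans S.R₀_le
  have hnear : ∀ x : Space, R ≤ ‖x‖ → 1 / ‖x‖ ≤ height x → height x ≤ δ →
      S.c / 2 * height x * S.G x ≤ S.φu x := by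
    intro x hx hxK hxδ
    have hs := hsmall x (hRR.trans hx) hxK hxδ
    have hz : 0 < height x := lt_of_lt_of_le (by have : 0 < ‖x‖ := by linarith
                                                 positivity) hxK
    have hG : 0 < S.G x := tailG_pos _ _ (by linarith)
    have hlow := hd.lower x (by linarith [S.R₀_le])
    rw [abs_of_pos hz] at hlow
    have hc1 : S.c * height x * S.G x ≤ Real.sqrt (S.n x) := by
      refine le_trans (le_of_eq ?_) ((mul_le_mul_of_nonneg_right (mul_le_mul_of_nonneg_left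
        (le_add_of_nonneg_right (by positivity)) hc.le) hG.le).trans hlow)
      rfl
    have hn := (Real.le_sqrt (by positivity) (hd.positive x).le).1 hc1
    refine nonneg_le_nonneg_of_sq_le_sq (S.nonneg_u x hz.le) ?_
    nlinarith [sq_nonneg (height x * S.G x)]
  -- the boundary of the region of the minimum principle
  have hRδ' : ∀ x : Space, R ≤ ‖x‖ → 1 / ‖x‖ ≤ δ := fun x hx => by
    rw [one_div_le (by linarith) hδ]; linarith
  have hplane : ∀ x : Space, R ≤ ‖x‖ → height x = δ →
      S.c / (4 * S.C) * Real.sqrt (S.n x) ≤ S.φu x := by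
    intro x hx hxz
    have h1 := hnear x hx (by rw [hxz]; exact hRδ' x hx) hxz.le
    have hz : 0 < height x := hxz ▸ hδ
    have hr : 0 < ‖x‖ := by linarith
    have hG : 0 < S.G x := tailG_pos _ _ hr
    have hup : Real.sqrt (S.n x) ≤ S.C * (2 * height x) * S.G x := by
      refine (hd.upper x (by linarith [S.R₀_le])).trans ?_
      rw [abs_of_pos hz]
      refine mul_le_mul_of_nonneg_right (mul_le_mul_of_nonneg_left ?_ hC.le) hG.le
      have hr1 : (1 : ℝ) ≤ ‖x‖ := by linarith
      have e : (‖x‖ ^ 3)⁻¹ ≤ 1 / ‖x‖ := by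
        rw [one_div]
        exact inv_anti₀ hr (le_self_pow₀ hr1 (by norm_num))
      linarith [hRδ' x hx]
    refine le_trans (mul_le_mul_of_nonneg_left hup (by positivity)) (le_trans (le_of_eq ?_) h1)
    field_simp
    ring
  -- the sphere
  set T := {x : Space | ‖x‖ = R ∧ δ ≤ height x} with hT
  have hTc : IsCompact T := by
    refine (isCompact_closedBall (0 : Space) R).of_isClosed_subset ?_ fun x hx => by
      simp [hx.1.le]
    exact (isClosed_eq continuous_norm continuous_const).inter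
      (isClosed_le continuous_const (show Continuous fun x : Space => x 2 by fun_prop))
  have hpos : ∀ x ∈ far S.R₁, 0 < height x → 0 < S.φu x := by
    rcases S.pos_or_zero_u with h | h
    · -- the near-plane bound at a point of the plane `z = δ`
      exfalso
      set x₀ : Space := (R + δ) • unit3 0 + δ • unit3 2 with hx₀
      have hh : height x₀ = δ := by simp [hx₀, height, unit3]
      have hnr : R ≤ ‖x₀‖ := by
        have h0 : |x₀ 0| ≤ ‖x₀‖ := by simpa using PiLp.norm_apply_le x₀ 0
        have e0 : x₀ 0 = R + δ := by simp [hx₀, unit3]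
        rw [e0] at h0
        linarith [le_abs_self (R + δ)]
      have h1 := hnear x₀ hnr (by rw [hh]; exact hRδ' x₀ hnr) hh.le
      rw [h x₀ (show S.R₁ < ‖x₀‖ by linarith) (by rw [hh]; exact hδ), hh] at h1
      have hG0 : 0 < S.G x₀ := tailG_pos S.a S.k (show 0 < ‖x₀‖ by linarith)
      linarith [mul_pos (mul_pos (half_pos hc) hδ) hG0]
    · exact h
  obtain ⟨m, hm, hTm⟩ : ∃ m : ℝ, 0 < m ∧ ∀ x ∈ T, m * Real.sqrt (S.n x) ≤ S.φu x := by
    rcases T.eq_empty_or_nonempty with hTe | hTn
    · exact ⟨1, one_pos, by simp [hTe]⟩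
    obtain ⟨x₁, hx₁, hmin⟩ := hTc.exists_isMinOn hTn
      (f := fun x => S.φu x / Real.sqrt (S.n x)) (S.cont_u.div (hd.continuous.sqrt)
        fun x => (Real.sqrt_pos.2 (hd.positive x)).ne').continuousOn
    have hx₁f : x₁ ∈ far S.R₁ := show S.R₁ < ‖x₁‖ by rw [hx₁.1]; linarith
    exact ⟨S.φu x₁ / Real.sqrt (S.n x₁),
      div_pos (hpos x₁ hx₁f (hδ.trans_le hx₁.2)) (Real.sqrt_pos.2 (hd.positive x₁)),
      fun x hx => (le_div_iff₀ (Real.sqrt_pos.2 (hd.positive x))).1 (hmin hx)⟩
  set c₂ := min (S.c / (4 * S.C)) m with hc₂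
  have hc₂0 : 0 < c₂ := lt_min (by positivity) hm
  have hmp := S.min_principle (c := c₂) hδ (show S.R₁ < R by linarith) fun x hxR hxz hb => by
    rcases hb with hb | hb
    · exact (mul_le_mul_of_nonneg_right (min_le_right _ _) (Real.sqrt_nonneg _)).trans
        (hTm x ⟨hb, hxz⟩)
    · exact (mul_le_mul_of_nonneg_right (min_le_left _ _) (Real.sqrt_nonneg _)).trans
        (hplane x hxR hb)
  refine ⟨min (S.c / 2) (c₂ * S.c), R, lt_min (by positivity) (by positivity),
    fun x hx hxK => ?_⟩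
  have hr : 0 < ‖x‖ := by linarith
  have hz : 0 < height x := lt_of_lt_of_le (by positivity) hxK
  have hG : 0 < S.G x := tailG_pos _ _ hr
  rcases le_or_gt (height x) δ with h | h
  · refine le_trans ?_ (hnear x hx hxK h)
    gcongr
    exact min_le_left _ _
  · refine le_trans ?_ (hmp x hx h.le)
    calc min (S.c / 2) (c₂ * S.c) * height x * S.G x ≤ c₂ * S.c * height x * S.G x := by
          gcongr
          exact min_le_right _ _
      _ = c₂ * (S.c * height x * S.G x) := by ring
      _ ≤ c₂ * Real.sqrt (S.n x) := by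
          refine mul_le_mul_of_nonneg_left (le_trans ?_ (hd.lower x (by linarith [S.R₀_le]))) hc₂0.le
          rw [abs_of_pos hz]
          refine mul_le_mul_of_nonneg_right (mul_le_mul_of_nonneg_left ?_ hc.le) hG.le
          exact le_add_of_nonneg_right (by positivity)

/-- The odd orbital carries the linear zero. -/
theorem bulk : BulkStmt := fun S => by
  obtain ⟨c', R, hc, h⟩ := bulkOne S
  exact ⟨c', 1, R, hc, le_rfl, h⟩

end Vale.Agent.P363.Ext
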