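import Vale.Agent.P363.Ext.ToolSpec

/-!
P363, Kohn-Sham side: elementary geometry of the far region, the tail `G` on small balls and
differences of cut kernels.
-/

noncomputable section

namespace Vale.Agent.P363.Ext

open MeasureTheory Metric Set
open scoped BigOperators Topology

/-- The projection to the mirror plane. -/
def proj (x : Space) : Space := x - height x • unit3 2

lemma height_unit : height (unit3 2) = 1 := by simp [height, unit3]

lemma norm_unit (a : Fin 3) : ‖unit3 a‖ = 1 := by simp [unit3]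

lemma height_proj (x : Space) : height (proj x) = 0 := by simp [proj, height, unit3]

lemma height_mirror (x : Space) : height (mirror x) = -height x := by
  simp [mirror, height, unit3]; ring

lemma mirror_eq (x : Space) : mirror x = proj x + (-height x) • unit3 2 := by
  simp [mirror, proj, two_mul, add_smul, neg_smul]; abel

lemma eq_proj_add (x : Space) : x = proj x + height x • unit3 2 := by simp [proj]

lemma dist_proj (x : Space) : dist x (proj x) = |height x| := by
  simp [proj, norm_smul, norm_unit]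

lemma dist_mirror_proj (x : Space) : dist (mirror x) (proj x) = |height x| := by
  rw [dist_eq_norm, mirror_eq]
  simp [norm_smul, norm_unit]

lemma abs_height_sub_le (x y : Space) : |height x - height y| ≤ dist x y := by
  rw [dist_eq_norm]
  simpa [height] using PiLp.norm_apply_le (x - y) 2

lemma abs_height_le (x : Space) : |height x| ≤ ‖x‖ := by
  simpa [height] using PiLp.norm_apply_le x 2

lemma norm_sq_eq (x : Space) : ‖x‖ ^ 2 = x 0 ^ 2 + x 1 ^ 2 + height x ^ 2 := by
  simp [EuclideanSpace.norm_sq_eq, Fin.sum_univ_three, height]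

lemma norm_sub_dist_le (x y : Space) : ‖x‖ - dist x y ≤ ‖y‖ ∧ ‖y‖ ≤ ‖x‖ + dist x y := by
  have := abs_norm_sub_norm_le x y
  rw [← dist_eq_norm, abs_le] at this
  constructor <;> linarith [this.1, this.2]

/-- Balls around points near the plane lie in the belt. -/
lemma ball_subset_belt {R₁ : ℝ} {x : Space} {ρ : ℝ} (hr : R₁ + ρ ≤ ‖x‖)
    (hz : 2 * |height x| + 3 * ρ ≤ ‖x‖) : ball x ρ ⊆ belt R₁ := by
  intro y hy
  rw [mem_ball, dist_comm] at hy
  have h1 := (norm_sub_dist_le x y).1
  have h2 := abs_le.1 (abs_height_sub_le x y)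
  have h3 := abs_sub_abs_le_abs_sub (height y) (height x)
  rw [abs_sub_comm] at h3
  have h4 := abs_height_sub_le x y
  exact ⟨by linarith, by linarith⟩

lemma isOpen_belt (R : ℝ) : IsOpen (belt R) := by
  refine (isOpen_lt continuous_const continuous_norm).inter (isOpen_lt ?_ continuous_norm)
  unfold height
  fun_prop

lemma isOpen_far_geo (R : ℝ) : IsOpen (far R) := isOpen_lt continuous_const continuous_norm

lemma belt_subset_far (R : ℝ) : belt R ⊆ far R := fun _ h => h.1

lemma tailG_pos (a k : ℝ) {r : ℝ} (hr : 0 < r) : 0 < tailG a k r :=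
  mul_pos (Real.rpow_pos_of_pos hr _) (Real.exp_pos _)

/-- The tail changes by bounded factors over bounded distances. -/
lemma tailG_le {a : ℝ} (ha : 0 < a) (k : ℝ) : ∃ C : ℝ, 0 < C ∧ ∀ r s : ℝ, 2 ≤ r →
    |s - r| ≤ 1 → tailG a k s ≤ C * tailG a k r := by
  set p := k / a - 2
  refine ⟨2 ^ |p| * Real.exp a, by positivity, fun r s hr hs => ?_⟩
  obtain ⟨h1, h2⟩ := abs_le.1 hs
  have hs0 : 0 < s := by linarith
  have hr0 : 0 < r := by linarith
  have hp : (s / r) ^ p ≤ 2 ^ |p| := by
    have hq : 0 < s / r := by positivity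
    rcases le_or_gt 0 p with hp | hp
    · rw [abs_of_nonneg hp]
      refine Real.rpow_le_rpow hq.le ?_ hp
      rw [div_le_iff₀ hr0]; linarith
    · rw [abs_of_neg hp, Real.rpow_neg (by norm_num), ← Real.inv_rpow (by norm_num)]
      refine Real.rpow_le_rpow_of_nonpos (by norm_num) ?_ hp.le
      rw [le_div_iff₀ hr0]; linarith
  have he : Real.exp (-(a * s)) ≤ Real.exp a * Real.exp (-(a * r)) := by
    rw [← Real.exp_add]
    refine Real.exp_le_exp.2 ?_
    nlinarith
  have hsplit : s ^ p = (s / r) ^ p * r ^ p := by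
    rw [← Real.mul_rpow (by positivity) hr0.le, div_mul_cancel₀ _ hr0.ne']
  unfold tailG
  rw [hsplit]
  calc (s / r) ^ p * r ^ p * Real.exp (-(a * s))
      ≤ 2 ^ |p| * r ^ p * (Real.exp a * Real.exp (-(a * r))) := by
        refine mul_le_mul (mul_le_mul_of_nonneg_right hp ?_) he (Real.exp_pos _).le ?_ <;> positivity
    _ = 2 ^ |p| * Real.exp a * (r ^ p * Real.exp (-(a * r))) := by ring

/-- `1 / (4 π d)` differs by `min (1/d) (z/d²)` between centres at distance `z`. -/
lemma abs_inv_sub_inv_le {d e z : ℝ} (hd : 0 < d) (he : 0 < e) (hz : |d - e| ≤ z) :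
    |d⁻¹ - e⁻¹| ≤ min d⁻¹ (z * (d ^ 2)⁻¹) + min e⁻¹ (z * (e ^ 2)⁻¹) := by
  wlog hde : d ≤ e generalizing d e with H
  · rw [abs_sub_comm, add_comm]
    exact H he hd (by rwa [abs_sub_comm]) (le_of_not_ge hde)
  have h0 : 0 ≤ d⁻¹ - e⁻¹ := sub_nonneg.2 (inv_anti₀ hd hde)
  rw [abs_of_nonneg h0]
  refine le_add_of_le_of_nonneg (le_min ?_ ?_) (le_min (by positivity) ?_)
  · linarith [inv_pos.2 he]
  · rw [inv_sub_inv hd.ne' he.ne']
    have hz' : e - d ≤ z := le_trans (by rw [abs_sub_comm]; exact le_abs_self _) hz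
    calc (e - d) / (d * e) ≤ z / (d * d) := by
          refine div_le_div₀ ((abs_nonneg _).trans hz) hz' (by positivity) ?_
          gcongr
      _ = z * (d ^ 2)⁻¹ := by rw [div_eq_mul_inv, sq]
  · exact mul_nonneg ((abs_nonneg _).trans hz) (by positivity)

/-- Second differences along a line of a function with Lipschitz derivative along it. -/
lemma abs_second_diff_le {g g' : ℝ → ℝ} {L : ℝ} (hg : ∀ t, HasDerivAt g (g' t) t)
    (hL : ∀ s t, |g' s - g' t| ≤ L * |s - t|) {t : ℝ} (ht : 0 ≤ t) :
    |g t + g (-t) - 2 * g 0| ≤ 2 * L * t ^ 2 := by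
  have hd : ∀ s ∈ Icc (0 : ℝ) t, HasDerivWithinAt (fun s => g s + g (-s)) (g' s - g' (-s))
      (Icc 0 t) s := fun s _ => by
    have := (hg s).fun_add ((hg (-s)).comp s (hasDerivAt_neg s))
    simpa [sub_eq_add_neg, Function.comp_def] using this.hasDerivWithinAt
  have hb : ∀ s ∈ Ico (0 : ℝ) t, ‖g' s - g' (-s)‖ ≤ 2 * L * t := by
    intro s hs
    have hL0 : 0 ≤ L := by
      have := (abs_nonneg _).trans (hL 1 0)
      simpa using this
    refine (hL s (-s)).trans ?_
    rw [sub_neg_eq_add, ← two_mul, abs_of_nonneg (by linarith [hs.1])]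
    nlinarith [hs.2]
  have := norm_image_sub_le_of_norm_deriv_le_segment' hd hb t (right_mem_Icc.2 ht)
  simp only [Real.norm_eq_abs, neg_zero, sub_zero] at this
  calc |g t + g (-t) - 2 * g 0| = |g t + g (-t) - (g 0 + g 0)| := by ring_nf
    _ ≤ 2 * L * t * t := this
    _ = 2 * L * t ^ 2 := by ring

end Vale.Agent.P363.Ext
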