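import Vale.Agent.P363.Ext.Profile

/-!
P363, Kohn-Sham side: the two parts of the mean value formula in the near-plane estimate, and the
bounds which the functions compared with `√n` satisfy near the plane.
-/

noncomputable section

namespace Vale.Agent.P363.Ext

open MeasureTheory Metric Set
open scoped BigOperators Topology

lemma inV_one : InV (fun _ : Space => (1 : ℝ)) :=
  ⟨fun _ => 0, fun _ => 1, by simp, memLp_top_const 1, by funext x; simp⟩

lemma axialSym_const (c : ℝ) : AxialSym (fun _ : Space => c) := ⟨fun _ _ => rfl, fun _ => rfl⟩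

lemma axisDist_ge (x : Space) : ‖x‖ - |height x| ≤ axisDist x := by
  have hz := abs_height_le x
  refine Real.le_sqrt_of_sq_le ?_
  have h1 := norm_sq_eq x
  nlinarith [sq_abs (height x), abs_nonneg (height x)]

/-- What the even functions of the near-plane estimate satisfy. -/
structure EvenSol (S : Setup) (B : ℝ) (f w : Space → ℝ) : Prop where
  cont : ContinuousOn f (belt S.R₁)
  even : ∀ x ∈ belt S.R₁, f (mirror x) = f x
  bound : ∀ x ∈ belt S.R₁, |f x| ≤ Real.sqrt (S.n x)
  meas : Measurable w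
  w_le : ∀ x ∈ belt S.R₁, |w x| ≤ B
  eqn : WeakPoisson (belt S.R₁) f fun x => 2 * (S.v x - S.μ + w x) * f x

lemma EvenSol.locMemLp {S : Setup} {B : ℝ} {f w : Space → ℝ} (h : EvenSol S B f w) :
    LocMemLp 2 (belt S.R₁) fun x => 2 * (S.v x - S.μ + w x) * f x := by
  have hw : LocMemLp 2 (belt S.R₁) w := fun K hK hKU => by
    have : IsFiniteMeasure (volume.restrict K) := isFiniteMeasure_restrict.2 hK.measure_lt_top.ne
    exact MemLp.of_bound h.meas.aestronglyMeasurable B
      ((ae_restrict_iff' hK.measurableSet).2 (.of_forall fun x hx => h.w_le x (hKU hx)))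
  have h1 := (((S.v_two.mono (subset_univ _)).add (LocMemLp.of_continuousOn (p := 2)
    (continuousOn_const (c := -S.μ)))).add hw).const_mul 2
  have h2 := h1.mul_continuousOn h.cont
  intro K hK hKU
  refine (h2 K hK hKU).ae_eq (.of_forall fun x => ?_)
  ring

/-- The bound of such a function at distance below `4 ρ` from a point `p` of the plane. -/
lemma EvenSol.abs_le_near {S : Setup} {B : ℝ} {f w : Space → ℝ} (h : EvenSol S B f w) {CG : ℝ}
    (htail : ∀ r s : ℝ, 2 ≤ r → |s - r| ≤ 1 → tailG S.a S.k s ≤ CG * tailG S.a S.k r)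
    {r ρ : ℝ} {p y : Space} (hp : height p = 0) (hpr : |‖p‖ - r| ≤ ρ) (hρ : 6 * ρ ≤ 1)
    (hρr : 1 ≤ 2 * ρ * r) (hr : 2 ≤ r) (hy : dist y p < 4 * ρ) (hyb : y ∈ belt S.R₁) :
    |f y| ≤ 8 * S.C * CG * ρ * tailG S.a S.k r := by
  have hC0 : 0 < S.C := lt_of_lt_of_le (S.data.positive 0) (S.data.bounded 0)
  have hyn := norm_sub_dist_le p y
  rw [dist_comm] at hyn
  obtain ⟨hp1, hp2⟩ := abs_le.1 hpr
  have hyr : |‖y‖ - r| ≤ 1 := abs_le.2 ⟨by linarith [hyn.1], by linarith [hyn.2]⟩
  have hyh : |height y| ≤ 4 * ρ := by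
    have := abs_height_sub_le y p
    rw [hp, sub_zero] at this
    linarith
  obtain ⟨hy1', hy2'⟩ := abs_le.1 hyr
  have hy1 : (1 : ℝ) ≤ ‖y‖ := by linarith
  have h3 : (‖y‖ ^ 3)⁻¹ ≤ 4 * ρ := by
    have h4 : ‖y‖ ≤ ‖y‖ ^ 3 := le_self_pow₀ hy1 (by norm_num)
    refine (inv_anti₀ (by linarith) h4).trans ?_
    rw [inv_le_iff_one_le_mul₀ (by linarith)]
    nlinarith
  calc |f y| ≤ Real.sqrt (S.n y) := h.bound y hyb
    _ ≤ S.C * (|height y| + (‖y‖ ^ 3)⁻¹) * tailG S.a S.k ‖y‖ :=
        S.data.upper y (S.R₀_le.trans hyb.1.le)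
    _ ≤ S.C * (8 * ρ) * (CG * tailG S.a S.k r) := by
        refine mul_le_mul (mul_le_mul_of_nonneg_left (by linarith) hC0.le)
          (htail r ‖y‖ hr hyr) (tailG_pos _ _ (by linarith)).le (by nlinarith)
    _ = 8 * S.C * CG * ρ * tailG S.a S.k r := by ring

lemma integrable_kerW_mul {ρ : ℝ} (hρ : 0 < ρ) {f : Space → ℝ} {c : Space}
    (hf : ContinuousOn f (closedBall c ρ)) :
    Integrable fun y => kerW 0 (cutProf ρ) (y - c) * f y := by
  have hc : ContinuousOn (fun y => kerW 0 (cutProf ρ) (y - c) * f y) (closedBall c ρ) :=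
    ((contDiff_kerW hρ).continuous.comp (continuous_id.sub continuous_const)).continuousOn.mul hf
  refine (integrableOn_iff_integrable_of_support_subset (s := closedBall c ρ) ?_).1
    (hc.integrableOn_compact (isCompact_closedBall _ _))
  intro y hy
  by_contra hn
  refine hy ?_
  rw [mem_closedBall, dist_eq_norm, not_le] at hn
  simp [kerW_eq_zero hρ hn]

lemma measurable_kerK (ρ : ℝ) (c : Space) :
    Measurable fun y => kerK 0 (cutProf ρ) (y - c) := by
  have hn : Measurable fun y : Space => ‖y - c‖ :=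
    (continuous_id.sub continuous_const).norm.measurable
  simp only [kerK, yuk, zero_mul, neg_zero, Real.exp_zero]
  exact ((contDiff_cutProf ρ).continuous.measurable.comp hn).mul
    (measurable_const.div (measurable_const.mul hn))

lemma abs_kerK_le (ρ : ℝ) (y : Space) : |kerK 0 (cutProf ρ) y| ≤ ‖y‖⁻¹ := by
  simp only [kerK, yuk, zero_mul, neg_zero, Real.exp_zero, abs_mul]
  refine (mul_le_of_le_one_left (abs_nonneg _) (abs_cutProf_le _ _)).trans ?_
  rw [one_div, mul_inv, abs_mul, abs_inv, abs_inv, abs_norm,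
    abs_of_pos (by positivity : 0 < 4 * Real.pi)]
  exact mul_le_of_le_one_left (by positivity) (inv_le_one_of_one_le₀ (by linarith [Real.pi_gt_three]))

lemma kerK_eq_zero {ρ : ℝ} (hρ : 0 < ρ) {y : Space} (hy : ρ ≤ ‖y‖) :
    kerK 0 (cutProf ρ) y = 0 := by
  simp [kerK, cutProf_of_ge hρ hy]

lemma integrable_kerK_mul {ρ : ℝ} (hρ : 0 < ρ) {h b : Space → ℝ} {c : Space}
    (hm : AEStronglyMeasurable h (volume.restrict (closedBall c ρ)))
    (hdom : ∀ y ∈ closedBall c ρ, |h y| ≤ b y)
    (hb : IntegrableOn (fun y => b y * ‖y - c‖⁻¹) (closedBall c ρ)) :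
    Integrable fun y => kerK 0 (cutProf ρ) (y - c) * h y := by
  have hon : IntegrableOn (fun y => kerK 0 (cutProf ρ) (y - c) * h y) (closedBall c ρ) := by
    refine Integrable.mono' hb ((measurable_kerK ρ c).aestronglyMeasurable.mul hm)
      ((ae_restrict_iff' measurableSet_closedBall).2 (.of_forall fun y hy => ?_))
    rw [Real.norm_eq_abs, abs_mul, mul_comm]
    exact mul_le_mul (hdom y hy) (abs_kerK_le _ _) (abs_nonneg _)
      ((abs_nonneg _).trans (hdom y hy))
  refine (integrableOn_iff_integrable_of_support_subset (s := closedBall c ρ) ?_).1 hon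
  intro y hy
  by_contra hn
  refine hy ?_
  rw [mem_closedBall, dist_eq_norm, not_le] at hn
  simp [kerK_eq_zero hρ hn.le]

/-- The part of the weight. -/
lemma kerW_part {ρ z L M : ℝ} (hρ : 0 < ρ) (hz : 0 ≤ z) (hzρ : z ≤ ρ / 2) (hL : 0 ≤ L)
    (hdiff : ∀ (u : Space) (t : ℝ), 0 ≤ t → |kerW 0 (cutProf ρ) (u + t • unit3 2) +
      kerW 0 (cutProf ρ) (u + (-t) • unit3 2) - 2 * kerW 0 (cutProf ρ) u| ≤ L * t ^ 2)
    {p x q : Space} (hx : x = p + z • unit3 2) (hq : q = p + (-z) • unit3 2) {f : Space → ℝ}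
    (hM : 0 ≤ M) (hf : ∀ y ∈ ball p (2 * ρ), |f y| ≤ M) :
    |∫ y, (kerW 0 (cutProf ρ) (y - x) * f y + kerW 0 (cutProf ρ) (y - q) * f y -
        2 * (kerW 0 (cutProf ρ) (y - p) * f y))| ≤
      L * z ^ 2 * M * volume.real (ball (0 : Space) (2 * ρ)) := by
  set W := kerW 0 (cutProf ρ) with hW
  have hpx : dist x p = z := by
    rw [hx, dist_eq_norm, add_sub_cancel_left, norm_smul, norm_unit, mul_one, Real.norm_eq_abs,
      abs_of_nonneg hz]
  have hqp : dist q p = z := by
    rw [hq, dist_eq_norm, add_sub_cancel_left, norm_smul, norm_unit, mul_one, Real.norm_eq_abs,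
      abs_neg, abs_of_nonneg hz]
  have hb : ∀ y, |W (y - x) * f y + W (y - q) * f y - 2 * (W (y - p) * f y)| ≤
      (ball p (2 * ρ)).indicator (fun _ => L * z ^ 2 * M) y := by
    intro y
    by_cases hy : y ∈ ball p (2 * ρ)
    · rw [indicator_of_mem hy,
        show W (y - x) * f y + W (y - q) * f y - 2 * (W (y - p) * f y) =
          (W (y - x) + W (y - q) - 2 * W (y - p)) * f y by ring, abs_mul]
      refine mul_le_mul ?_ (hf y hy) (abs_nonneg _) (by positivity)
      have e : y - x = (y - p) + (-z) • unit3 2 := by rw [hx]; simp [neg_smul]; abel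
      have e' : y - q = (y - p) + z • unit3 2 := by rw [hq]; simp [neg_smul]; abel
      rw [e, e', add_comm (W (_ + (-z) • _))]
      exact hdiff (y - p) z hz
    · rw [indicator_of_notMem hy]
      have hy' : 2 * ρ ≤ dist y p := by simpa using hy
      have h1 : W (y - x) = 0 := kerW_eq_zero hρ (by
        rw [← dist_eq_norm]
        linarith [dist_triangle y x p])
      have h2 : W (y - q) = 0 := kerW_eq_zero hρ (by
        rw [← dist_eq_norm]; linarith [dist_triangle y q p])
      have h3 : W (y - p) = 0 := kerW_eq_zero hρ (by rw [← dist_eq_norm]; linarith)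
      simp [h1, h2, h3]
  have hint : Integrable ((ball p (2 * ρ)).indicator fun _ => L * z ^ 2 * M) :=
    (integrable_indicator_iff measurableSet_ball).2 (integrableOn_const measure_ball_lt_top.ne)
  have := norm_integral_le_of_norm_le hint (ae_of_all _ fun y =>
    (Real.norm_eq_abs _).trans_le (hb y))
  rw [Real.norm_eq_abs, integral_indicator measurableSet_ball, setIntegral_const,
    smul_eq_mul, Measure.addHaar_real_ball_center] at this
  exact this.trans (le_of_eq (by ring))

/-- The part of the kernel, for two centres at distance at most `z`. -/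
lemma kerK_part {ρ z CK I : ℝ} (hρ : 0 < ρ) (hz : 0 ≤ z) (hCK : 0 ≤ CK)
    (hker : ∀ u w : Space, u ≠ 0 → w ≠ 0 → dist u w ≤ z →
      |kerK 0 (cutProf ρ) u - kerK 0 (cutProf ρ) w| ≤
        CK * ((ball 0 (3 * ρ)).indicator (fun y => mz z ‖y‖) u +
          (ball 0 (3 * ρ)).indicator (fun y => mz z ‖y‖) w))
    {a p : Space} (hap : dist a p ≤ z) {h b : Space → ℝ}
    (hdom : ∀ y, y ∈ ball a (3 * ρ) ∨ y ∈ ball p (3 * ρ) → |h y| ≤ b y)
    (hia : IntegrableOn (fun y => b y * mz z ‖y - a‖) (ball a (3 * ρ)))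
    (hip : IntegrableOn (fun y => b y * mz z ‖y - p‖) (ball p (3 * ρ)))
    (hIa : ∫ y in ball a (3 * ρ), b y * mz z ‖y - a‖ ≤ I)
    (hIp : ∫ y in ball p (3 * ρ), b y * mz z ‖y - p‖ ≤ I) :
    |∫ y, (kerK 0 (cutProf ρ) (y - a) * h y - kerK 0 (cutProf ρ) (y - p) * h y)| ≤
      2 * CK * I := by
  set K := kerK 0 (cutProf ρ) with hK
  set Φ : Space → Space → ℝ := fun c =>
    (ball c (3 * ρ)).indicator fun y => b y * mz z ‖y - c‖ with hΦ
  have key : ∀ y, y ≠ a → y ≠ p → |K (y - a) * h y - K (y - p) * h y| ≤ CK * (Φ a y + Φ p y) := by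
    intro y hy hyp
    rw [← sub_mul, abs_mul]
    have hk := hker (y - a) (y - p) (sub_ne_zero.2 hy) (sub_ne_zero.2 hyp)
      (by rw [dist_sub_left]; exact hap)
    refine (mul_le_mul_of_nonneg_right hk (abs_nonneg _)).trans ?_
    rw [mul_assoc, add_mul]
    have hone : ∀ c : Space, (c = a ∨ c = p) →
        (ball 0 (3 * ρ)).indicator (fun y => mz z ‖y‖) (y - c) * |h y| ≤ Φ c y := by
      intro c hc
      by_cases hb : y ∈ ball c (3 * ρ)
      · rw [hΦ]
        simp only [indicator_of_mem hb]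
        rw [indicator_of_mem (show y - c ∈ ball (0 : Space) (3 * ρ) by
          simpa [dist_eq_norm] using hb), mul_comm]
        refine mul_le_mul_of_nonneg_right (hdom y ?_) (mz_nonneg hz (norm_nonneg _))
        rcases hc with rfl | rfl
        exacts [Or.inl hb, Or.inr hb]
      · rw [hΦ]
        simp only [indicator_of_notMem hb]
        rw [indicator_of_notMem (show y - c ∉ ball (0 : Space) (3 * ρ) by
          simpa [dist_eq_norm] using hb), zero_mul]
    exact mul_le_mul_of_nonneg_left (add_le_add (hone a (Or.inl rfl)) (hone p (Or.inr rfl))) hCK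
  have ha : Integrable (Φ a) := (integrable_indicator_iff measurableSet_ball).2 hia
  have hp : Integrable (Φ p) := (integrable_indicator_iff measurableSet_ball).2 hip
  have hne : ∀ᵐ y : Space, y ≠ a ∧ y ≠ p :=
    (Measure.ae_ne volume a).and (Measure.ae_ne volume p)
  refine (Real.norm_eq_abs _).symm.trans_le ((norm_integral_le_of_norm_le
    ((ha.fun_add hp).const_mul CK) ?_).trans ?_)
  · filter_upwards [hne] with y hy
    rw [Real.norm_eq_abs]
    exact key y hy.1 hy.2
  · rw [integral_const_mul, integral_add ha hp, hΦ]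
    simp only [integral_indicator measurableSet_ball]
    nlinarith

/-- The dominating function against the truncated kernel. -/
lemma pot_ring {v : Space → ℝ} (hv : Measurable v) {β M Cv C1 R z E : ℝ} {c : Space}
    (hβ : 0 ≤ β) (hM : 0 ≤ M) (hz : 0 ≤ z)
    (hiv : IntegrableOn (fun y => |v y| * ‖y - c‖⁻¹) (ball c R))
    (hi1 : IntegrableOn (fun y => |(1 : ℝ)| * ‖y - c‖⁻¹) (ball c R))
    (hEv : ∫ y in ball c R, |v y| * mz z ‖y - c‖ ≤ Cv * E)
    (hE1 : ∫ y in ball c R, |(1 : ℝ)| * mz z ‖y - c‖ ≤ C1 * E) :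
    IntegrableOn (fun y => (|v y| + β) * (2 * M) * ‖y - c‖⁻¹) (ball c R) ∧
      IntegrableOn (fun y => (|v y| + β) * (2 * M) * mz z ‖y - c‖) (ball c R) ∧
      ∫ y in ball c R, (|v y| + β) * (2 * M) * mz z ‖y - c‖ ≤ 2 * M * ((Cv + β * C1) * E) := by
  have hn : Measurable fun y : Space => ‖y - c‖ :=
    (continuous_id.sub continuous_const).norm.measurable
  have hmm : Measurable fun y : Space => mz z ‖y - c‖ :=
    hn.inv.min (measurable_const.mul (hn.pow_const 2).inv)
  have hle : ∀ y : Space, mz z ‖y - c‖ ≤ ‖y - c‖⁻¹ := fun y => min_le_left _ _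
  have h0 : ∀ y : Space, 0 ≤ mz z ‖y - c‖ := fun y => mz_nonneg hz (norm_nonneg _)
  have h1 : IntegrableOn (fun y => (|v y| + β) * (2 * M) * ‖y - c‖⁻¹) (ball c R) := by
    refine ((hiv.const_mul (2 * M)).add (hi1.const_mul (2 * M * β))).congr
      (.of_forall fun y => ?_)
    simp only [Pi.add_apply, abs_one]; ring
  have j : IntegrableOn (fun y => |v y| * mz z ‖y - c‖) (ball c R) :=
    hiv.mono' (hv.abs.mul hmm).aestronglyMeasurable (ae_of_all _ fun y => by
      rw [Real.norm_of_nonneg (mul_nonneg (abs_nonneg _) (h0 y))]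
      exact mul_le_mul_of_nonneg_left (hle y) (abs_nonneg _))
  have j1 : IntegrableOn (fun y => |(1 : ℝ)| * mz z ‖y - c‖) (ball c R) :=
    hi1.mono' (measurable_const.mul hmm).aestronglyMeasurable (ae_of_all _ fun y => by
      rw [Real.norm_of_nonneg (mul_nonneg (abs_nonneg _) (h0 y))]
      exact mul_le_mul_of_nonneg_left (hle y) (abs_nonneg _))
  have e : (fun y => (|v y| + β) * (2 * M) * mz z ‖y - c‖) = fun y =>
      2 * M * (|v y| * mz z ‖y - c‖) + 2 * M * β * (|(1 : ℝ)| * mz z ‖y - c‖) := by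
    funext y; simp only [abs_one]; ring
  refine ⟨h1, ?_, ?_⟩
  · rw [e]; exact (j.const_mul _).add (j1.const_mul _)
  · rw [e, integral_add (j.const_mul _) (j1.const_mul _), integral_const_mul, integral_const_mul]
    have : 0 ≤ 2 * M * β := by positivity
    nlinarith [mul_le_mul_of_nonneg_left hEv (show 0 ≤ 2 * M by positivity),
      mul_le_mul_of_nonneg_left hE1 this]

end Vale.Agent.P363.Ext
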