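import Vale.Agent.P363.Ext.StepSpec
import Vale.Agent.P363.Ext.Geometry
import Vale.Agent.P363.Ext.Ring
import Vale.Agent.P363.Ext.PlaneTools

/-!
P363, exterior argument: the potential is small against the Newton kernel at every fixed scale.

Near the singularity and near the plane `ring_kernel` and `ring_ball` suffice; away from both
`|W| ≤ |X| + (X - W)`, where `X` is small on average and `X - W` is paid by the budget identity.
-/

noncomputable section

namespace Vale.Agent.P363.Ext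

open MeasureTheory Filter Metric Set
open scoped BigOperators Topology

lemma mirror_coord (x : Space) (i : Fin 2) : mirror x i.castSucc = x i.castSucc := by
  fin_cases i <;> simp

lemma measurable_coord_height : Measurable height := Yuk.measurable_coord 2

lemma slab_volume_le (x : Space) {R t : ℝ} (hR : 0 ≤ R) (ht : 0 ≤ t) :
    volume.real (ball x R ∩ {y | |height y| < t}) ≤ 8 * R ^ 2 * t := by
  set e := WithLp.ofLp (p := 2) (V := Fin 3 → ℝ)
  set box : Set (Fin 3 → ℝ) :=
    Set.univ.pi ![Ioo (x 0 - R) (x 0 + R), Ioo (x 1 - R) (x 1 + R), Ioo (-t) t] with hbox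
  have hm : MeasurableSet box := MeasurableSet.univ_pi fun i => by
    fin_cases i <;> exact measurableSet_Ioo
  have hsub : ball x R ∩ {y | |height y| < t} ⊆ e ⁻¹' box := by
    rintro y ⟨hy, hz⟩
    rw [mem_ball, dist_eq_norm] at hy
    have hc : ∀ i, |y i - x i| < R := fun i =>
      lt_of_le_of_lt (by simpa using PiLp.norm_apply_le (y - x) i) hy
    have h0 := abs_lt.1 (hc 0)
    have h1 := abs_lt.1 (hc 1)
    simp only [Set.mem_preimage, hbox, Set.mem_univ_pi, e]
    intro i
    fin_cases i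
    · exact ⟨by change x 0 - R < y 0; linarith [h0.1],
        by change y 0 < x 0 + R; linarith [h0.2]⟩
    · exact ⟨by change x 1 - R < y 1; linarith [h1.1],
        by change y 1 < x 1 + R; linarith [h1.2]⟩
    · exact abs_lt.1 hz
  have hp : MeasurePreserving e volume volume := PiLp.volume_preserving_ofLp (Fin 3)
  have hv : volume (e ⁻¹' box) = ENNReal.ofReal (8 * R ^ 2 * t) := by
    rw [hp.measure_preimage hm.nullMeasurableSet, hbox, volume_pi_pi, Fin.prod_univ_three]
    simp only [Matrix.cons_val_zero, Matrix.cons_val_one, Matrix.cons_val, Real.volume_Ioo]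
    rw [← ENNReal.ofReal_mul (by linarith), ← ENNReal.ofReal_mul (mul_nonneg (by linarith) (by linarith))]
    congr 1; ring
  rw [measureReal_def]
  refine (ENNReal.toReal_mono (by rw [hv]; exact ENNReal.ofReal_ne_top) (measure_mono hsub)).trans ?_
  rw [hv, ENNReal.toReal_ofReal (by positivity)]

lemma setIntegral_le_sum {ι : Type*} (T : Finset ι) {A : Set Space} (hA : MeasurableSet A)
    {B : ι → Set Space} (hB : ∀ i ∈ T, MeasurableSet (B i)) {g : Space → ℝ} (hg : ∀ y, 0 ≤ g y)
    (hi : ∀ i ∈ T, IntegrableOn g (B i)) (hsub : A ⊆ ⋃ i ∈ T, B i) :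
    ∫ y in A, g y ≤ ∑ i ∈ T, ∫ y in B i, g y := by
  have hn : ∀ i, ∀ y, 0 ≤ (B i).indicator g y := fun i y => Set.indicator_nonneg (fun z _ => hg z) y
  have h1 : ∀ i ∈ T, Integrable ((B i).indicator g) := fun i hiT =>
    (hi i hiT).integrable_indicator (hB i hiT)
  rw [← integral_indicator hA, ← Finset.sum_congr rfl fun i hiT => integral_indicator (hB i hiT),
    ← integral_finsetSum _ h1]
  refine integral_mono_of_nonneg (Eventually.of_forall fun y => Set.indicator_nonneg (fun z _ => hg z) y)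
    (integrable_finsetSum _ h1) (Eventually.of_forall fun y => ?_)
  dsimp only
  by_cases hy : y ∈ A
  · rw [Set.indicator_of_mem hy]
    obtain ⟨i, hiT, hiy⟩ := mem_iUnion₂.1 (hsub hy)
    refine le_trans (le_of_eq (Set.indicator_of_mem hiy g).symm) ?_
    exact Finset.single_le_sum (f := fun i => (B i).indicator g y) (fun j _ => hn j y) hiT
  · rw [Set.indicator_of_notMem hy]
    exact Finset.sum_nonneg fun i _ => hn i y

namespace Setup

variable (S : Setup)

lemma measurable_W : Measurable S.W := by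
  unfold Setup.W farPot
  exact (S.meas_v.sub_const _).sub (measurable_const.sub (measurable_const.div measurable_norm))

lemma W_mirror (x : Space) : S.W (mirror x) = S.W x := by
  have h : ‖mirror x‖ = ‖x‖ := by
    have := (axIso true 0).norm_map x
    simpa [axMap, rot_zero_angle] using this
  simp only [Setup.W, h, S.axial_v.2]

lemma W_le_X : ∀ᵐ x : Space, x ∈ far S.R₁ → S.W x ≤ S.X x := S.defect_ge

lemma integrableOn_W {w : Space → ℝ} {M : ℝ} (hw : RingPot w)
    (h : ∀ x : Space, 1 ≤ ‖x‖ → |S.W x| ≤ w x + M) {A : Set Space} (hA : MeasurableSet A)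
    (hfin : volume A < ⊤) (h1 : ∀ y ∈ A, 1 ≤ ‖y‖) :
    IntegrableOn S.W A ∧ ∫ y in A, |S.W y| ≤ (∫ y in A, w y) + M * volume.real A := by
  have hdom : IntegrableOn (fun y => w y + M) A :=
    (ring_set hw hfin).1.add (integrableOn_const hfin.ne)
  have hi : IntegrableOn S.W A := hdom.mono' S.measurable_W.aestronglyMeasurable
    ((ae_restrict_iff' hA).2 (Eventually.of_forall fun y hy => h y (h1 y hy)))
  refine ⟨hi, (setIntegral_mono_on hi.abs hdom hA fun y hy => h y (h1 y hy)).trans_eq ?_⟩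
  rw [integral_add (ring_set hw hfin).1 (integrableOn_const hfin.ne), setIntegral_const, smul_eq_mul,
    mul_comm]

end Setup

/-- The average of the defect on a small ball above the plane. -/
lemma defect_ball (S : Setup) {t : ℝ} (ht : 0 < t) (ht1 : t ≤ 1) {x : Space} (hzt : t ≤ height x)
    (hx0 : S.R₀ ≤ ‖x‖) (hx8 : 8 / t ≤ ‖x‖) :
    IntegrableOn S.X (ball x (t / 16)) ∧
      ∫ y in ball x (t / 16), |S.X y| ≤ |S.C| * (1 + (2 / t) ^ 4) / ‖x‖ := by
  set r := ‖x‖
  have hr : (1 : ℝ) ≤ r := S.data.one_le.trans hx0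
  have hz0 : 0 < height x := ht.trans_le hzt
  set ρ := min |height x| 1 / 4 with hρd
  have hρ : t / 16 ≤ ρ ∧ ρ ≤ 1 := by
    have : t ≤ min |height x| 1 := le_min (hzt.trans (le_abs_self _)) ht1
    constructor
    · simp only [hρd]; linarith
    · simp only [hρd]; linarith [min_le_right |height x| (1 : ℝ)]
  obtain ⟨hXi, hXle⟩ := S.data.defect_avg x hx0 (by
    rw [abs_of_pos hz0, inv_le_iff_one_le_mul₀ (by linarith)]
    rw [div_le_iff₀ ht] at hx8
    nlinarith)
  refine ⟨hXi.mono_set (ball_subset_ball hρ.1), ?_⟩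
  refine (setIntegral_mono_set hXi.abs (Eventually.of_forall fun y => abs_nonneg _)
    (HasSubset.Subset.eventuallyLE (ball_subset_ball hρ.1))).trans (hXle.trans ?_)
  have h1 : (r ^ 2)⁻¹ ≤ 1 / r := by
    rw [one_div]
    exact inv_anti₀ (by linarith) (by nlinarith)
  have h2 : (r ^ 6 * |height x| ^ 4)⁻¹ ≤ (2 / t) ^ 4 / r := by
    have h3 : r * t ^ 4 ≤ r ^ 6 * |height x| ^ 4 := by
      refine mul_le_mul ?_ (pow_le_pow_left₀ ht.le (hzt.trans (le_abs_self _)) 4) (by positivity)
        (by positivity)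
      calc r = r ^ 1 := (pow_one r).symm
        _ ≤ r ^ 6 := pow_le_pow_right₀ hr (by norm_num)
    refine (inv_anti₀ (by positivity) h3).trans ?_
    rw [div_pow, div_div, inv_eq_one_div, mul_comm r]
    exact div_le_div_of_nonneg_right (by norm_num) (by positivity)
  have hρ0 : 0 ≤ ρ := by linarith [hρ.1]
  have hρ3 : ρ ^ 3 ≤ 1 := pow_le_one₀ hρ0 hρ.2
  calc S.C * ρ ^ 3 * ((r ^ 2)⁻¹ + (r ^ 6 * |height x| ^ 4)⁻¹)
      ≤ |S.C| * ρ ^ 3 * ((r ^ 2)⁻¹ + (r ^ 6 * |height x| ^ 4)⁻¹) := by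
        gcongr; exact le_abs_self _
    _ ≤ |S.C| * 1 * (1 / r + (2 / t) ^ 4 / r) := by gcongr
    _ = _ := by ring

lemma deriv3_shift (c : Fin 3) (g : Space → ℝ) (x : Space) :
    deriv3 c (fun z => g (z - x)) = fun z => deriv3 c g (z - x) := by
  funext z; simp only [deriv3, fderiv_comp_sub]

lemma lap_shift (g : Space → ℝ) (x y : Space) :
    lap (fun z => g (z - x)) y = lap g (y - x) := by
  simp only [lap, deriv3_shift]

/-- A translated cut-off above the plane is admissible for the budget identity. -/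
lemma shift_bump (S : Setup) (β : ContDiffBump (0 : Space)) {t s : ℝ} {x : Space}
    (hβ : β.rOut = 2 * s) (hst : 2 * s ≤ t / 16) (ht : 0 < t) (ht1 : t ≤ 1)
    (hzt : t ≤ height x) (hx1 : S.R₁ + 4 ≤ ‖x‖) :
    (∀ y, y ∉ ball x (2 * s) → β (y - x) = 0) ∧
      tsupport (fun y => β (y - x)) ⊆ closedBall x (2 * s) ∧
      IsBump {y | y ∈ far S.R₁ ∧ 0 < height y} fun y => β (y - x) := by
  have hζ0 : ∀ y, y ∉ ball x (2 * s) → β (y - x) = 0 := fun y hy => by
    refine β.zero_of_le_dist ?_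
    rw [mem_ball, not_lt, dist_eq_norm] at hy
    simpa [dist_zero_right, hβ] using hy
  have hts : tsupport (fun y => β (y - x)) ⊆ closedBall x (2 * s) :=
    closure_minimal (fun y hy => ball_subset_closedBall (by_contra fun hn => hy (hζ0 y hn)))
      isClosed_closedBall
  refine ⟨hζ0, hts, β.contDiff.comp (contDiff_id.sub contDiff_const),
    (isCompact_closedBall x (2 * s)).of_isClosed_subset (isClosed_tsupport _) hts,
    hts.trans fun y hy => ?_⟩
  rw [mem_closedBall, dist_comm] at hy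
  have h1 := (norm_sub_dist_le x y).1
  have hh := abs_le.1 (abs_height_sub_le x y)
  refine ⟨?_, ?_⟩
  · show S.R₁ < ‖y‖
    linarith
  · show 0 < height y
    linarith [hh.2]

/-- The gap between `√n` and the odd orbital at a point. -/
lemma gap_point (S : Setup) {c' CG ε' z G : ℝ} (hc' : 0 < c') (hCG : 0 < CG) (hε : 0 ≤ ε')
    (hz : 0 < z) (hG : 0 < G) {y : Space} (hlow : c' * height y * S.G y ≤ S.φu y)
    (hsm : S.n y - S.φu y ^ 2 ≤ ε' * (height y * S.G y) ^ 2) (hy3 : z / 2 ≤ height y)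
    (hy2 : height y ≤ 2 * z) (hu : S.G y ≤ CG * G) (hd : G ≤ CG * S.G y) (hy1 : 0 < ‖y‖) :
    0 ≤ Real.sqrt (S.n y) - S.φu y ∧
      Real.sqrt (S.n y) - S.φu y ≤ ε' / c' * (2 * z) * (CG * G) ∧
      c' * (z / 2) * (G / CG) ≤ S.φu y := by
  have hzy : 0 < height y := (half_pos hz).trans_le hy3
  have hGy : 0 < S.G y := tailG_pos _ _ hy1
  have hφ : 0 < S.φu y := lt_of_lt_of_le (mul_pos (mul_pos hc' hzy) hGy) hlow
  have hle : S.φu y ^ 2 ≤ S.n y := by nlinarith [S.le_sum y, sq_nonneg (S.φ₀ y)]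
  have hsq : S.φu y ≤ Real.sqrt (S.n y) := Real.le_sqrt_of_sq_le hle
  refine ⟨sub_nonneg.2 hsq, ?_, le_trans ?_ hlow⟩
  · have h1 : (Real.sqrt (S.n y) - S.φu y) * (c' * height y * S.G y) ≤
        ε' / c' * height y * S.G y * (c' * height y * S.G y) := by
      refine (mul_le_mul_of_nonneg_left (hlow.trans
        (le_add_of_nonneg_left (Real.sqrt_nonneg (S.n y)))) (sub_nonneg.2 hsq)).trans ?_
      have e : ε' / c' * height y * S.G y * (c' * height y * S.G y) =
          ε' * (height y * S.G y) ^ 2 := by field_simp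
      rw [e]
      nlinarith [Real.sq_sqrt (S.data.positive y).le]
    refine (le_of_mul_le_mul_right h1 (mul_pos (mul_pos hc' hzy) hGy)).trans ?_
    exact mul_le_mul (mul_le_mul_of_nonneg_left hy2 (div_nonneg hε hc'.le)) hu hGy.le
      (mul_nonneg (div_nonneg hε hc'.le) (by linarith))
  · rw [mul_assoc, mul_assoc]
    refine mul_le_mul_of_nonneg_left (mul_le_mul hy3 ?_ (div_nonneg hG.le hCG.le) hzy.le) hc'.le
    rw [div_le_iff₀ hCG]
    linarith

/-- The excess over a small ball, paid by the budget identity. -/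
lemma budget_ball (S : Setup) {x : Space} {s : ℝ} (hs : 0 < s) {ζ : Space → ℝ}
    (h1 : ∀ y ∈ ball x s, ζ y = 1) (h01 : ∀ y, 0 ≤ ζ y ∧ ζ y ≤ 1) {L : ℝ}
    (hlap : ∀ y, |lap ζ y| ≤ L) (h0 : ∀ y, y ∉ ball x (2 * s) → ζ y = 0)
    (hts : tsupport ζ ⊆ closedBall x (2 * s))
    (hi : Integrable fun y => ζ y * (2 * (S.X y - S.W y) * S.φu y))
    (heq : ∫ y, ζ y * (2 * (S.X y - S.W y) * S.φu y) = ∫ y, (Real.sqrt (S.n y) - S.φu y) *
      (lap ζ y - 2 * (S.X y + farPot S.a S.k ‖y‖) * ζ y))
    (hX : IntegrableOn S.X (ball x (2 * s)))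
    (hXWi : IntegrableOn (fun y => S.X y - S.W y) (ball x s))
    (hXW : ∀ᵐ y : Space, y ∈ ball x (2 * s) → 0 ≤ S.X y - S.W y) {m U : ℝ} (hm : 0 ≤ m)
    (hU : 0 ≤ U) (hbd : ∀ y ∈ ball x (2 * s), 0 ≤ Real.sqrt (S.n y) - S.φu y ∧
      Real.sqrt (S.n y) - S.φu y ≤ U ∧ m ≤ S.φu y)
    (hn : ∀ y ∈ ball x (2 * s), 1 ≤ ‖y‖) :
    2 * m * ∫ y in ball x s, (S.X y - S.W y) ≤
      U * ((L + 2 * (|S.a ^ 2 / 2| + |S.k|)) * volume.real (ball x (2 * s)) +
        2 * ∫ y in ball x (2 * s), |S.X y|) := by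
  set M0 := |S.a ^ 2 / 2| + |S.k|
  have hs12 : ball x s ⊆ ball x (2 * s) := ball_subset_ball (by linarith)
  have hleft : 2 * m * ∫ y in ball x s, (S.X y - S.W y) ≤
      ∫ y, ζ y * (2 * (S.X y - S.W y) * S.φu y) := by
    rw [← integral_const_mul, ← integral_indicator measurableSet_ball]
    refine integral_mono_ae
      ((integrable_indicator_iff measurableSet_ball).2 (Integrable.const_mul hXWi _)) hi ?_
    · filter_upwards [hXW] with y hy
      by_cases hy1 : y ∈ ball x s
      · rw [Set.indicator_of_mem hy1, h1 y hy1, one_mul, mul_assoc, mul_assoc,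
          mul_comm (S.X y - S.W y) (S.φu y)]
        exact mul_le_mul_of_nonneg_left (mul_le_mul_of_nonneg_right
          (hbd y (hs12 hy1)).2.2 (hy (hs12 hy1))) zero_le_two
      · rw [Set.indicator_of_notMem hy1]
        by_cases hy2 : y ∈ ball x (2 * s)
        · exact mul_nonneg (h01 y).1 (mul_nonneg (mul_nonneg zero_le_two (hy hy2))
            (hm.trans (hbd y hy2).2.2))
        · rw [h0 y hy2, zero_mul]
  refine hleft.trans (heq.trans_le ?_)
  have hgi : IntegrableOn (fun y => U * (L + 2 * M0 + 2 * |S.X y|)) (ball x (2 * s)) :=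
    Integrable.const_mul ((integrableOn_const (C := L + 2 * M0) measure_ball_lt_top.ne).add
      (Integrable.const_mul hX.abs 2)) U
  refine (le_abs_self _).trans ?_
  rw [← Real.norm_eq_abs]
  refine (norm_integral_le_of_norm_le
    (g := (ball x (2 * s)).indicator fun y => U * (L + 2 * M0 + 2 * |S.X y|))
    ((integrable_indicator_iff measurableSet_ball).2 hgi) ?_).trans ?_
  · have hnull : ∀ᵐ y : Space, y ∉ sphere x (2 * s) :=
      measure_eq_zero_iff_ae_notMem.1
        (Measure.addHaar_sphere_of_ne_zero volume x (by linarith : 2 * s ≠ 0))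
    filter_upwards [hnull] with y hys
    by_cases hy : y ∈ ball x (2 * s)
    · rw [Set.indicator_of_mem hy, norm_mul, Real.norm_eq_abs, Real.norm_eq_abs]
      obtain ⟨hg0, hle, -⟩ := hbd y hy
      refine mul_le_mul (by rwa [abs_of_nonneg hg0]) ((abs_sub _ _).trans ?_) (abs_nonneg _) hU
      have hfp : |farPot S.a S.k ‖y‖| ≤ M0 := by
        rw [farPot]
        refine (abs_sub _ _).trans (add_le_add le_rfl ?_)
        rw [abs_div, abs_norm]
        exact div_le_self (abs_nonneg _) (hn y hy)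
      have h5 : |S.X y + farPot S.a S.k ‖y‖| ≤ |S.X y| + M0 :=
        (abs_add_le _ _).trans (add_le_add le_rfl hfp)
      have h6 : |ζ y| ≤ 1 := by rw [abs_of_nonneg (h01 y).1]; exact (h01 y).2
      have h7 := mul_le_mul h5 h6 (abs_nonneg _) ((abs_nonneg _).trans h5)
      rw [abs_mul, abs_mul, abs_two]
      linarith [hlap y]
    · rw [Set.indicator_of_notMem hy]
      have hn' : y ∉ tsupport ζ := fun h => hys (mem_sphere.2 (le_antisymm (mem_closedBall.1 (hts h))
        (not_lt.1 fun h' => hy (mem_ball.2 h'))))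
      have hl : lap ζ y = 0 := Finset.sum_eq_zero fun a _ =>
        deriv3_eq_zero_of_notMem a fun h => hn' ((tsupport_deriv3 a ζ) h)
      rw [hl, image_eq_zero_of_notMem_tsupport hn']
      simp
  · rw [integral_indicator measurableSet_ball, integral_const_mul]
    refine mul_le_mul_of_nonneg_left (le_of_eq ?_) hU
    rw [integral_add (integrableOn_const (C := L + 2 * M0) measure_ball_lt_top.ne)
      (Integrable.const_mul hX.abs 2), integral_const_mul, setIntegral_const, smul_eq_mul, mul_comm (volume.real _)]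

/-- On a small ball above the plane the potential is small: average of `X` and budget. -/
lemma ball_small (hsmall : SmallOneStmt) (hbulk : BulkOneStmt) (hbudget : BudgetStmt) (S : Setup)
    {t : ℝ} (ht : 0 < t) (ht1 : t ≤ 1) {η : ℝ} (hη : 0 < η) :
    ∃ δ R' : ℝ, 0 < δ ∧ ∀ x : Space, R' ≤ ‖x‖ → t ≤ height x → height x ≤ δ * ‖x‖ →
      IntegrableOn S.W (ball x (t / 32)) ∧ ∫ y in ball x (t / 32), |S.W y| ≤ η := by
  set s := t / 32 with hsd
  have hs : 0 < s := by positivity
  obtain ⟨w, M, hw, -, hwM⟩ := setup_split S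
  obtain ⟨c', Rb, hc', hb⟩ := hbulk S
  obtain ⟨CG, hCG, hG⟩ := tailG_le S.data.a_pos S.k
  let β : ContDiffBump (0 : Space) := ⟨s, 2 * s, hs, by linarith⟩
  have hβb : IsBump Set.univ (β : Space → ℝ) :=
    ⟨β.contDiff, β.hasCompactSupport, subset_univ _⟩
  obtain ⟨L, hL⟩ := hβb.lap.smooth.continuous.bounded_above_of_compact_support hβb.lap.compact
  have hL0 : 0 ≤ L := (norm_nonneg _).trans (hL 0)
  set M0 := |S.a ^ 2 / 2| + |S.k|
  set V2 := volume.real (ball (0 : Space) (2 * s))
  have hC : 0 ≤ |S.C| := abs_nonneg _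
  set B1 := (L + 2 * M0) * V2 + 2 * (|S.C| * (1 + (2 / t) ^ 4))
  have hB1 : 0 ≤ B1 := by positivity
  set ε' := η * (c' * c') / (4 * (CG * CG) * (B1 + 1)) with hε'd
  have hε' : 0 < ε' := by positivity
  obtain ⟨δ₀, Rs, hδ₀, hsm⟩ := hsmall S ε' hε'
  set Q := |S.C| * (1 + (2 / t) ^ 4)
  refine ⟨δ₀ / 4, max (max (max Rb Rs) (max S.R₁ S.R₀) + 4) (max (8 / t) (2 * Q / η + 1)),
    by positivity, fun x hx hzt hzδ => ?_⟩
  obtain ⟨hx4, hx8, hxQ⟩ : max (max Rb Rs) (max S.R₁ S.R₀) + 4 ≤ ‖x‖ ∧ 8 / t ≤ ‖x‖ ∧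
      2 * Q / η + 1 ≤ ‖x‖ :=
    ⟨(le_max_left _ _).trans hx, ((le_max_left _ _).trans (le_max_right _ _)).trans hx,
      ((le_max_right _ _).trans (le_max_right _ _)).trans hx⟩
  have hxb : Rb + 4 ≤ ‖x‖ := by
    linarith [le_max_left Rb Rs, le_max_left (max Rb Rs) (max S.R₁ S.R₀)]
  have hxs : Rs + 4 ≤ ‖x‖ := by
    linarith [le_max_right Rb Rs, le_max_left (max Rb Rs) (max S.R₁ S.R₀)]
  have hx1 : S.R₁ + 4 ≤ ‖x‖ := by
    linarith [le_max_left S.R₁ S.R₀, le_max_right (max Rb Rs) (max S.R₁ S.R₀)]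
  have hx0 : S.R₀ + 4 ≤ ‖x‖ := by
    linarith [le_max_right S.R₁ S.R₀, le_max_right (max Rb Rs) (max S.R₁ S.R₀)]
  set r := ‖x‖
  have hR0 : (1 : ℝ) ≤ S.R₀ := S.data.one_le
  have hr : 5 ≤ r := by linarith
  have hz0 : 0 < height x := ht.trans_le hzt
  have hs1 : 2 * s ≤ 1 := by simp only [hsd]; linarith
  have hgeo : ∀ y ∈ ball x (2 * s), (r - 1 ≤ ‖y‖ ∧ |r - ‖y‖| ≤ 1) ∧ height x / 2 ≤ height y ∧
      1 / ‖y‖ ≤ height y ∧ height y ≤ δ₀ * ‖y‖ := by
    intro y hy
    rw [mem_ball, dist_comm] at hy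
    obtain ⟨h1, h2⟩ := norm_sub_dist_le x y
    have hh := abs_le.1 (abs_height_sub_le x y)
    have h2s : 2 * s ≤ height x / 2 := by simp only [hsd]; linarith
    refine ⟨⟨by linarith, abs_le.2 ⟨by linarith, by linarith⟩⟩, by linarith [hh.1, hh.2], ?_, ?_⟩
    · have hy4 : 2 / t ≤ ‖y‖ := by
        have e : 2 / t = 8 / t / 4 := by ring
        rw [e]; linarith
      rw [div_le_iff₀ ht] at hy4
      rw [div_le_iff₀ (by linarith)]
      nlinarith [hh.1, hh.2]
    · have : r ≤ 2 * ‖y‖ := by linarith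
      nlinarith [hh.1, hh.2, mul_le_mul_of_nonneg_left this hδ₀.le]
  have hfar : ∀ y ∈ ball x (2 * s), y ∈ far S.R₁ := fun y hy => by
    have := (hgeo y hy).1.1
    show S.R₁ < ‖y‖
    linarith
  have hnorm1 : ∀ y ∈ ball x (2 * s), 1 ≤ ‖y‖ := fun y hy => by linarith [(hgeo y hy).1.1]
  have hs2 : 2 * s = t / 16 := by simp only [hsd]; ring
  obtain ⟨hXi2, hI⟩ := defect_ball S ht ht1 hzt (show S.R₀ ≤ r by linarith) hx8
  rw [← hs2] at hXi2 hI
  have hQη : Q / r ≤ η / 2 := by
    rw [div_le_iff₀ (by linarith)]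
    have h := mul_le_mul_of_nonneg_left (show 2 * Q / η ≤ r by linarith) hη.le
    rw [mul_div_cancel₀ _ hη.ne'] at h
    linarith
  -- the budget
  obtain ⟨hWi2, -⟩ := S.integrableOn_W hw (fun y hy => (hwM y hy).2) measurableSet_ball
    measure_ball_lt_top hnorm1
  have hXW : ∀ᵐ y : Space, y ∈ ball x (2 * s) → 0 ≤ S.X y - S.W y := by
    filter_upwards [S.W_le_X] with y hy hm
    linarith [hy (hfar y hm)]
  set ζ : Space → ℝ := fun y => β (y - x) with hζd
  obtain ⟨hζ0, hts, hζb⟩ := shift_bump S β (t := t) (x := x) (rfl : β.rOut = 2 * s)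
    (show 2 * s ≤ t / 16 by linarith [hsd]) ht ht1 hzt (show S.R₁ + 4 ≤ ‖x‖ from hx1)
  obtain ⟨hi, heq⟩ := hbudget S ζ hζb
  have hlapζ : ∀ y, |lap ζ y| ≤ L := fun y => by
    rw [hζd, lap_shift]
    exact hL _
  set G := tailG S.a S.k r
  have hG0 : 0 < G := tailG_pos _ _ (by linarith)
  have hupper : ∀ y ∈ ball x (2 * s),
      0 ≤ Real.sqrt (S.n y) - S.φu y ∧
        Real.sqrt (S.n y) - S.φu y ≤ ε' / c' * (2 * height x) * (CG * G) ∧
        c' * (height x / 2) * (G / CG) ≤ S.φu y := by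
    intro y hy
    obtain ⟨⟨hy1, hy2⟩, hy3, hy4, hy5⟩ := hgeo y hy
    refine gap_point S hc' hCG hε'.le hz0 hG0 (hb y (by linarith) hy4) (hsm y (by linarith) hy4 hy5)
      hy3 ?_ (hG r ‖y‖ (by linarith) (by rwa [abs_sub_comm]))
      (hG ‖y‖ r (by linarith) hy2) (by linarith)
    rw [mem_ball, dist_comm] at hy
    have hh := abs_le.1 (abs_height_sub_le x y)
    linarith [hh.1]
  set m := c' * (height x / 2) * (G / CG) with hm
  set U := ε' / c' * (2 * height x) * (CG * G) with hU
  have hm0 : 0 < m := mul_pos (mul_pos hc' (half_pos hz0)) (div_pos hG0 hCG)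
  have hU0 : 0 ≤ U :=
    mul_nonneg (mul_nonneg (div_nonneg hε'.le hc'.le) (by linarith)) (mul_pos hCG hG0).le
  have hs12 : ball x s ⊆ ball x (2 * s) := ball_subset_ball (by linarith)
  have hWi1 : IntegrableOn S.W (ball x s) := hWi2.mono_set hs12
  have hXWi : IntegrableOn (fun y => S.X y - S.W y) (ball x s) :=
    (hXi2.mono_set hs12).sub hWi1
  have hb0 := budget_ball S hs (fun y hy => β.one_of_mem_closedBall (by
        rw [mem_closedBall, dist_zero_right, ← dist_eq_norm]
        exact (mem_ball.1 hy).le))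
    (fun y => ⟨β.nonneg, β.le_one⟩) hlapζ hζ0 hts hi heq hXi2 hXWi hXW hm0.le hU0
    (fun y hy => hupper y hy) (fun y hy => hnorm1 y hy)
  have hQ1 : Q / r ≤ Q := div_le_self (mul_nonneg hC (by positivity)) (by linarith)
  have hbud : ∫ y in ball x s, (S.X y - S.W y) ≤ η / 2 := by
    refine le_of_mul_le_mul_left ((hb0.trans (mul_le_mul_of_nonneg_left
      (show _ ≤ B1 + 1 from ?_) hU0)).trans_eq ?_) (mul_pos two_pos hm0)
    · have hV : volume.real (ball x (2 * s)) = V2 := by
        simp [V2, measureReal_def, Measure.addHaar_ball_center]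
      rw [hV]
      simp only [B1]
      linarith
    · simp only [hU, hm, hε'd]
      field_simp
      norm_num
  refine ⟨hWi1, ?_⟩
  calc ∫ y in ball x s, |S.W y|
      ≤ ∫ y in ball x s, (|S.X y| + (S.X y - S.W y)) := by
        refine setIntegral_mono_on_ae hWi1.abs ((hXi2.mono_set hs12).abs.add hXWi) measurableSet_ball ?_
        filter_upwards [hXW] with y hy hys
        have := hy (hs12 hys)
        rw [abs_le]
        constructor <;> linarith [le_abs_self (S.X y), neg_abs_le (S.X y)]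
    _ = (∫ y in ball x s, |S.X y|) + ∫ y in ball x s, (S.X y - S.W y) :=
        integral_add (hXi2.mono_set hs12).abs hXWi
    _ ≤ η / 2 + η / 2 := by
        refine add_le_add ((setIntegral_mono_set hXi2.abs (Eventually.of_forall fun y => abs_nonneg _)
          (HasSubset.Subset.eventuallyLE hs12)).trans (hI.trans hQη)) hbud
    _ = η := by ring

/-- The part of a ball above the height `t`. -/
lemma upper_small (hsmall : SmallOneStmt) (hbulk : BulkOneStmt) (hbudget : BudgetStmt) (S : Setup)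
    {R t : ℝ} (hR : 0 < R) (ht : 0 < t) (ht1 : t ≤ 1) {η : ℝ} (hη : 0 < η) :
    ∃ δ R' : ℝ, 0 < δ ∧ ∀ x : Space, R' ≤ ‖x‖ → |height x| ≤ δ * ‖x‖ →
      ∫ y in ball x R ∩ {y | t ≤ height y}, |S.W y| ≤ η := by
  classical
  obtain ⟨T, hTsub, hTfin, hT⟩ := finite_cover_balls_of_compact
    (isCompact_closedBall (0 : Space) R) (show 0 < t / 2 / 32 by positivity)
  set N := hTfin.toFinset.card
  obtain ⟨δ', R₁, hδ', hball⟩ := ball_small hsmall hbulk hbudget S (show 0 < t / 2 by positivity)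
    (by linarith) (show 0 < η / (N + 1) by positivity)
  refine ⟨δ' / 2, max (R₁ + R) (2 * R * (1 + δ') / δ'), half_pos hδ', fun x hx hz => ?_⟩
  have hx1 : R₁ + R ≤ ‖x‖ := (le_max_left _ _).trans hx
  have hx2 : 2 * R * (1 + δ') / δ' ≤ ‖x‖ := (le_max_right _ _).trans hx
  rw [div_le_iff₀ hδ'] at hx2
  set T' := hTfin.toFinset.filter fun c => t / 2 ≤ height (x + c)
  have hcentre : ∀ c ∈ T', IntegrableOn S.W (ball (x + c) (t / 2 / 32)) ∧
      ∫ y in ball (x + c) (t / 2 / 32), |S.W y| ≤ η / (N + 1) := by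
    intro c hc
    simp only [T', Finset.mem_filter, Set.Finite.mem_toFinset] at hc
    have hcR : ‖c‖ ≤ R := by simpa using hTsub hc.1
    have h1 : ‖x‖ - R ≤ ‖x + c‖ := by
      have := norm_sub_le (x + c) c
      rw [add_sub_cancel_right] at this
      linarith
    have h2 : height (x + c) ≤ |height x| + R := by
      have := abs_height_le c
      simp only [height, PiLp.add_apply] at this ⊢
      linarith [le_abs_self (x 2), le_abs_self (c 2)]
    refine hball (x + c) (by linarith) hc.2 (h2.trans ?_)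
    nlinarith [mul_le_mul_of_nonneg_left h1 hδ'.le]
  refine (setIntegral_le_sum T' (measurableSet_ball.inter (measurableSet_le measurable_const
    (measurable_coord_height))) (fun c _ => measurableSet_ball) (fun y => abs_nonneg _)
    (fun c hc => (hcentre c hc).1.abs) ?_).trans ?_
  · rintro y ⟨hy, hyt⟩
    have hm : y - x ∈ closedBall (0 : Space) R := by
      rw [mem_closedBall, dist_zero_right, ← dist_eq_norm]
      exact (mem_ball.1 hy).le
    obtain ⟨c, hcT, hc⟩ := mem_iUnion₂.1 (hT hm)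
    have hd : dist y (x + c) < t / 2 / 32 := by
      rw [mem_ball, dist_eq_norm] at hc
      rwa [dist_eq_norm, show y - (x + c) = y - x - c by abel]
    refine mem_iUnion₂.2 ⟨c, ?_, mem_ball.2 hd⟩
    simp only [T', Finset.mem_filter, Set.Finite.mem_toFinset]
    refine ⟨hcT, ?_⟩
    have h3 := abs_le.1 (abs_height_sub_le y (x + c))
    have h4 : t ≤ height y := hyt
    linarith [h3.2]
  · refine (Finset.sum_le_sum fun c hc => (hcentre c hc).2).trans ?_
    rw [Finset.sum_const, nsmul_eq_mul]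
    have hN : (T'.card : ℝ) ≤ N := by exact_mod_cast Finset.card_filter_le _ _
    refine (mul_le_mul_of_nonneg_right hN (by positivity)).trans ?_
    rw [mul_div_assoc', div_le_iff₀ (by positivity)]
    nlinarith

/-- The potential is small against the Newton kernel at every fixed scale. -/
theorem kernelSmall (hsmall : SmallOneStmt) (hbulk : BulkOneStmt) (hbudget : BudgetStmt) :
    KernelSmallStmt := by
  intro S R ε hR hε
  obtain ⟨w, M, hw, hM, hwM⟩ := setup_split S
  obtain ⟨C₁, hC₁, hker⟩ := ring_kernel hw zero_le_one (by norm_num : (1 : ℝ) < 5 / 3)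
  obtain ⟨Cb, hCb, hbl⟩ := ring_ball hw
  obtain ⟨K₁, hK₁, hunit⟩ := unit_kernel zero_le_one (by norm_num : (1 : ℝ) < 3)
  set d := min R (min 1 (ε / (4 * (M * K₁ + 1)))) with hdd
  have hd : 0 < d := lt_min hR (lt_min one_pos (by positivity))
  have hdR : d ≤ R := min_le_left _ _
  have hd2 : M * (K₁ * d ^ 2) ≤ ε / 4 := by
    have h1 : d ≤ 1 := (min_le_right _ _).trans (min_le_left _ _)
    have h2 : d ≤ ε / (4 * (M * K₁ + 1)) := (min_le_right _ _).trans (min_le_right _ _)
    rw [le_div_iff₀ (by positivity)] at h2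
    have h3 : d ^ 2 ≤ d := by nlinarith
    nlinarith [mul_le_mul_of_nonneg_left h3 (mul_nonneg hM hK₁)]
  set t := min 1 (ε * d / (8 * (8 * M * R ^ 2 + 1))) with htd
  have ht : 0 < t := lt_min one_pos (by positivity)
  have ht8 : M * (8 * R ^ 2 * t) ≤ ε * d / 8 := by
    have h2 : t ≤ ε * d / (8 * (8 * M * R ^ 2 + 1)) := min_le_right _ _
    rw [le_div_iff₀ (by positivity)] at h2
    nlinarith
  obtain ⟨δ₁, R₁, hδ₁, hup⟩ := upper_small hsmall hbulk hbudget S hR ht (min_le_left _ _)
    (show 0 < ε * d / 8 by positivity)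
  have hlim : Tendsto (fun r : ℝ => (r / 2) ^ (2 / 3 : ℝ)) atTop atTop :=
    (tendsto_rpow_atTop (by norm_num)).comp (tendsto_id.atTop_div_const two_pos)
  obtain ⟨R₂, hR₂⟩ := eventually_atTop.1 (hlim.eventually_ge_atTop
    (max (4 * C₁ * d ^ (2 / 3 : ℝ) / ε) (8 * Cb * R ^ (5 / 3 : ℝ) / (ε * d))))
  refine ⟨min (1 / 4) δ₁, max (max R₁ R₂) (2 * R + 2), lt_min (by norm_num) hδ₁,
    fun x₀ hx hz => ?_⟩
  set r := ‖x₀‖
  have hr1 : R₁ ≤ r := ((le_max_left _ _).trans (le_max_left _ _)).trans hx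
  have hr2 : R₂ ≤ r := ((le_max_right _ _).trans (le_max_left _ _)).trans hx
  have hr3 : 2 * R + 2 ≤ r := (le_max_right _ _).trans hx
  have hzr : |height x₀| ≤ r / 4 := by
    refine hz.trans ?_
    nlinarith [min_le_left (1 / 4 : ℝ) δ₁, norm_nonneg x₀]
  have hρ : r / 2 ≤ axisDist x₀ := by linarith [axisDist_ge x₀]
  set ρ := axisDist x₀
  have hρ0 : 0 < ρ := by linarith
  have hRρ : R ≤ ρ := by linarith
  have hpow : ∀ {a b : ℝ}, a / b ≤ (r / 2) ^ (2 / 3 : ℝ) → 0 < b → 0 ≤ a →
      a / ρ ^ (2 / 3 : ℝ) ≤ b := fun {a b} h hb ha => by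
    rw [div_le_iff₀ (Real.rpow_pos_of_pos hρ0 _)]
    rw [div_le_iff₀ hb] at h
    refine h.trans (le_of_eq_of_le (mul_comm _ _) ?_)
    exact mul_le_mul_of_nonneg_left (Real.rpow_le_rpow (by linarith) hρ (by norm_num)) hb.le
  have hB1 : ∀ y ∈ ball x₀ R, 1 ≤ ‖y‖ := fun y hy => by
    rw [mem_ball, dist_comm] at hy
    linarith [(norm_sub_dist_le x₀ y).1]
  obtain ⟨hWi, -⟩ := S.integrableOn_W hw (fun y hy => (hwM y hy).2) measurableSet_ball
    measure_ball_lt_top hB1
  set g : Space → ℝ := fun y => |S.W y| * ‖y - x₀‖⁻¹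
  have hg0 : ∀ y, 0 ≤ g y := fun y => mul_nonneg (abs_nonneg _) (inv_nonneg.2 (norm_nonneg _))
  have hgm : Measurable g :=
    S.measurable_W.abs.mul (measurable_id.sub measurable_const).norm.inv
  have hn : ∀ y, ‖y - x₀‖⁻¹ = ‖x₀ - y‖ ^ (-(1 : ℝ)) := fun y => by
    rw [Real.rpow_neg_one, norm_sub_rev]
  -- near the singularity
  obtain ⟨i1, b1⟩ := hker x₀ d hd (hdR.trans hRρ)
  obtain ⟨j1, c1⟩ := hunit x₀ d hd
  have hp : ∀ y ∈ ball x₀ d, g y ≤ w y * ‖x₀ - y‖ ^ (-(1 : ℝ)) + M * ‖x₀ - y‖ ^ (-(1 : ℝ)) :=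
    fun y hy => by
      simp only [g]
      rw [hn, ← add_mul]
      exact mul_le_mul_of_nonneg_right (hwM y (hB1 y (ball_subset_ball hdR hy))).2
        (Real.rpow_nonneg (norm_nonneg _) _)
  have hdom : IntegrableOn (fun y => w y * ‖x₀ - y‖ ^ (-(1 : ℝ)) + M * ‖x₀ - y‖ ^ (-(1 : ℝ)))
      (ball x₀ d) := i1.add (j1.const_mul M)
  have hgd : IntegrableOn g (ball x₀ d) := hdom.mono' hgm.aestronglyMeasurable
    ((ae_restrict_iff' measurableSet_ball).2 (Eventually.of_forall fun y hy => by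
      rw [Real.norm_eq_abs, abs_of_nonneg (hg0 y)]; exact hp y hy))
  have hnear : ∫ y in ball x₀ d, g y ≤ ε / 2 := by
    refine (setIntegral_mono_on hgd hdom measurableSet_ball hp).trans ?_
    rw [integral_add i1 (j1.const_mul M), integral_const_mul]
    norm_num at b1 c1 ⊢
    have h1 : C₁ * d ^ (2 / 3 : ℝ) / ρ ^ (2 / 3 : ℝ) ≤ ε / 4 := by
      refine hpow (le_trans (le_of_eq ?_) ((le_max_left _ _).trans (hR₂ r hr2))) (by positivity)
        (by positivity)
      ring
    rw [← mul_div_assoc] at b1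
    linarith [mul_le_mul_of_nonneg_left c1 hM]
  -- the rest of the ball
  have hsplit : ∀ y ∈ ball x₀ R, g y ≤ (ball x₀ d).indicator g y + d⁻¹ * |S.W y| := fun y _ => by
    by_cases hy : y ∈ ball x₀ d
    · rw [Set.indicator_of_mem hy]
      exact le_add_of_nonneg_right (mul_nonneg (inv_nonneg.2 hd.le) (abs_nonneg _))
    · rw [Set.indicator_of_notMem hy, zero_add, mul_comm]
      rw [mem_ball, not_lt, dist_eq_norm] at hy
      exact mul_le_mul_of_nonneg_left (inv_anti₀ hd hy) (abs_nonneg _)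
  have hind : Integrable ((ball x₀ d).indicator g) :=
    (integrable_indicator_iff measurableSet_ball).2 hgd
  have hsum : IntegrableOn (fun y => (ball x₀ d).indicator g y + d⁻¹ * |S.W y|) (ball x₀ R) :=
    hind.integrableOn.add (Integrable.const_mul hWi.abs _)
  have hgi : IntegrableOn g (ball x₀ R) := hsum.mono' hgm.aestronglyMeasurable
    ((ae_restrict_iff' measurableSet_ball).2 (Eventually.of_forall fun y hy => by
      rw [Real.norm_eq_abs, abs_of_nonneg (hg0 y)]; exact hsplit y hy))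
  refine ⟨hgi, (setIntegral_mono_on hgi hsum measurableSet_ball hsplit).trans ?_⟩
  rw [integral_add hind.integrableOn (Integrable.const_mul hWi.abs _), integral_const_mul,
    setIntegral_indicator measurableSet_ball, Set.inter_eq_right.2 (ball_subset_ball hdR)]
  -- the mean of the potential over the ball
  set A := ball x₀ R ∩ {y | |height y| < t}
  set U := ball x₀ R ∩ {y | t ≤ height y}
  set D := ball x₀ R ∩ {y | height y ≤ -t}
  have hmh := measurable_coord_height
  have hA : MeasurableSet A :=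
    measurableSet_ball.inter (measurableSet_lt hmh.abs measurable_const)
  have hU : MeasurableSet U := measurableSet_ball.inter (measurableSet_le measurable_const hmh)
  have hD : MeasurableSet D := measurableSet_ball.inter (measurableSet_le hmh measurable_const)
  have hslab : ∫ y in A, |S.W y| ≤ ε * d / 4 := by
    obtain ⟨-, hle⟩ := S.integrableOn_W hw (fun y hy => (hwM y hy).2) hA
      ((measure_mono Set.inter_subset_left).trans_lt measure_ball_lt_top) fun y hy => hB1 y hy.1
    refine hle.trans ?_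
    obtain ⟨hwi, hwb⟩ := hbl x₀ R hR hRρ
    have h1 : ∫ y in A, w y ≤ ∫ y in ball x₀ R, w y :=
      setIntegral_mono_set hwi (Eventually.of_forall fun y => hw.nonneg y)
        (Eventually.of_forall fun y hy => hy.1)
    have h2 : Cb * R ^ (5 / 3 : ℝ) / ρ ^ (2 / 3 : ℝ) ≤ ε * d / 8 := by
      refine hpow (le_trans (le_of_eq ?_) ((le_max_right _ _).trans (hR₂ r hr2))) (by positivity)
        (by positivity)
      ring
    rw [← mul_div_assoc] at hwb
    have h3 := mul_le_mul_of_nonneg_left (slab_volume_le x₀ hR.le ht.le) hM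
    linarith
  have hupper : ∫ y in U, |S.W y| ≤ ε * d / 8 :=
    hup x₀ hr1 (hz.trans (mul_le_mul_of_nonneg_right (min_le_right _ _) (norm_nonneg _)))
  have hdown : ∫ y in D, |S.W y| ≤ ε * d / 8 := by
    set e := axIso true 0
    have he : ∀ y, e y = mirror y := fun y => by simp [e, axMap, rot_zero_angle]
    have hpre : e ⁻¹' D = ball (mirror x₀) R ∩ {y | t ≤ height y} := by
      ext y
      simp only [D, Set.mem_preimage, Set.mem_inter_iff, mem_ball, Set.mem_setOf_eq, he, height_mirror]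
      rw [neg_le_neg_iff, show dist (mirror y) x₀ = dist y (mirror x₀) from by
        rw [← he, show x₀ = e (mirror x₀) by rw [he, mirror_mirror'], e.dist_map,
          ← show x₀ = e (mirror x₀) by rw [he, mirror_mirror']]]
    rw [← e.measurePreserving.setIntegral_preimage_emb e.toHomeomorph.measurableEmbedding
      (fun y => |S.W y|) D, hpre]
    simp only [he, S.W_mirror]
    have hnm : ‖mirror x₀‖ = r := by rw [← he, e.norm_map]
    refine hup (mirror x₀) (by rw [hnm]; exact hr1) ?_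
    rw [height_mirror, abs_neg, hnm]
    exact hz.trans (mul_le_mul_of_nonneg_right (min_le_right _ _) (norm_nonneg _))
  have htot : ∫ y in ball x₀ R, |S.W y| ≤ ε * d / 2 := by
    have := setIntegral_le_sum (Finset.univ : Finset (Fin 3)) (B := ![A, U, D]) measurableSet_ball
      (fun i _ => by fin_cases i <;> assumption) (fun y => abs_nonneg (S.W y))
      (fun i _ => by
        refine IntegrableOn.mono_set hWi.abs ?_
        fin_cases i <;> exact Set.inter_subset_left)
      (fun y hy => by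
        rcases lt_or_ge (|height y|) t with h | h
        · exact mem_iUnion₂.2 ⟨0, Finset.mem_univ _, hy, h⟩
        rcases le_abs.1 h with h | h
        · exact mem_iUnion₂.2 ⟨1, Finset.mem_univ _, hy, h⟩
        · exact mem_iUnion₂.2 ⟨2, Finset.mem_univ _, hy, (by linarith : height y ≤ -t)⟩)
    simp only [Fin.sum_univ_three, Matrix.cons_val_zero, Matrix.cons_val_one, Matrix.cons_val] at this
    linarith
  have := mul_le_mul_of_nonneg_left htot (inv_nonneg.2 hd.le)
  rw [show d⁻¹ * (ε * d / 2) = ε / 2 by field_simp] at this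
  linarith

end Vale.Agent.P363.Ext
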