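import Vale.Agent.P363.Ext.Spec
import Vale.Agent.P363.Caloric.Profile

/-!
P363, Kohn-Sham side: the profile that follows the even caloric polynomial of degree eight
alternates in sign on four parabolas, which no setup allows.
-/

noncomputable section

namespace Vale.Agent.P363.Ext

open Filter
open scoped Topology

/-- Four nonnegative points at which the profile has the signs `+, -, +, -`. -/
theorem exists_profile_signs :
    ∃ x : Fin 4 → ℝ, StrictMono x ∧ 0 ≤ x 0 ∧
      ∀ i : Fin 4, 0 < (-1) ^ (i : ℕ) * Caloric.profile8 (x i) := by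
  obtain ⟨q, hq, h0, hP⟩ := Caloric.sign
  have h01 : q 0 < q 1 := hq (by decide)
  have h12 : q 1 < q 2 := hq (by decide)
  have h23 : q 2 < q 3 := hq (by decide)
  refine ⟨![0, (q 0 + q 1) / 2, (q 1 + q 2) / 2, (q 2 + q 3) / 2],
    Fin.strictMono_iff_lt_succ.2 fun i => ?_, le_rfl, fun i => ?_⟩
  · fin_cases i <;> simp <;> linarith
  -- signs of the four linear factors at each point
  have pos : ∀ a b c d : ℝ, 0 < a → 0 < b → 0 < c → 0 < d → 0 < a * b * c * d / 1680 :=
    fun a b c d ha hb hc hd => by positivity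
  fin_cases i
  · simp [Caloric.profile8]
  · refine (pos ((q 0 + q 1) / 2 - q 0) (q 1 - (q 0 + q 1) / 2) (q 2 - (q 0 + q 1) / 2)
      (q 3 - (q 0 + q 1) / 2) (by linarith) (by linarith) (by linarith) (by linarith)).trans_eq ?_
    simp [hP]
    ring
  · refine (pos ((q 1 + q 2) / 2 - q 0) ((q 1 + q 2) / 2 - q 1) (q 2 - (q 1 + q 2) / 2)
      (q 3 - (q 1 + q 2) / 2) (by linarith) (by linarith) (by linarith) (by linarith)).trans_eq ?_
    simp [hP]
    ring
  · refine (pos ((q 2 + q 3) / 2 - q 0) ((q 2 + q 3) / 2 - q 1) ((q 2 + q 3) / 2 - q 2)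
      (q 3 - (q 2 + q 3) / 2) (by linarith) (by linarith) (by linarith) (by linarith)).trans_eq ?_
    simp [hP]
    ring

/-- The asymptotic profile rules out every setup. -/
theorem exterior_of (hA : AsympStmt) : ExteriorGoal := by
  intro S
  obtain ⟨j, γ, hγ, hlim⟩ := hA S
  obtain ⟨x, hx, hx0, hsign⟩ := exists_profile_signs
  have hκ : 0 < S.κ := by
    have := S.data.a_pos
    unfold Setup.κ
    positivity
  have hxi : ∀ i, 0 ≤ x i := fun i => hx0.trans (hx.monotone (Fin.zero_le i))
  refine S.no_alt j γ (fun i => Real.sqrt (S.κ * x i)) ?_ (Real.sqrt_nonneg _) ?_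
  · exact fun i i' h => Real.sqrt_lt_sqrt (mul_nonneg hκ.le (hxi i))
      (mul_lt_mul_of_pos_left (hx h) hκ)
  refine eventually_all.2 fun i => ?_
  have ht := (hlim _ (Real.sqrt_nonneg (S.κ * x i))).const_mul (γ * (-1) ^ (i : ℕ))
  rw [Real.sq_sqrt (mul_nonneg hκ.le (hxi i)), mul_div_cancel_left₀ _ hκ.ne'] at ht
  have hpos : 0 < γ * (-1) ^ (i : ℕ) * (γ * Caloric.profile8 (x i)) := by
    have := mul_pos (mul_self_pos.2 hγ) (hsign i)
    linarith
  filter_upwards [ht.eventually_const_lt hpos, eventually_gt_atTop (0 : ℝ)] with r hr h0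
  have hden : 0 < r ^ 4 / (r * tailG S.a S.k r) := by
    unfold tailG
    positivity
  refine pos_of_mul_pos_left ?_ hden.le
  calc (0 : ℝ) < γ * (-1) ^ (i : ℕ) *
        (r ^ 4 * red S.a S.k (S.ψ j) r (Real.sqrt (S.κ * x i) / Real.sqrt r)) := hr
    _ = _ := by rw [red]; ring

/-- The Kohn-Sham half from the sector decomposition and the exterior argument. -/
theorem ksGoal_of (hS : SectorsStmt) (hE : ExteriorGoal) : KSGoal := fun n hn hrep =>
  (hS n hn hrep).elim fun S _ => hE S

end Vale.Agent.P363.Ext
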