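import Vale.Agent.P363.Ext.StepSpec

/-!
P363, Kohn-Sham side: the profiles and the ground orbital together give the smallness of everything
but the odd orbital.
-/

noncomputable section

namespace Vale.Agent.P363.Ext

open Filter Set
open scoped BigOperators Topology

/-- A bound for all combinations of one sector bounds the finite sums of squares. -/
theorem sector_sq_le {S : Setup} {ν M : ℝ} {x : Space}
    (h : ∀ f : Space → ℝ, Profile S ν f → |f x| ≤ M) (s : Finset ℕ) (hs : ∀ j ∈ s, S.ν j = ν) :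
    ∑ j ∈ s, S.ψ j x ^ 2 ≤ M ^ 2 := by
  set t := ∑ j ∈ s, S.ψ j x ^ 2
  have ht : 0 ≤ t := Finset.sum_nonneg fun j _ => sq_nonneg _
  rcases ht.eq_or_lt with h0 | hpos
  · rw [← h0]
    positivity
  have hq : 0 < Real.sqrt t := Real.sqrt_pos.2 hpos
  have hα : ∑ j ∈ s, (S.ψ j x / Real.sqrt t) ^ 2 ≤ 1 := by
    simp only [div_pow, ← Finset.sum_div, Real.sq_sqrt ht]
    exact le_of_eq (div_self hpos.ne')
  have hf := h (fun y => ∑ j ∈ s, S.ψ j x / Real.sqrt t * S.ψ j y) ⟨s, _, hs, hα, rfl⟩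
  have he : ∑ j ∈ s, S.ψ j x / Real.sqrt t * S.ψ j x = Real.sqrt t := by
    rw [← mul_right_inj' hq.ne', Finset.mul_sum, Real.mul_self_sqrt ht]
    exact Finset.sum_congr rfl fun j _ => by field_simp
  simp only [he, abs_of_pos hq] at hf
  calc t = Real.sqrt t ^ 2 := (Real.sq_sqrt ht).symm
    _ ≤ M ^ 2 := pow_le_pow_left₀ hq.le hf 2

/-- Everything but the odd orbital is small from the height `1 / r` on. -/
theorem smallOne_of (hG : GroundSmallStmt) (hP : SmallProfilesStmt) : SmallOneStmt := by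
  intro S ε hε
  set η := Real.sqrt (ε / 4)
  have hη : 0 < η := Real.sqrt_pos.2 (by linarith)
  have hη2 : η ^ 2 = ε / 4 := Real.sq_sqrt (by linarith)
  obtain ⟨δ₀, R₀, hδ₀, h₀⟩ := hG S η hη
  obtain ⟨δ₁, R₁, hδ₁, h₁⟩ := hP S η hη
  refine ⟨min (min δ₀ δ₁) (1 / 4), max (max R₀ R₁) (max S.R₁ 0 + 1),
    lt_min (lt_min hδ₀ hδ₁) (by norm_num), fun x hR hlo hhi => ?_⟩
  simp only [max_le_iff] at hR
  obtain ⟨⟨hx0, hx1⟩, hx2⟩ := hR
  have hn : 0 < ‖x‖ := by linarith [le_max_right S.R₁ 0]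
  have hz : 0 ≤ height x := le_trans (by positivity) hlo
  have hd : ∀ δ, min (min δ₀ δ₁) (1 / 4) ≤ δ → height x ≤ δ * ‖x‖ := fun δ h =>
    hhi.trans (mul_le_mul_of_nonneg_right h hn.le)
  have hb : x ∈ belt S.R₁ :=
    ⟨by linarith [le_max_left S.R₁ 0], by
      rw [abs_of_nonneg hz]
      linarith [hd (1 / 4) (min_le_right _ _)]⟩
  set M := η * height x * S.G x
  have hφ : S.φ₀ x ≤ M :=
    h₀ x hx0 hlo (hd _ ((min_le_left _ _).trans (min_le_left _ _)))
  have hsec : ∀ ν : ℝ, ∀ f, Profile S ν f → |f x| ≤ M := fun ν f hf =>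
    h₁ ν f hf x hx1 hlo (hd _ ((min_le_left _ _).trans (min_le_right _ _)))
  have hψ : S.n x - 2 * S.φ₀ x ^ 2 - S.φu x ^ 2 ≤ 2 * M ^ 2 := by
    refine le_of_tendsto (S.sum_eq x hb) (Eventually.of_forall fun s => ?_)
    classical
    rw [← Finset.sum_filter_add_sum_filter_not s fun j => S.ν j = 0, two_mul]
    refine add_le_add (sector_sq_le (hsec 0) _ fun j hj => (Finset.mem_filter.1 hj).2)
      (sector_sq_le (hsec (1 / 2)) _ fun j hj => ?_)
    exact (S.ν_mem j).resolve_left (Finset.mem_filter.1 hj).2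
  have hφ2 : S.φ₀ x ^ 2 ≤ M ^ 2 := pow_le_pow_left₀ (S.nonneg₀ x) hφ 2
  calc S.n x - S.φu x ^ 2 ≤ 4 * M ^ 2 := by linarith
    _ = 4 * η ^ 2 * (height x * S.G x) ^ 2 := by ring
    _ = ε * (height x * S.G x) ^ 2 := by rw [hη2]; ring

end Vale.Agent.P363.Ext
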