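import Vale.Agent.P363.Ext.Sectors
import Vale.Agent.P363.Ext.Final
import Vale.Agent.P363.Ext.Bulk
import Vale.Agent.P363.Ext.Budget
import Vale.Agent.P363.Ext.GroundGlue
import Vale.Agent.P363.Ext.KernelSmall
import Vale.Agent.P363.Ext.AsympLower
import Vale.Agent.P363.KS.Regularity

/-!
P363: the Kohn-Sham half from the step statements. The landed steps are plugged in; the remaining
ones are hypotheses.
-/

noncomputable section

namespace Vale.Agent.P363.Ext

/-- Everything but the odd orbital is small, from the two profile statements. -/
theorem kernelSmall_of (hGS : GroundSmallStmt) (hSP : SmallProfilesStmt) : KernelSmallStmt :=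
  kernelSmall (smallOne_of hGS hSP) bulkOne budget

/-- The Kohn-Sham half from the asymptotics of the profiles and the decay of the ground orbital. -/
theorem ksGoal_of_steps (hG : GroundStmt) (hA : ProfileAsympStmt) : KSGoal :=
  ksGoal_of (sectors_of_regularity regularity) (exterior_of (asymp_of hG hA))

end Vale.Agent.P363.Ext
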