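import Vale.Agent.P363.Ext.StepSpec
import Vale.Agent.P363.Ext.Geometry
import Vale.Agent.P363.Ext.Point

/-!
P363, exterior argument: the ground orbital decays exponentially faster than the tail `G` near the
plane. The cut kernel of rate `√(a² + 2 gap) > a` contracts `φ₀ / G` on balls of a fixed large
radius, the potential being small against the Newton kernel there; the contraction is iterated
over `δ r` steps.
-/

noncomputable section

namespace Vale.Agent.P363.Ext

open MeasureTheory Filter Metric Set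
open scoped BigOperators Topology

namespace Ground

/-- The tail grows at most exponentially in the distance. -/
lemma tail_ratio {a : ℝ} (ha : 0 < a) (k : ℝ) {r s d : ℝ} (hr : 0 < r) (hd : |s - r| ≤ d)
    (h2 : 2 * d ≤ r) :
    tailG a k s ≤ 2 ^ |k / a - 2| * Real.exp (a * d) * tailG a k r := by
  obtain ⟨h1, h1'⟩ := abs_le.1 hd
  set p := k / a - 2
  have hs0 : 0 < s := by linarith
  have hp : (s / r) ^ p ≤ 2 ^ |p| := by
    have hq : 0 < s / r := by positivity
    rcases le_or_gt 0 p with hp | hp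
    · rw [abs_of_nonneg hp]
      refine Real.rpow_le_rpow hq.le ?_ hp
      rw [div_le_iff₀ hr]; linarith
    · rw [abs_of_neg hp, Real.rpow_neg (by norm_num), ← Real.inv_rpow (by norm_num)]
      refine Real.rpow_le_rpow_of_nonpos (by norm_num) ?_ hp.le
      rw [le_div_iff₀ hr]; linarith
  have he : Real.exp (-(a * s)) ≤ Real.exp (a * d) * Real.exp (-(a * r)) := by
    rw [← Real.exp_add]
    refine Real.exp_le_exp.2 ?_
    nlinarith
  have hsplit : s ^ p = (s / r) ^ p * r ^ p := by
    rw [← Real.mul_rpow (by positivity) hr.le, div_mul_cancel₀ _ hr.ne']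
  unfold tailG
  rw [hsplit]
  calc (s / r) ^ p * r ^ p * Real.exp (-(a * s))
      ≤ 2 ^ |p| * r ^ p * (Real.exp (a * d) * Real.exp (-(a * r))) := by
        refine mul_le_mul (mul_le_mul_of_nonneg_right hp ?_) he (Real.exp_pos _).le ?_ <;> positivity
    _ = 2 ^ |p| * Real.exp (a * d) * (r ^ p * Real.exp (-(a * r))) := by ring

/-- The cut kernel is at most the Newton kernel. -/
lemma kerK_le {m L : ℝ} (hm : 0 ≤ m) (hL : 0 < L) (w : Space) :
    kerK m (cutTheta L) w ≤ ‖w‖⁻¹ := by
  have hy : yuk m w ≤ ‖w‖⁻¹ := by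
    rcases eq_or_ne w 0 with rfl | hw
    · simp [yuk]
    have hn : 0 < ‖w‖ := norm_pos_iff.2 hw
    rw [yuk, ← one_div]
    refine div_le_div₀ zero_le_one (Real.exp_le_one_iff.2 (by nlinarith)) hn ?_
    nlinarith [Real.pi_gt_three]
  calc kerK m (cutTheta L) w ≤ 1 * yuk m w :=
        mul_le_mul_of_nonneg_right (cutTheta_le_one hL (norm_nonneg _)) (Yuk.yuk_nonneg m w)
    _ ≤ ‖w‖⁻¹ := by rwa [one_mul]

/-- The weight carries an exponential of rate `a` at a cost of order `1 / L`. -/
lemma kerW_exp_le {m a L : ℝ} (hm : 0 ≤ m) (hL : 1 ≤ L) (w : Space) :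
    kerW m (cutTheta L) w * Real.exp (a * ‖w‖) ≤ (20 + 10 * m) / L * yuk (m - a) w := by
  have hL0 : 0 < L := by linarith
  have hb : ∀ n : ℕ, 0 ≤ max (1 - ‖w‖ / L) 0 ^ n ∧ max (1 - ‖w‖ / L) 0 ^ n ≤ 1 := fun n =>
    ⟨pow_nonneg (le_max_right _ _) _, pow_le_one₀ (le_max_right _ _)
      (max_le (by linarith [div_nonneg (norm_nonneg w) hL0.le]) zero_le_one)⟩
  have h1 : deriv (deriv (cutTheta L)) ‖w‖ - 2 * m * deriv (cutTheta L) ‖w‖ ≤
      (20 + 10 * m) / L := by
    rw [deriv2_cutTheta, deriv_cutTheta]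
    dsimp only
    have h20 : 20 / L ^ 2 * max (1 - ‖w‖ / L) 0 ^ 3 ≤ 20 / L := by
      refine (mul_le_of_le_one_right (by positivity) (hb 3).2).trans ?_
      refine div_le_div_of_nonneg_left (by norm_num) hL0 ?_
      nlinarith
    have h10 : 10 * m / L * max (1 - ‖w‖ / L) 0 ^ 4 ≤ 10 * m / L :=
      mul_le_of_le_one_right (by positivity) (hb 4).2
    have e : 2 * m * (-(5 / L) * max (1 - ‖w‖ / L) 0 ^ 4) =
        -(10 * m / L * max (1 - ‖w‖ / L) 0 ^ 4) := by ring
    rw [e, add_div]
    linarith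
  have h2 : yuk m w * Real.exp (a * ‖w‖) = yuk (m - a) w := by
    rw [yuk, yuk, div_mul_eq_mul_div, ← Real.exp_add]
    ring_nf
  calc kerW m (cutTheta L) w * Real.exp (a * ‖w‖)
      = (deriv (deriv (cutTheta L)) ‖w‖ - 2 * m * deriv (cutTheta L) ‖w‖) *
          (yuk m w * Real.exp (a * ‖w‖)) := by rw [kerW]; ring
    _ ≤ (20 + 10 * m) / L * (yuk m w * Real.exp (a * ‖w‖)) :=
        mul_le_mul_of_nonneg_right h1 (mul_nonneg (Yuk.yuk_nonneg m w) (Real.exp_pos _).le)
    _ = _ := by rw [h2]

/-- One step of the contraction. -/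
lemma step (hK : KernelSmallStmt) (S : Setup) :
    ∃ L δ R : ℝ, 0 < L ∧ 0 < δ ∧ δ ≤ 1 ∧ 1 ≤ R ∧ S.R₀ ≤ R ∧ ∀ x : Space, R ≤ ‖x‖ →
      |height x| ≤ δ * ‖x‖ → ∀ M : ℝ, 0 ≤ M →
        (∀ y ∈ closedBall x L, S.φ₀ y ≤ M * S.G y) → S.φ₀ x ≤ M / 2 * S.G x := by
  have ha : 0 < S.a := S.data.a_pos
  set m := Real.sqrt (S.a ^ 2 + 2 * S.gap) with hmdef
  have hgap := S.gap_pos
  have hm2 : m ^ 2 = S.a ^ 2 + 2 * S.gap := Real.sq_sqrt (by positivity)
  have hma : S.a < m := by
    rw [hmdef, Real.lt_sqrt ha.le]; linarith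
  have hm : 0 ≤ m := Real.sqrt_nonneg _
  set Y := ∫ w, yuk (m - S.a) w with hY
  have hYi : Integrable (yuk (m - S.a)) := by
    have := Yuk.yukBounds.2.2.1 (m - S.a) 1 (by linarith) le_rfl (by norm_num)
    rwa [ENNReal.ofReal_one, memLp_one_iff_integrable] at this
  have hY0 : 0 ≤ Y := integral_nonneg fun w => Yuk.yuk_nonneg _ w
  set P : ℝ := 2 ^ |S.k / S.a - 2| with hP
  have hP0 : 0 < P := by positivity
  set L := max 1 (4 * P * Y * (20 + 10 * m)) with hLdef
  have hL1 : 1 ≤ L := le_max_left _ _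
  have hL : 0 < L := by linarith
  have hPY : P * ((20 + 10 * m) / L) * Y ≤ 1 / 4 := by
    rw [show P * ((20 + 10 * m) / L) * Y = P * Y * (20 + 10 * m) / L by ring, div_le_iff₀ hL]
    linarith [le_max_right (1 : ℝ) (4 * P * Y * (20 + 10 * m))]
  set CE := P * Real.exp (S.a * L) with hCE
  have hCE0 : 0 < CE := by positivity
  obtain ⟨δ, R', hδ, hker⟩ := hK S (L + 1) (1 / (16 * CE)) (by linarith) (by positivity)
  set V := ∫ w in ball (0 : Space) (L + 1), ‖w‖⁻¹ with hV
  have hVi : IntegrableOn (fun w : Space => ‖w‖⁻¹) (ball 0 (L + 1)) := by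
    refine ((Yuk.integrableOn_rpow_ball (by norm_num : (1 : ℝ) < 3) 0 (L + 1)).mono_set
      ball_subset_closedBall).congr_fun (fun w _ => ?_) measurableSet_ball
    simp [Real.rpow_neg_one]
  have hV0 : 0 ≤ V := setIntegral_nonneg measurableSet_ball fun w _ => by positivity
  refine ⟨L, min δ 1, max (max R' (2 * L + 1)) (max (S.R₁ + L + 2) (32 * CE * |S.k| * V + 1)),
    hL, lt_min hδ one_pos, min_le_right _ _, ?_, ?_, fun x hx hxδ M hM hφ => ?_⟩
  · exact le_trans (by linarith) ((le_max_right R' _).trans (le_max_left _ _))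
  · exact le_trans (by linarith [S.R₀_le]) ((le_max_left _ _).trans (le_max_right _ _))
  simp only [max_le_iff] at hx
  obtain ⟨⟨hxR', hx2L⟩, hxR₁, hxk⟩ := hx
  set r := ‖x‖ with hr
  have hr0 : 0 < r := by linarith
  have hG : 0 < S.G x := tailG_pos _ _ hr0
  have hnear : ∀ y ∈ closedBall x L, r - L ≤ ‖y‖ ∧ S.G y ≤ P * Real.exp (S.a * dist y x) * S.G x ∧
      S.G y ≤ CE * S.G x := by
    intro y hy
    rw [mem_closedBall] at hy
    have hn := norm_sub_dist_le x y
    rw [dist_comm, ← hr] at hn
    have hd : |‖y‖ - r| ≤ dist y x := abs_le.2 ⟨by linarith, by linarith⟩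
    have h := tail_ratio ha S.k hr0 hd (by linarith)
    refine ⟨by linarith, h, h.trans (mul_le_mul_of_nonneg_right ?_ hG.le)⟩
    rw [hCE]
    exact mul_le_mul_of_nonneg_left (Real.exp_le_exp.2 (mul_le_mul_of_nonneg_left hy ha.le)) hP0.le
  -- the mean value formula
  set h : Space → ℝ := fun y => 2 * (S.v y - S.μ + S.gap) * S.φ₀ y with hh
  have hsub : ball x (L + 1) ⊆ far S.R₁ := fun y hy => by
    rw [mem_ball] at hy
    have hn := norm_sub_dist_le x y
    rw [dist_comm, ← hr] at hn
    show S.R₁ < ‖y‖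
    linarith
  have hloc : LocMemLp 2 (ball x (L + 1)) h := by
    have h1 : LocMemLp 2 univ fun y => 2 * (S.v y + (S.gap - S.μ)) :=
      (S.v_two.add (LocMemLp.of_continuousOn continuousOn_const)).const_mul 2
    intro K hK hKU
    have := (h1.mul_continuousOn (φ := S.φ₀) S.cont₀.continuousOn) K hK (subset_univ _)
    convert this using 1
    funext y
    simp only [hh]
    ring
  have hpt := point m L (L + 1) (cutTheta L) hm hL (by linarith) (contDiff_cutTheta L)
    (cutTheta_zero L) (cutTheta_eq_zero hL) x S.φ₀ h S.cont₀.continuousOn (S.eq₀.mono hsub) hloc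
  have hW : ∫ y, kerW m (cutTheta L) (y - x) * S.φ₀ y ≤ M * S.G x / 4 := by
    refine le_trans (integral_mono_of_nonneg (.of_forall fun y =>
      mul_nonneg (kerW_cutTheta_nonneg hm hL _) (S.nonneg₀ y))
      ((hYi.comp_sub_right x).const_mul (M * S.G x * P * ((20 + 10 * m) / L)))
      (.of_forall fun y => ?_)) ?_
    · by_cases hy : y ∈ closedBall x L
      · obtain ⟨-, hGy, -⟩ := hnear y hy
        calc kerW m (cutTheta L) (y - x) * S.φ₀ y
            ≤ kerW m (cutTheta L) (y - x) * (M * (P * Real.exp (S.a * dist y x) * S.G x)) :=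
              mul_le_mul_of_nonneg_left ((hφ y hy).trans (mul_le_mul_of_nonneg_left hGy hM))
                (kerW_cutTheta_nonneg hm hL _)
          _ = M * S.G x * P *
              (kerW m (cutTheta L) (y - x) * Real.exp (S.a * ‖y - x‖)) := by
              rw [dist_eq_norm]; ring
          _ ≤ M * S.G x * P * ((20 + 10 * m) / L * yuk (m - S.a) (y - x)) :=
              mul_le_mul_of_nonneg_left (kerW_exp_le hm hL1 _) (by positivity)
          _ = _ := by ring
      · dsimp only
        rw [Point.kerW_zero (cutTheta_eq_zero hL) (by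
          rw [mem_closedBall, dist_eq_norm] at hy; linarith), zero_mul]
        exact mul_nonneg (by positivity) (Yuk.yuk_nonneg _ _)
    · rw [integral_const_mul, integral_sub_right_eq_self (yuk (m - S.a)) x]
      calc M * S.G x * P * ((20 + 10 * m) / L) * Y
          = M * S.G x * (P * ((20 + 10 * m) / L) * Y) := by ring
        _ ≤ M * S.G x * (1 / 4) := mul_le_mul_of_nonneg_left hPY (by positivity)
        _ = _ := by ring
  obtain ⟨hWi, hWle⟩ := hker x hxR' (hxδ.trans
    (mul_le_mul_of_nonneg_right (min_le_left _ _) hr0.le))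
  have htrans : IntegrableOn (fun y => ‖y - x‖⁻¹) (ball x (L + 1)) ∧
      ∫ y in ball x (L + 1), ‖y - x‖⁻¹ = V := by
    have e : (ball x (L + 1)).indicator (fun y => ‖y - x‖⁻¹) =
        fun y => (ball (0 : Space) (L + 1)).indicator (fun w => ‖w‖⁻¹) (y - x) := by
      funext y
      by_cases hy : y ∈ ball x (L + 1)
      · rw [indicator_of_mem hy, indicator_of_mem (by simpa [dist_eq_norm] using hy)]
      · rw [indicator_of_notMem hy, indicator_of_notMem (by simpa [dist_eq_norm] using hy)]
    refine ⟨?_, ?_⟩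
    · rw [← integrable_indicator_iff measurableSet_ball, e]
      exact (hVi.integrable_indicator measurableSet_ball).comp_sub_right x
    · rw [← integral_indicator measurableSet_ball, e,
        integral_sub_right_eq_self (fun w => (ball (0 : Space) (L + 1)).indicator
          (fun w => ‖w‖⁻¹) w) x, integral_indicator measurableSet_ball]
  set c := |S.k| / (r / 2) with hc
  have hc0 : 0 ≤ c := by positivity
  have hKint : |∫ y, kerK m (cutTheta L) (y - x) * (h y - m ^ 2 * S.φ₀ y)| ≤ M * S.G x / 4 := by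
    refine abs_integral_le_integral_abs.trans (le_trans (integral_mono_of_nonneg
      (.of_forall fun y => abs_nonneg _)
      (IntegrableOn.integrable_indicator
        ((hWi.add (htrans.1.const_mul c)).const_mul (2 * CE * M * S.G x)) measurableSet_ball)
      (.of_forall fun y => ?_)) ?_)
    · by_cases hy : y ∈ ball x (L + 1)
      · rw [indicator_of_mem hy]
        simp only [Pi.add_apply]
        by_cases hy' : y ∈ closedBall x L
        · obtain ⟨hrn, -, hGy⟩ := hnear y hy'
          have hyr : r / 2 ≤ ‖y‖ := by linarith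
          have hk : |S.k / ‖y‖| ≤ c := by
            rw [abs_div, abs_norm]
            exact div_le_div_of_nonneg_left (abs_nonneg _) (by linarith) hyr
          have he : h y - m ^ 2 * S.φ₀ y = 2 * (S.W y - S.k / ‖y‖) * S.φ₀ y := by
            simp only [hh, hm2, Setup.W, farPot]
            ring
          rw [abs_mul, abs_of_nonneg (kerK_cutTheta_nonneg _ _ _), he, abs_mul, abs_mul, abs_two,
            abs_of_nonneg (S.nonneg₀ y)]
          calc kerK m (cutTheta L) (y - x) * (2 * |S.W y - S.k / ‖y‖| * S.φ₀ y)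
              ≤ ‖y - x‖⁻¹ * (2 * (|S.W y| + c) * (M * (CE * S.G x))) := by
                refine mul_le_mul (kerK_le hm hL _) ?_
                  (mul_nonneg (by positivity) (S.nonneg₀ y)) (by positivity)
                refine mul_le_mul (mul_le_mul_of_nonneg_left
                  ((abs_sub _ _).trans (by linarith)) zero_le_two)
                  ((hφ y hy').trans (mul_le_mul_of_nonneg_left hGy hM)) (S.nonneg₀ y)
                  (by positivity)
            _ = _ := by ring
        · rw [kerK, cutTheta_eq_zero hL _ (by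
            rw [mem_closedBall, dist_eq_norm] at hy'; linarith), zero_mul, zero_mul, abs_zero]
          positivity
      · dsimp only
        rw [indicator_of_notMem hy, kerK, cutTheta_eq_zero hL _ (by
          rw [mem_ball, dist_eq_norm] at hy; linarith), zero_mul, zero_mul, abs_zero]
    · rw [integral_indicator measurableSet_ball, integral_const_mul]
      simp only [Pi.add_apply]
      rw [integral_add hWi (htrans.1.const_mul c), integral_const_mul, htrans.2]
      have h1 : CE * (1 / (16 * CE)) = 1 / 16 := by field_simp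
      have h2 : CE * (c * V) ≤ 1 / 16 := by
        rw [hc, show CE * (|S.k| / (r / 2) * V) = 2 * CE * |S.k| * V / r by field_simp,
          div_le_iff₀ hr0]
        linarith
      calc 2 * CE * M * S.G x *
            ((∫ y in ball x (L + 1), |S.W y| * ‖y - x‖⁻¹) + c * V)
          ≤ 2 * CE * M * S.G x * (1 / (16 * CE) + c * V) :=
            mul_le_mul_of_nonneg_left (by linarith) (by positivity)
        _ = 2 * M * S.G x * (CE * (1 / (16 * CE)) + CE * (c * V)) := by ring
        _ ≤ 2 * M * S.G x * (1 / 16 + 1 / 16) :=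
            mul_le_mul_of_nonneg_left (by linarith) (by positivity)
        _ = _ := by ring
  have := abs_le.1 hKint
  linarith

/-- Iterating the step. -/
lemma iterate (hK : KernelSmallStmt) (S : Setup) :
    ∃ L δ R A : ℝ, 0 < L ∧ 0 < δ ∧ δ ≤ 1 ∧ 1 ≤ R ∧ 0 < A ∧ ∀ (n : ℕ) (x : Space),
      R + n * L ≤ ‖x‖ → |height x| + n * ((1 + δ) * L) ≤ δ * ‖x‖ →
        S.φ₀ x ≤ (1 / 2) ^ n * (A * (‖x‖ + n * L)) * S.G x := by
  obtain ⟨L, δ, R, hL, hδ, hδ1, hR1, hR₀, hstep⟩ := step hK S
  have hC : 0 < S.C := lt_of_lt_of_le (S.data.positive 0) (S.data.bounded 0)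
  refine ⟨L, δ, R, 2 * S.C, hL, hδ, hδ1, hR1, by linarith, fun n => ?_⟩
  induction n with
  | zero =>
    intro x hx _
    simp only [Nat.cast_zero, zero_mul, add_zero, pow_zero, one_mul] at hx ⊢
    have hG : 0 < S.G x := tailG_pos _ _ (by linarith)
    have h1 : S.φ₀ x ≤ Real.sqrt (S.n x) :=
      Real.le_sqrt_of_sq_le (by nlinarith [S.le_sum x, sq_nonneg (S.φu x)])
    refine h1.trans ((S.data.upper x (by linarith)).trans (mul_le_mul_of_nonneg_right ?_ hG.le))
    have h3 : (‖x‖ ^ 3)⁻¹ ≤ ‖x‖ := by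
      refine (inv_le_one_of_one_le₀ (one_le_pow₀ ?_)).trans ?_ <;> linarith
    nlinarith [abs_height_le x]
  | succ n ih =>
    intro x hx hz
    push_cast at hx hz ⊢
    have hLn : 0 ≤ (n : ℝ) * L := by positivity
    set M := (1 / 2 : ℝ) ^ n * (2 * S.C * (‖x‖ + L + n * L))
    have hM : 0 ≤ M := by positivity
    have hkey : S.φ₀ x ≤ M / 2 * S.G x := by
      have hp : 0 ≤ ((n : ℝ) + 1) * ((1 + δ) * L) := by positivity
      refine hstep x (by nlinarith) (by linarith) M hM fun y hy => ?_
      rw [mem_closedBall] at hy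
      have hn := norm_sub_dist_le x y
      rw [dist_comm] at hn
      have hh : |height y| ≤ |height x| + L := by
        linarith [(abs_sub_abs_le_abs_sub (height y) (height x)).trans
          ((abs_height_sub_le y x).trans hy)]
      have hdy : δ * (‖x‖ - L) ≤ δ * ‖y‖ := mul_le_mul_of_nonneg_left (by linarith) hδ.le
      refine (ih y (by nlinarith) (by nlinarith)).trans (mul_le_mul_of_nonneg_right ?_
        (tailG_pos _ _ (by nlinarith)).le)
      refine mul_le_mul_of_nonneg_left (mul_le_mul_of_nonneg_left ?_ (by linarith)) (by positivity)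
      linarith
    refine hkey.trans (le_of_eq ?_)
    simp only [M]
    ring

end Ground

/-- The ground orbital is negligible near the plane. -/
theorem ground (hK : KernelSmallStmt) : GroundStmt := by
  intro S m
  obtain ⟨L, δ, R, A, hL, hδ, hδ1, hR, hA, hit⟩ := Ground.iterate hK S
  set q := δ / (4 * L) with hq
  have hq0 : 0 < q := by positivity
  set s := q * Real.log 2
  have hs : 0 < s := mul_pos hq0 (Real.log_pos one_lt_two)
  have hlim : Tendsto (fun r : ℝ => 4 * A * (r ^ (((m + 1 : ℕ) : ℝ)) * Real.exp (-s * r)))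
      atTop (𝓝 0) := by
    simpa using (tendsto_rpow_mul_exp_neg_mul_atTop_nhds_zero ((m + 1 : ℕ) : ℝ) s hs).const_mul
      (4 * A)
  obtain ⟨R', hR'⟩ := eventually_atTop.1 (hlim.eventually_le_const zero_lt_one)
  refine ⟨1, δ / 2, max R' (2 * R), by positivity, fun x hx hz => ?_⟩
  rw [max_le_iff] at hx
  set r := ‖x‖
  have hr : 0 < r := by linarith
  set n := ⌊q * r⌋₊
  have hn : (n : ℝ) ≤ q * r := Nat.floor_le (by positivity)
  have hn' : q * r < n + 1 := Nat.lt_floor_add_one _
  have hnL : (n : ℝ) * L ≤ δ * r / 4 := by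
    calc (n : ℝ) * L ≤ q * r * L := mul_le_mul_of_nonneg_right hn hL.le
      _ = δ * r / 4 := by rw [hq]; field_simp
  have hdr : δ * r ≤ r := mul_le_of_le_one_left hr.le hδ1
  have hG : 0 < S.G x := tailG_pos _ _ hr
  have h := hit n x (by linarith) (by
    have h2 : (n : ℝ) * ((1 + δ) * L) ≤ 2 * ((n : ℝ) * L) := by
      have : 0 ≤ (n : ℝ) * L := by positivity
      nlinarith
    linarith)
  refine h.trans (mul_le_mul_of_nonneg_right ?_ hG.le)
  have hpow : (1 / 2 : ℝ) ^ n ≤ 2 * Real.exp (-s * r) := by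
    have h1 : (1 / 2 : ℝ) ^ (n + 1) ≤ Real.exp (-s * r) := by
      have h2 : Real.log ((1 / 2 : ℝ) ^ (n + 1)) ≤ -s * r := by
        rw [Real.log_pow, one_div, Real.log_inv]
        push_cast
        simp only [s]
        have := mul_le_mul_of_nonneg_right hn'.le (Real.log_pos one_lt_two).le
        linarith
      rwa [Real.log_le_iff_le_exp (by positivity)] at h2
    rw [pow_succ] at h1
    linarith
  calc (1 / 2 : ℝ) ^ n * (A * (r + n * L))
      ≤ 2 * Real.exp (-s * r) * (A * (2 * r)) :=
        mul_le_mul hpow (mul_le_mul_of_nonneg_left (by linarith) hA.le) (by positivity)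
          (by positivity)
    _ = 4 * A * (r ^ (((m + 1 : ℕ) : ℝ)) * Real.exp (-s * r)) / r ^ m := by
        rw [Real.rpow_natCast, pow_succ]
        field_simp
        ring
    _ ≤ 1 / r ^ m := div_le_div_of_nonneg_right (hR' r hx.1) (by positivity)

end Vale.Agent.P363.Ext
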