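import Vale.Agent.P363.Ext.StepSpec
import Vale.Agent.P363.Ext.PlaneTools

/-!
P363, Kohn-Sham side: combinations of profiles. They solve the orbital equation of their sector,
lie below `√n`, and bounds uniform over them are bounds for sums of squares.
-/

noncomputable section

namespace Vale.Agent.P363.Ext

open MeasureTheory Metric Set
open scoped BigOperators Topology

lemma axisDist_sq (x : Space) : axisDist x ^ 2 = x 0 ^ 2 + x 1 ^ 2 :=
  Real.sq_sqrt (by positivity)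

lemma measurable_centrifugal (ν : ℝ) : Measurable (centrifugal ν) := by
  unfold centrifugal
  exact measurable_const.div
    (Continuous.measurable (f := fun x : Space => x 0 ^ 2 + x 1 ^ 2) (by fun_prop))

/-- In the belt the centrifugal term is at most `1`, indeed at most `1 / ‖x‖ ^ 2`. -/
lemma abs_centrifugal_le {S : Setup} {ν : ℝ} (hν : ν = 0 ∨ ν = 1 / 2) {x : Space}
    (hx : x ∈ belt S.R₁) :
    |centrifugal ν x| ≤ 1 / ‖x‖ ^ 2 ∧ |centrifugal ν x| ≤ 1 := by
  have h1 : 1 ≤ ‖x‖ := (S.data.one_le.trans S.R₀_le).trans hx.1.le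
  have h2 := norm_sq_eq x
  have h3 : 4 * height x ^ 2 ≤ ‖x‖ ^ 2 := by
    have := hx.2.le
    rw [← sq_abs (height x)]
    nlinarith [abs_nonneg (height x)]
  have key : |centrifugal ν x| ≤ 1 / ‖x‖ ^ 2 := by
    rcases hν with rfl | rfl
    · simp only [centrifugal, zero_div, abs_zero]; positivity
    · have hp : 0 < x 0 ^ 2 + x 1 ^ 2 := by nlinarith
      rw [centrifugal, abs_of_nonneg (by positivity), div_le_div_iff₀ hp (by positivity)]
      nlinarith
  exact ⟨key, key.trans (div_le_one_of_le₀ (one_le_pow₀ h1) (by positivity))⟩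

lemma Profile.sector {S : Setup} {ν : ℝ} {f : Space → ℝ} (h : Profile S ν f) :
    (ν = 0 ∨ ν = 1 / 2) ∨ f = fun _ => 0 := by
  obtain ⟨s, α, hs, -, rfl⟩ := h.comb
  rcases s.eq_empty_or_nonempty with rfl | ⟨j, hj⟩
  · exact Or.inr (by simp)
  · exact Or.inl (hs j hj ▸ S.ν_mem j)

/-- Combinations stay below the square root of the profile part of the density. -/
lemma Profile.abs_le {S : Setup} {ν : ℝ} {f : Space → ℝ} (h : Profile S ν f) {x : Space}
    (hx : x ∈ belt S.R₁) :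
    |f x| ≤ Real.sqrt (S.n x - 2 * S.φ₀ x ^ 2 - S.φu x ^ 2) := by
  obtain ⟨s, α, -, hα, rfl⟩ := h.comb
  refine Real.abs_le_sqrt ?_
  have hsum := S.sum_eq x hx
  have h2 : ∑ j ∈ s, S.ψ j x ^ 2 ≤ S.n x - 2 * S.φ₀ x ^ 2 - S.φu x ^ 2 :=
    sum_le_hasSum s (fun j _ => sq_nonneg _) hsum
  calc (∑ j ∈ s, α j * S.ψ j x) ^ 2 ≤ (∑ j ∈ s, α j ^ 2) * ∑ j ∈ s, S.ψ j x ^ 2 :=
        Finset.sum_mul_sq_le_sq_mul_sq s _ _
    _ ≤ 1 * (S.n x - 2 * S.φ₀ x ^ 2 - S.φu x ^ 2) :=
        mul_le_mul hα h2 (Finset.sum_nonneg fun j _ => sq_nonneg _) zero_le_one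
    _ = S.n x - 2 * S.φ₀ x ^ 2 - S.φu x ^ 2 := one_mul _

lemma Profile.abs_le_sqrt {S : Setup} {ν : ℝ} {f : Space → ℝ} (h : Profile S ν f) {x : Space}
    (hx : x ∈ belt S.R₁) : |f x| ≤ Real.sqrt (S.n x) :=
  (h.abs_le hx).trans (Real.sqrt_le_sqrt (by nlinarith [sq_nonneg (S.φ₀ x), sq_nonneg (S.φu x)]))

lemma weakPoisson_zero (U : Set Space) : WeakPoisson U (fun _ => (0 : ℝ)) fun _ => 0 :=
  ⟨locallyIntegrableOn_const _, locallyIntegrableOn_const _, fun η _ => by simp⟩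

/-- Combinations solve the equation of their sector. -/
lemma Profile.eqn {S : Setup} {ν : ℝ} {f : Space → ℝ} (h : Profile S ν f) :
    WeakPoisson (belt S.R₁) f fun x => 2 * (S.v x - S.μ + centrifugal ν x) * f x := by
  obtain ⟨s, α, hs, -, rfl⟩ := h.comb
  clear h
  induction s using Finset.cons_induction with
  | empty => simpa using weakPoisson_zero (belt S.R₁)
  | cons j s hj ih =>
    have h1 := (S.eq_ψ j).const_mul (α j)
    rw [hs j (Finset.mem_cons_self j s)] at h1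
    have h2 := h1.add (ih fun i hi => hs i (Finset.mem_cons_of_mem hi))
    refine (congrArg₂ (WeakPoisson (belt S.R₁)) ?_ ?_).mp h2
    · funext x; rw [Finset.sum_cons]
    · funext x; simp only [Finset.sum_cons]; ring

lemma Profile.continuousOn {S : Setup} {ν : ℝ} {f : Space → ℝ} (h : Profile S ν f) :
    ContinuousOn f (belt S.R₁) := by
  obtain ⟨s, α, -, -, rfl⟩ := h.comb
  exact continuousOn_finsetSum s fun j _ => continuousOn_const.mul (S.cont_ψ j)

lemma Profile.contDiffOn {S : Setup} {ν : ℝ} {f : Space → ℝ} (h : Profile S ν f) :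
    ContDiffOn ℝ 1 f (belt S.R₁) := by
  obtain ⟨s, α, -, -, rfl⟩ := h.comb
  exact ContDiffOn.sum fun j _ => contDiffOn_const.mul (S.c1_ψ j)

lemma Profile.axial {S : Setup} {ν : ℝ} {f : Space → ℝ} (h : Profile S ν f) : AxialSym f := by
  obtain ⟨s, α, -, -, rfl⟩ := h.comb
  exact ⟨fun θ x => by simp only [(S.axial_ψ _).1], fun x => by simp only [(S.axial_ψ _).2]⟩

lemma Profile.evenSol {S : Setup} {ν : ℝ} {f : Space → ℝ} (h : Profile S ν f) :
    ∃ w, EvenSol S 1 f w ∧ (w = centrifugal ν ∨ f = fun _ => 0) := by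
  rcases h.sector with hν | hf
  · exact ⟨centrifugal ν, ⟨h.continuousOn, fun x _ => h.axial.2 x, fun x hx => h.abs_le_sqrt hx,
      measurable_centrifugal ν, fun x hx => (abs_centrifugal_le hν hx).2, h.eqn⟩, Or.inl rfl⟩
  · refine ⟨fun _ => 0, ⟨h.continuousOn, fun x _ => h.axial.2 x, fun x hx => h.abs_le_sqrt hx,
      measurable_const, fun x _ => by simp, ?_⟩, Or.inr hf⟩
    subst hf
    simpa using weakPoisson_zero (belt S.R₁)

lemma evenSol_ground (S : Setup) : EvenSol S S.gap S.φ₀ fun _ => S.gap where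
  cont := S.cont₀.continuousOn
  even x _ := S.axial₀.2 x
  bound x _ := by
    refine Real.abs_le_sqrt ?_
    nlinarith [S.le_sum x, sq_nonneg (S.φ₀ x), sq_nonneg (S.φu x)]
  meas := measurable_const
  w_le x _ := by rw [abs_of_pos S.gap_pos]
  eqn := S.eq₀.mono (belt_subset_far S.R₁)

/-- A bound for all combinations at a point bounds the sum of squares. -/
lemma sum_sq_le_of_profiles {S : Setup} {x : Space} {b : ℝ}
    (h : ∀ (ν : ℝ) (f : Space → ℝ), Profile S ν f → |f x| ≤ b) (s : Finset ℕ) :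
    ∑ j ∈ s, S.ψ j x ^ 2 ≤ 2 * b ^ 2 := by
  have key : ∀ (ν : ℝ) (t : Finset ℕ), (∀ j ∈ t, S.ν j = ν) → ∑ j ∈ t, S.ψ j x ^ 2 ≤ b ^ 2 := by
    intro ν t ht
    set N := Real.sqrt (∑ j ∈ t, S.ψ j x ^ 2) with hN
    have hsq : N ^ 2 = ∑ j ∈ t, S.ψ j x ^ 2 :=
      Real.sq_sqrt (Finset.sum_nonneg fun j _ => sq_nonneg _)
    rcases (show 0 ≤ N from Real.sqrt_nonneg _).eq_or_lt with h0 | h0
    · rw [← hsq, ← h0]; simp [sq_nonneg]
    have hp : Profile S ν fun y => ∑ j ∈ t, S.ψ j x / N * S.ψ j y :=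
      ⟨t, fun j => S.ψ j x / N, ht, by
        simp only [div_pow, ← Finset.sum_div, ← hsq]
        rw [div_self (by positivity)], rfl⟩
    have h1 := h ν _ hp
    have e : ∑ j ∈ t, S.ψ j x / N * S.ψ j x = N := by
      simp only [div_mul_eq_mul_div, ← sq, ← Finset.sum_div, ← hsq]
      field_simp
    rw [e, abs_of_pos h0] at h1
    exact hsq.symm.trans_le (pow_le_pow_left₀ h0.le h1 2)
  rw [← Finset.sum_filter_add_sum_filter_not s (fun j => S.ν j = 0)]
  have h1 := key 0 (s.filter fun j => S.ν j = 0) fun j hj => (Finset.mem_filter.1 hj).2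
  have h2 := key (1 / 2) (s.filter fun j => ¬S.ν j = 0) fun j hj =>
    (S.ν_mem j).resolve_left (Finset.mem_filter.1 hj).2
  linarith

/-- The profile part of the density under a bound for all combinations. -/
lemma profile_part_le {S : Setup} {x : Space} (hx : x ∈ belt S.R₁) {b : ℝ}
    (h : ∀ (ν : ℝ) (f : Space → ℝ), Profile S ν f → |f x| ≤ b) :
    S.n x - 2 * S.φ₀ x ^ 2 - S.φu x ^ 2 ≤ 2 * b ^ 2 :=
  hasSum_le_of_sum_le (S.sum_eq x hx) (sum_sq_le_of_profiles h)

end Vale.Agent.P363.Ext
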