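import Vale.Agent.P363.Ext.Spec
import Vale.Agent.P363.Tool.Ratio
import Vale.Agent.P363.Tool.YukReg

/-!
P363, Kohn-Sham side: regularity of the density in the far region and the weak Laplacian of `√n`.
-/

noncomputable section

namespace Vale.Agent.P363.Ext

open MeasureTheory Filter Set Metric
open scoped BigOperators Topology ENNReal

lemma isOpen_far (R : ℝ) : IsOpen (far R) := isOpen_lt continuous_const continuous_norm

lemma contHeight : Continuous height := by unfold height; fun_prop

namespace Setup

variable (S : Setup)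

lemma sqrt_pos (x : Space) : 0 < Real.sqrt (S.n x) := Real.sqrt_pos.2 (S.data.positive x)

/-- `Δn` is bounded on bounded parts of the far region. -/
lemma lap_bdd (R : ℝ) : ∃ B : ℝ, ∀ᵐ x, x ∈ far S.R₁ → ‖x‖ ≤ R → |S.ln x| ≤ B := by
  have hR₀ : 1 ≤ S.R₀ := S.data.one_le
  obtain ⟨B, hB⟩ := (isCompact_Icc (a := S.R₀) (b := max R S.R₀)).exists_bound_of_continuousOn
    (f := fun r => tailG S.a S.k r) (by
      refine ContinuousOn.mul (continuousOn_id.rpow_const fun r hr => Or.inl ?_) (by fun_prop)
      exact (lt_of_lt_of_le zero_lt_one (hR₀.trans hr.1)).ne')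
  refine ⟨|S.C| * ((1 + |R|) * B) ^ 2, ?_⟩
  filter_upwards [S.data.lap_far] with x hx hfar hxR
  have h1 : S.R₀ ≤ ‖x‖ := S.R₀_le.trans (le_of_lt hfar)
  have h2 : |height x| ≤ |R| := by
    have h3 : |height x| ≤ ‖x‖ := by simpa [height] using PiLp.norm_apply_le x 2
    exact h3.trans (hxR.trans (le_abs_self R))
  have h4 := hB ‖x‖ ⟨h1, hxR.trans (le_max_left _ _)⟩
  rw [Real.norm_eq_abs] at h4
  have hB0 : 0 ≤ B := (abs_nonneg _).trans h4
  refine (hx h1).trans ((le_abs_self _).trans ?_)
  rw [abs_mul, abs_pow, abs_mul, abs_of_nonneg (by positivity : (0 : ℝ) ≤ 1 + |height x|)]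
  gcongr

lemma lap_memLp {z : Space} {r : ℝ} (h : ball z r ⊆ far S.R₁) :
    MemLp S.ln (ENNReal.ofReal 4) (volume.restrict (ball z r)) := by
  obtain ⟨B, hB⟩ := S.lap_bdd (‖z‖ + r)
  have : IsFiniteMeasure (volume.restrict (ball z r)) :=
    isFiniteMeasure_restrict.2 measure_ball_lt_top.ne
  refine MemLp.of_bound (S.data.poisson.2.1.mono_set (subset_univ _)).aestronglyMeasurable B
    ((ae_restrict_iff' measurableSet_ball).2 ?_)
  filter_upwards [hB] with x hx hxz
  refine hx (h hxz) ?_
  have := mem_ball_iff_norm.1 hxz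
  linarith [norm_le_norm_add_norm_sub z x, norm_sub_rev z x]

/-- `n` is continuously differentiable in the far region. -/
lemma c1_n : ContDiffOn ℝ 1 S.n (far S.R₁) := by
  intro z hz
  obtain ⟨r, hr, hrU⟩ := Metric.isOpen_iff.1 (isOpen_far S.R₁) z hz
  obtain ⟨α, -, hα⟩ := Yuk.localC1 4 (by norm_num)
  obtain ⟨C, hC⟩ := hα (r / 2) r (by linarith) (by linarith)
  obtain ⟨g, hg, hng, -⟩ := hC z S.n S.ln (S.data.poisson.mono (subset_univ _))
    S.data.integrable.integrableOn (S.lap_memLp hrU)
  have heq : EqOn S.n g (ball z (r / 2)) := Measure.eqOn_open_of_ae_eq hng isOpen_ball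
    S.data.continuous.continuousOn hg.continuous.continuousOn
  exact ((hg.contDiffAt).congr_of_eventuallyEq
    (heq.eventuallyEq_of_mem (ball_mem_nhds z (by linarith)))).contDiffWithinAt

/-- `√n` is continuously differentiable in the far region. -/
theorem c1_sqrt : ContDiffOn ℝ 1 (fun x => Real.sqrt (S.n x)) (far S.R₁) :=
  S.c1_n.sqrt fun x _ => (S.data.positive x).ne'

lemma gn_eq : ∀ᵐ x, x ∈ far S.R₁ → ∀ a, S.gn a x = deriv3 a S.n x := by
  have h := fun a => (ae_restrict_iff' (isOpen_far S.R₁).measurableSet).1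
    ((S.data.hasGrad.mono (subset_univ _)).unique (isOpen_far S.R₁)
      (HasWeakGrad.of_contDiffOn (isOpen_far S.R₁) S.c1_n) a)
  filter_upwards [ae_all_iff.2 h] with x hx hm a using hx a hm

lemma locallyIntegrableOn_sqrtLap :
    LocallyIntegrableOn (fun x => 2 * (S.X x + farPot S.a S.k ‖x‖) * Real.sqrt (S.n x))
      (far S.R₁) := by
  have hU := isOpen_far S.R₁
  have hn := S.data.continuous
  have hpos : ∀ x, Real.sqrt (S.n x) ≠ 0 := fun x => (S.sqrt_pos x).ne'
  have h1 : LocallyIntegrableOn (fun x => S.ln x * (1 / (2 * Real.sqrt (S.n x)))) (far S.R₁) :=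
    (S.data.poisson.2.1.mono_set (subset_univ _)).mul_continuousOn
      ((Continuous.div continuous_const (by fun_prop) fun x =>
        mul_ne_zero two_ne_zero (hpos x)).continuousOn) hU.isLocallyClosed
  have h2 : LocallyIntegrableOn
      (fun x => (∑ a, deriv3 a S.n x ^ 2) * (1 / (4 * S.n x * Real.sqrt (S.n x)))) (far S.R₁) :=
    ((continuousOn_finsetSum _ fun a _ => (continuousOn_deriv3 hU S.c1_n a).pow 2).mul
      ((Continuous.div continuous_const (by fun_prop) fun x =>
        mul_ne_zero (mul_ne_zero four_ne_zero (S.data.positive x).ne') (hpos x)).continuousOn)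
      ).locallyIntegrableOn hU.measurableSet
  refine (h1.sub h2).congr ((ae_restrict_iff' hU.measurableSet).2 ?_)
  filter_upwards [S.gn_eq] with x hg hx
  have hs := hpos x
  have hsq := Real.sq_sqrt (S.data.positive x).le
  simp only [Pi.sub_apply, Setup.X, sqrtDefect, fun a => hg hx a]
  generalize Real.sqrt (S.n x) = s at hs hsq ⊢
  rw [← hsq]
  field_simp
  ring

end Setup

/-- The weak Laplacian of `√n`. -/
theorem sqrtStmt : SqrtStmt := by
  intro S
  have hU := isOpen_far S.R₁
  refine weakPoisson_of_green hU S.c1_sqrt S.locallyIntegrableOn_sqrtLap fun η hη => ?_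
  set q : Space → ℝ := fun x => 1 / (2 * Real.sqrt (S.n x)) with hq
  have hqc : ContDiffOn ℝ 1 q (far S.R₁) :=
    contDiffOn_const.div (contDiffOn_const.mul S.c1_sqrt)
      fun x _ => mul_ne_zero two_ne_zero (S.sqrt_pos x).ne'
  have hw : IsC1Test (far S.R₁) fun x => q x * η x := IsC1Test.mul hU hqc hη.isC1Test
  have hg := (S.data.poisson.mono (subset_univ _)).green hU S.c1_n hw
  set k : Space → ℝ := fun x => (∑ a, deriv3 a S.n x ^ 2) / (4 * S.n x * Real.sqrt (S.n x))
  have hk : ContinuousOn k (far S.R₁) :=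
    (continuousOn_finsetSum _ fun a _ => (continuousOn_deriv3 hU S.c1_n a).pow 2).div
      (by have := S.data.continuous; fun_prop)
      fun x _ => mul_ne_zero (mul_ne_zero four_ne_zero (S.data.positive x).ne') (S.sqrt_pos x).ne'
  have key : ∀ x, gradDot (fun y => Real.sqrt (S.n y)) η x =
      gradDot S.n (fun y => q y * η y) x + k x * η x := by
    intro x
    by_cases hx : x ∈ tsupport η
    · have hxU := hη.supp hx
      have dn := differentiableAt_of_c1 hU S.c1_n hxU
      have hn0 := (S.data.positive x).ne'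
      have hs := (S.sqrt_pos x).ne'
      have e1 : ∀ a, deriv3 a (fun y => Real.sqrt (S.n y)) x =
          deriv3 a S.n x / (2 * Real.sqrt (S.n x)) := fun a => by
        rw [deriv3, fderiv_sqrt dn hn0, smul_apply, deriv3, smul_eq_mul]
        ring
      have e2 : ∀ a, deriv3 a q x = -(deriv3 a S.n x) / (4 * S.n x * Real.sqrt (S.n x)) := by
        intro a
        have h : DifferentiableAt ℝ (fun y => 2 * Real.sqrt (S.n y)) x := (dn.sqrt hn0).const_mul 2
        have h2 : HasFDerivAt q ((-(2 * Real.sqrt (S.n x)) ^ 2)⁻¹ •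
            fderiv ℝ (fun y => 2 * Real.sqrt (S.n y)) x) x := by
          simp only [hq, one_div]
          exact (hasDerivAt_inv (mul_ne_zero two_ne_zero hs)).comp_hasFDerivAt x h.hasFDerivAt
            |>.congr_fderiv (by simp)
        rw [deriv3, h2.fderiv, fderiv_const_mul (dn.sqrt hn0) 2]
        simp only [smul_apply, smul_eq_mul]
        rw [show (fderiv ℝ (fun y => Real.sqrt (S.n y)) x) (unit3 a) =
          deriv3 a S.n x / (2 * Real.sqrt (S.n x)) from e1 a]
        have hsq := Real.sq_sqrt (S.data.positive x).le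
        field_simp
        rw [hsq]
        ring
      simp only [gradDot, e1, k, Finset.sum_div, Finset.sum_mul, ← Finset.sum_add_distrib,
        fun a => deriv3_mul (differentiableAt_of_c1 hU hqc hxU) (hη.differentiable x) a, e2]
      refine Finset.sum_congr rfl fun a _ => ?_
      simp only [hq]
      field_simp
      ring
    · simp [gradDot, deriv3_eq_zero_of_notMem _ hx, image_eq_zero_of_notMem_tsupport hx,
        fun a => deriv3_eq_zero_of_notMem (η := fun y => q y * η y) a
          (fun h => hx (tsupport_mul_subset_right h))]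
  have ik : Integrable fun x => k x * η x := integrable_mul_of_tsupport
    (hk.locallyIntegrableOn hU.measurableSet) hη.smooth.continuous hη.compact hη.supp
  have il : Integrable fun x => S.ln x * (q x * η x) := integrable_mul_of_tsupport
    (S.data.poisson.2.1.mono_set (subset_univ _)) hw.smooth.continuous hw.compact hw.supp
  have il' : Integrable fun x => -(S.ln x * (q x * η x)) := il.neg
  simp only [key]
  rw [integral_add (integrable_gradDot hU S.c1_n hw) ik, hg, ← integral_neg,
    ← integral_add il' ik, ← integral_neg]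
  refine integral_congr_ae ?_
  filter_upwards [S.gn_eq] with x hgx
  by_cases hx : x ∈ far S.R₁
  · have hn0 := (S.data.positive x).ne'
    have hs := (S.sqrt_pos x).ne'
    have hsq := Real.sq_sqrt (S.data.positive x).le
    simp only [Setup.X, sqrtDefect, fun a => hgx hx a, hq, k]
    generalize Real.sqrt (S.n x) = s at hs hsq ⊢
    rw [← hsq]
    field_simp
    ring
  · simp [hη.eq_zero hx]

end Vale.Agent.P363.Ext
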