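import Vale.Agent.P363.Ext.Heat.Jump
import Vale.Agent.P363.Ext.Heat.Singular
import Vale.Agent.P363.Ext.Heat.Flux
import Vale.Agent.P363.Ext.Heat.Node

/-!
P363, exterior argument: the heat-potential module. `Heat.Spec` states it; proved here are
`polarInv`, `cutRule`, `jump`, `halfJump`, `kernSol`, `moments`, `oddKernel`, `potProps`, `dual`,
`far`, `allTimes`, `singular`, `flux`, `avg`, `taylor` and `node`.
-/
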