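import Vale.Agent.P363.Ext.Geometry
import Vale.Agent.P363.Tool.YukLocal

/-!
P363, Kohn-Sham side: a smooth radial cut-off at the scale `ρ` and differences of the cut Newton
kernel between nearby centres.
-/

noncomputable section

namespace Vale.Agent.P363.Ext

open MeasureTheory Metric Set
open scoped BigOperators Topology ContDiff

/-- The cut-off: `1` up to `ρ / 2` and `0` from `ρ` on. -/
def cutProf (ρ t : ℝ) : ℝ := Real.smoothTransition (2 - 2 * t / ρ)

/-- The truncated singular kernel at distance `d` for centres at distance `z`. -/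
def mz (z d : ℝ) : ℝ := min d⁻¹ (z * (d ^ 2)⁻¹)

lemma contDiff_cutProf (ρ : ℝ) : ContDiff ℝ ∞ (cutProf ρ) := by
  unfold cutProf
  exact Real.smoothTransition.contDiff.comp (by fun_prop)

lemma cutProf_zero (ρ : ℝ) : cutProf ρ 0 = 1 :=
  Real.smoothTransition.one_of_one_le (by simp)

lemma cutProf_of_ge {ρ t : ℝ} (hρ : 0 < ρ) (h : ρ ≤ t) : cutProf ρ t = 0 := by
  refine Real.smoothTransition.zero_of_nonpos ?_
  rw [sub_nonpos, le_div_iff₀ hρ]; linarith

lemma cutProf_of_le {ρ t : ℝ} (hρ : 0 < ρ) (h : t ≤ ρ / 2) : cutProf ρ t = 1 := by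
  refine Real.smoothTransition.one_of_one_le ?_
  have : 2 * t / ρ ≤ 1 := by rw [div_le_one hρ]; linarith
  linarith

lemma abs_cutProf_le (ρ t : ℝ) : |cutProf ρ t| ≤ 1 := by
  unfold cutProf
  rw [abs_of_nonneg (Real.smoothTransition.nonneg _)]
  exact Real.smoothTransition.le_one _

lemma cutProf_lipschitz :
    ∃ L : ℝ, 0 ≤ L ∧ ∀ ρ s t : ℝ, 0 < ρ → |cutProf ρ s - cutProf ρ t| ≤ L * |s - t| / ρ := by
  obtain ⟨K, hK⟩ := (Real.smoothTransition.contDiff (n := 1)).contDiffOn.exists_lipschitzOnWith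
    (by norm_num) (convex_Icc (0 : ℝ) 1) isCompact_Icc
  refine ⟨2 * K, by positivity, fun ρ s t hρ => ?_⟩
  have hp : ∀ x : ℝ, Real.smoothTransition x =
      Real.smoothTransition (projIcc 0 1 zero_le_one x) := fun x =>
    (Real.smoothTransition.projIcc (x := x)).symm
  unfold cutProf
  rw [hp (2 - 2 * s / ρ), hp (2 - 2 * t / ρ), ← Real.dist_eq]
  refine (hK.dist_le_mul _ (Subtype.prop _) _ (Subtype.prop _)).trans ?_
  have h2 := (LipschitzWith.projIcc (zero_le_one' ℝ)).dist_le_mul (2 - 2 * s / ρ) (2 - 2 * t / ρ)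
  rw [NNReal.coe_one, one_mul, Subtype.dist_eq] at h2
  refine (mul_le_mul_of_nonneg_left h2 K.coe_nonneg).trans ?_
  rw [Real.dist_eq, show 2 - 2 * s / ρ - (2 - 2 * t / ρ) = (-2 / ρ) * (s - t) by ring, abs_mul,
    abs_div, abs_neg, abs_two, abs_of_pos hρ]
  exact le_of_eq (by ring)

lemma mz_nonneg {z d : ℝ} (hz : 0 ≤ z) (hd : 0 ≤ d) : 0 ≤ mz z d :=
  le_min (by positivity) (by positivity)

/-- The cut Newton kernel differs by the truncated singular kernels. -/
lemma abs_kerK_sub_le :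
    ∃ C : ℝ, 0 ≤ C ∧ ∀ (ρ z : ℝ), 0 < ρ → 0 ≤ z → z ≤ ρ → ∀ u w : Space, u ≠ 0 → w ≠ 0 →
      dist u w ≤ z → |kerK 0 (cutProf ρ) u - kerK 0 (cutProf ρ) w| ≤
        C * ((ball 0 (3 * ρ)).indicator (fun y => mz z ‖y‖) u +
          (ball 0 (3 * ρ)).indicator (fun y => mz z ‖y‖) w) := by
  obtain ⟨L, hL, hlip⟩ := cutProf_lipschitz
  refine ⟨1 + 2 * L, by positivity, fun ρ z hρ hz hzρ u w hu hw huw => ?_⟩
  have hd : 0 < ‖u‖ := norm_pos_iff.2 hu
  have he : 0 < ‖w‖ := norm_pos_iff.2 hw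
  have hde : |‖u‖ - ‖w‖| ≤ z :=
    (abs_norm_sub_norm_le u w).trans (by rwa [← dist_eq_norm])
  have hnn : ∀ y : Space, 0 ≤ (ball 0 (3 * ρ)).indicator (fun y => mz z ‖y‖) y :=
    indicator_nonneg fun y _ => mz_nonneg hz (norm_nonneg _)
  by_cases hout : ρ ≤ ‖u‖ ∧ ρ ≤ ‖w‖
  · rw [kerK, kerK, cutProf_of_ge hρ hout.1, cutProf_of_ge hρ hout.2]
    simp only [zero_mul, sub_self, abs_zero]
    exact mul_nonneg (by positivity) (add_nonneg (hnn u) (hnn w))
  have h' := abs_le.1 hde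
  have hu2 : ‖u‖ < 2 * ρ ∧ ‖w‖ < 2 * ρ := by
    rcases not_and_or.1 hout with h | h <;>
      exact ⟨by linarith [not_le.1 h, h'.1, h'.2], by linarith [not_le.1 h, h'.1, h'.2]⟩
  rw [indicator_of_mem (by simpa using hu2.1.trans (by linarith)),
    indicator_of_mem (by simpa using hu2.2.trans (by linarith))]
  set d := ‖u‖
  set e := ‖w‖
  have hA : |cutProf ρ d * (d⁻¹ - e⁻¹)| ≤ mz z d + mz z e := by
    rw [abs_mul]
    exact (mul_le_of_le_one_left (abs_nonneg _) (abs_cutProf_le _ _)).trans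
      (abs_inv_sub_inv_le hd he hde)
  have hB : |(cutProf ρ d - cutProf ρ e) * e⁻¹| ≤ 2 * L * mz z e := by
    rw [abs_mul, abs_inv, abs_of_pos he, mz, mul_min_of_nonneg _ _ (by positivity)]
    have hl : |cutProf ρ d - cutProf ρ e| ≤ L * z / ρ :=
      (hlip ρ d e hρ).trans (div_le_div_of_nonneg_right (mul_le_mul_of_nonneg_left hde hL) hρ.le)
    refine le_min ?_ ?_
    · refine mul_le_mul_of_nonneg_right (hl.trans ?_) (by positivity)
      rw [div_le_iff₀ hρ]
      nlinarith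
    · refine (mul_le_mul_of_nonneg_right hl (by positivity)).trans ?_
      rw [div_mul_eq_mul_div, div_le_iff₀ hρ]
      have e1 : e⁻¹ = e * (e ^ 2)⁻¹ := by field_simp
      rw [e1]
      have : 0 ≤ L * z * (e ^ 2)⁻¹ := by positivity
      nlinarith [hu2.2]
  have hsplit : kerK 0 (cutProf ρ) u - kerK 0 (cutProf ρ) w =
      (4 * Real.pi)⁻¹ * (cutProf ρ d * (d⁻¹ - e⁻¹) + (cutProf ρ d - cutProf ρ e) * e⁻¹) := by
    simp only [kerK, yuk, zero_mul, neg_zero, Real.exp_zero, one_div, mul_inv]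
    ring
  rw [hsplit, abs_mul]
  have hπ : |(4 * Real.pi)⁻¹| ≤ 1 := by
    rw [abs_of_nonneg (by positivity)]
    exact inv_le_one_of_one_le₀ (by linarith [Real.pi_gt_three])
  refine (mul_le_of_le_one_left (abs_nonneg _) hπ).trans ((abs_add_le _ _).trans ?_)
  nlinarith [mz_nonneg hz hd.le, mz_nonneg hz he.le]

/-- The weight of the cut Newton kernel is smooth with compact support. -/
lemma contDiff_kerW {ρ : ℝ} (hρ : 0 < ρ) : ContDiff ℝ 3 (kerW 0 (cutProf ρ)) := by
  have h1 : ContDiff ℝ ∞ (deriv (deriv (cutProf ρ))) :=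
    (contDiff_infty_iff_deriv.1 (contDiff_infty_iff_deriv.1 (contDiff_cutProf ρ)).2).2
  refine contDiff_iff_contDiffAt.2 fun y => ?_
  by_cases hy : y = 0
  · subst hy
    refine (contDiffAt_const (c := (0 : ℝ))).congr_of_eventuallyEq ?_
    filter_upwards [ball_mem_nhds (0 : Space) (half_pos hρ)] with w hw
    rw [mem_ball_zero_iff] at hw
    have e : deriv (cutProf ρ) =ᶠ[𝓝 ‖w‖] fun _ => 0 := by
      filter_upwards [eventually_lt_nhds hw] with s hs
      have e0 : cutProf ρ =ᶠ[𝓝 s] fun _ => 1 := by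
        filter_upwards [eventually_lt_nhds hs] with t ht using cutProf_of_le hρ ht.le
      rw [e0.deriv_eq]; simp
    simp [kerW, e.deriv_eq]
  · unfold kerW
    simp only [mul_zero, zero_mul, sub_zero]
    exact ((Yuk.contDiffAt_yuk_zero hy).of_le (by norm_cast)).mul
      (((h1.of_le (by norm_cast)).contDiffAt).comp y (contDiffAt_norm ℝ hy))

lemma kerW_eq_zero {ρ : ℝ} (hρ : 0 < ρ) {y : Space} (hy : ρ < ‖y‖) :
    kerW 0 (cutProf ρ) y = 0 := by
  have e0 : ∀ s, ρ < s → deriv (cutProf ρ) s = 0 := fun s hs => by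
    have : cutProf ρ =ᶠ[𝓝 s] fun _ => 0 := by
      filter_upwards [eventually_gt_nhds hs] with t ht using cutProf_of_ge hρ ht.le
    rw [this.deriv_eq]; simp
  have : deriv (cutProf ρ) =ᶠ[𝓝 ‖y‖] fun _ => 0 := by
    filter_upwards [eventually_gt_nhds hy] with s hs using e0 s hs
  simp [kerW, this.deriv_eq]

lemma hasCompactSupport_kerW {ρ : ℝ} (hρ : 0 < ρ) : HasCompactSupport (kerW 0 (cutProf ρ)) :=
  HasCompactSupport.intro (isCompact_closedBall (0 : Space) ρ) fun y hy =>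
    kerW_eq_zero hρ (by simpa using hy)

/-- Second differences of the weight along the axis direction. -/
lemma kerW_second_diff {ρ : ℝ} (hρ : 0 < ρ) :
    ∃ L : ℝ, 0 ≤ L ∧ ∀ (u : Space) (t : ℝ), 0 ≤ t →
      |kerW 0 (cutProf ρ) (u + t • unit3 2) + kerW 0 (cutProf ρ) (u + (-t) • unit3 2)
        - 2 * kerW 0 (cutProf ρ) u| ≤ L * t ^ 2 := by
  set W := kerW 0 (cutProf ρ)
  have hW : ContDiff ℝ 3 W := contDiff_kerW hρ
  obtain ⟨K, hK⟩ := ContDiff.lipschitzWith_of_hasCompactSupport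
    ((hasCompactSupport_kerW hρ).fderiv ℝ) (hW.fderiv_right (m := 1) (by norm_num)) one_ne_zero
  refine ⟨2 * K, by positivity, fun u t ht => ?_⟩
  have hg : ∀ s : ℝ, HasDerivAt (fun s : ℝ => W (u + s • unit3 2))
      (fderiv ℝ W (u + s • unit3 2) (unit3 2)) s := fun s => by
    have hl : HasDerivAt (fun s : ℝ => u + s • unit3 2) (unit3 2) s := by
      simpa using ((hasDerivAt_id s).smul_const (unit3 2)).const_add u
    exact ((hW.differentiable (by norm_num)) _).hasFDerivAt.comp_hasDerivAt s hl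
  have hL : ∀ a b : ℝ, |fderiv ℝ W (u + a • unit3 2) (unit3 2) -
      fderiv ℝ W (u + b • unit3 2) (unit3 2)| ≤ (K : ℝ) * |a - b| := fun a b => by
    have h1 := hK.dist_le_mul (u + a • unit3 2) (u + b • unit3 2)
    rw [dist_add_left, dist_eq_norm, dist_eq_norm, ← sub_smul, norm_smul, norm_unit, mul_one,
      Real.norm_eq_abs] at h1
    rw [← sub_apply, ← Real.norm_eq_abs]
    refine (ContinuousLinearMap.le_opNorm _ _).trans ?_
    rw [norm_unit, mul_one]
    exact h1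
  simpa using abs_second_diff_le hg hL ht

end Vale.Agent.P363.Ext
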