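import Vale.Agent.P363.Ext.Spec
import Vale.Agent.P363.KS.Form
import Vale.Agent.P363.KS.Structure.Main
import Vale.Agent.P363.Ext.Sectors.NoAlt
import Vale.Agent.P363.Ext.Sectors.Sums

/-!
P363: a representation of a nodal-plane density provides a setup (`SectorsStmt`).
-/

noncomputable section

namespace Vale.Agent.P363.Ext

open MeasureTheory Filter Set Vale.Agent.P363.Top
open scoped BigOperators Topology Real ENNReal

variable {P : Finset Space} {v φ₀ : Space → ℝ} {e₀ μ : ℝ}

/-- The three profiles of a state. -/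
def sectorFun (u : Space → ℝ) : Fin 3 → Space → ℝ :=
  ![part0 u, profile u, profile fun y => u (rot (π / 2) y)]

/-- Their weights. -/
def sectorWt : Fin 3 → ℝ := ![1, (√2)⁻¹, (√2)⁻¹]

/-- Their centrifugal constants. -/
def sectorNu : Fin 3 → ℝ := ![0, 1 / 2, 1 / 2]

lemma sectorFun_cases (u : Space → ℝ) (i : Fin 3) (hu : Eig P v φ₀ e₀ μ u)
    (L : SymLevel P v φ₀ e₀ μ) (he : ∀ x, u (mirror x) = u x) :
    AxialSym (sectorFun u i) ∧ ContDiffOn ℝ 1 (sectorFun u i) offAxis ∧
      WeakPoisson offAxis (sectorFun u i)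
        (fun x => 2 * (v x - μ + centrifugal (sectorNu i) x) * sectorFun u i x) ∧
      ∀ σ (s : Fin 4 → ℝ), StrictMono s → 0 ≤ s 0 → ¬ Alternates (sectorFun u i) σ s := by
  have hq := hu.comp_rot L (π / 2)
  have heq : ∀ x, u (rot (π / 2) (mirror x)) = u (rot (π / 2) x) := fun x => by
    rw [← mirror_rot, he]
  fin_cases i
  · refine ⟨⟨part0_rot hu L, part0_mirror he⟩, (hu.part0_eig L).contDiffOn_offAxis L, ?_,
      not_alternates_part0 hu L he⟩
    simpa [sectorFun, sectorNu, centrifugal] using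
      (hu.part0_eig L).weakPoisson.mono (subset_univ offAxis)
  · exact ⟨⟨profile_rot hu L, profile_mirror he⟩, contDiffOn_profile hu L,
      weakPoisson_profile hu L, not_alternates_profile hu L he⟩
  · exact ⟨⟨profile_rot hq L, profile_mirror heq⟩, contDiffOn_profile hq L,
      weakPoisson_profile hq L, not_alternates_profile hq L heq⟩

lemma sectorFun_sq (u : Space → ℝ) (x : Space) (hu : Eig P v φ₀ e₀ μ u)
    (L : SymLevel P v φ₀ e₀ μ) (hx : x ∈ offAxis) :
    ∑ i, (sectorWt i * sectorFun u i x) ^ 2 =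
      (u x ^ 2 + u (rot (π / 2) x) ^ 2 + u (rot π x) ^ 2 + u (rot (π + π / 2) x) ^ 2) / 4 := by
  rw [mean_sq_eq hu L hx]
  simp [Fin.sum_univ_three, sectorFun, sectorWt, mul_pow]
  ring

lemma belt_subset_offAxis (R : ℝ) : belt R ⊆ offAxis := fun x hx => by
  obtain ⟨-, hx⟩ := hx
  have h := EuclideanSpace.norm_sq_eq x
  simp only [Fin.sum_univ_three, Real.norm_eq_abs, sq_abs] at h
  have hh : (2 * |x 2|) ^ 2 < ‖x‖ ^ 2 := pow_lt_pow_left₀ hx (by positivity) two_ne_zero
  show 0 < x 0 ^ 2 + x 1 ^ 2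
  rw [mul_pow, sq_abs] at hh
  nlinarith [sq_nonneg (x 2)]

variable {Q : Finset Space} {f : ℕ → Space → ℝ} {n ln φu : Space → ℝ}

/-- The profiles of the orbitals, indexed by orbital and sector. -/
def sectorPsi (f : ℕ → Space → ℝ) (p : ℕ × Fin 3) (x : Space) : ℝ :=
  sectorWt p.2 * sectorFun (evenPart (f p.1)) p.2 x

lemma rot_mem_offAxis {x : Space} (hx : x ∈ offAxis) (θ : ℝ) : rot θ x ∈ offAxis := by
  have h := axDist_pos hx
  rw [← axDist_rot θ x] at h
  exact Real.sqrt_pos.1 h

lemma mirror_mem_offAxis {x : Space} (hx : x ∈ offAxis) : mirror x ∈ offAxis := by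
  simpa [offAxis] using hx

/-- The even parts add up to the remaining density. -/
lemma hasSum_even (L : SymLevel Q v φ₀ e₀ μ) (R : RegularShells Q v φ₀ e₀ μ f n ln)
    (hn : Continuous n) (hns : AxialSym n) (h₀ : AxialSym φ₀)
    (husum : ∀ x, HasSum (fun j => oddPart (f j) x ^ 2) (φu x ^ 2)) {x : Space}
    (hx : x ∈ offAxis) :
    HasSum (fun j => evenPart (f j) x ^ 2) (n x - 2 * φ₀ x ^ 2 - φu x ^ 2) := by
  have h2 := R.hasSum_sq hn (notMem_of_offAxis L (mirror_mem_offAxis hx))
  rw [hns.2, h₀.2] at h2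
  have h := (((R.hasSum_sq hn (notMem_of_offAxis L hx)).add h2).div_const 2).sub (husum x)
  rw [show n x - 2 * φ₀ x ^ 2 - φu x ^ 2 =
    ((n x - 2 * φ₀ x ^ 2) + (n x - 2 * φ₀ x ^ 2)) / 2 - φu x ^ 2 by ring]
  exact h.congr_fun fun j => by simp only [evenPart, oddPart]; ring

/-- The profiles add up to the remaining density. -/
lemma hasSum_sectorPsi (L : SymLevel Q v φ₀ e₀ μ) (hf : ∀ j, Eig Q v φ₀ e₀ μ (f j))
    (R : RegularShells Q v φ₀ e₀ μ f n ln)
    (hn : Continuous n) (hns : AxialSym n) (h₀ : AxialSym φ₀)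
    (hurot : ∀ θ x, φu (rot θ x) = φu x)
    (husum : ∀ x, HasSum (fun j => oddPart (f j) x ^ 2) (φu x ^ 2)) {x : Space}
    (hx : x ∈ offAxis) :
    HasSum (fun p => sectorPsi f p x ^ 2) (n x - 2 * φ₀ x ^ 2 - φu x ^ 2) := by
  set T := n x - 2 * φ₀ x ^ 2 - φu x ^ 2 with hT
  have hr : ∀ θ, HasSum (fun j => evenPart (f j) (rot θ x) ^ 2) T := fun θ => by
    simpa only [hns.1, h₀.1, hurot] using
      hasSum_even L R hn hns h₀ husum (rot_mem_offAxis hx θ)
  have hfib : HasSum (fun j => ∑ i, sectorPsi f (j, i) x ^ 2) T := by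
    have h := ((((hasSum_even L R hn hns h₀ husum hx).add (hr (π / 2))).add (hr π)).add
      (hr (π + π / 2))).div_const 4
    rw [show T = (T + T + T + T) / 4 by ring]
    exact h.congr_fun fun j => sectorFun_sq _ _ ((hf j).evenPart_eig L) L hx
  have hs : Summable fun p : ℕ × Fin 3 => sectorPsi f p x ^ 2 :=
    (summable_prod_of_nonneg fun p => sq_nonneg (sectorPsi f p x)).2
      ⟨fun j => (hasSum_fintype _).summable, by simpa only [tsum_fintype] using hfib.summable⟩
  rw [← (hs.hasSum.prod_fiberwise fun j => hasSum_fintype _).unique hfib]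
  exact hs.hasSum

lemma sectorPsi_prop (L : SymLevel Q v φ₀ e₀ μ) (hf : ∀ j, Eig Q v φ₀ e₀ μ (f j))
    (p : ℕ × Fin 3) :
    AxialSym (sectorPsi f p) ∧ ContDiffOn ℝ 1 (sectorPsi f p) offAxis ∧
      WeakPoisson offAxis (sectorPsi f p)
        (fun x => 2 * (v x - μ + centrifugal (sectorNu p.2) x) * sectorPsi f p x) ∧
      ∀ σ (s : Fin 4 → ℝ), StrictMono s → 0 ≤ s 0 → ¬ Alternates (sectorPsi f p) σ s := by
  obtain ⟨j, i⟩ := p
  obtain ⟨h1, h2, h3, h4⟩ :=
    sectorFun_cases (evenPart (f j)) i ((hf j).evenPart_eig L) L (evenPart_mirror _)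
  refine ⟨⟨fun θ x => by simp [sectorPsi, h1.1], fun x => by simp [sectorPsi, h1.2]⟩,
    contDiffOn_const.mul h2, ?_, fun σ s hs h0 => not_alternates_const_mul
      (fun σ' => h4 σ' s hs h0) _ σ⟩
  convert h3.const_mul (sectorWt i) using 1
  · rfl
  · funext x
    simp only [sectorPsi]
    ring

/-- The equation of the ground orbital. -/
lemma weakPoisson_ground (R : RegularShells Q v φ₀ e₀ μ f n ln) :
    WeakPoisson univ φ₀ fun x => 2 * (v x - μ + (μ - e₀)) * φ₀ x := by
  obtain ⟨F₀, hF₀⟩ := R.shells.level.ground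
  have hlev : Top.SecondLevel v φ₀ e₀ e₀ := by
    refine ⟨R.shells.level.loc, R.shells.level.pot, ⟨F₀, hF₀⟩, R.shells.level.pos,
      fun g G hg h0 => ?_⟩
    have : Top.bil v e₀ g G g G = Top.bil v μ g G g G + (μ - e₀) * ∫ x, g x ^ 2 := by
      simp only [Top.bil]
      rw [← integral_const_mul, ← integral_add
        (f := fun x => (1 / 2 : ℝ) * ∑ a, G a x * G a x + (v x - μ) * g x * g x)]
      · congr 1; funext x; ring
      · refine ((integrable_finsetSum _ fun a _ =>
          (hg.memLp_grad a).integrable_mul (hg.memLp_grad a)).const_mul _).add ?_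
        have h2 := (R.shells.level.pot g G hg).sub (hg.memLp.integrable_sq.const_mul μ)
        refine h2.congr (.of_forall fun x => ?_)
        simp only [Pi.sub_apply]; ring
      · exact hg.memLp.integrable_sq.const_mul _
    rw [this]
    exact add_nonneg (R.shells.level.le g G hg h0)
      (mul_nonneg (sub_pos.2 R.shells.gap).le (integral_nonneg fun x => sq_nonneg _))
  simpa only [show ∀ x, v x - μ + (μ - e₀) = v x - e₀ from fun x => by ring] using
    hF₀.weakPoisson hlev R.cont₀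

/-- The pointwise bound of the odd and ground orbitals. -/
lemma shells_le_density (R : RegularShells Q v φ₀ e₀ μ f n ln) (hns : AxialSym n)
    (h₀ : AxialSym φ₀) (husum : ∀ x, HasSum (fun j => oddPart (f j) x ^ 2) (φu x ^ 2))
    (x : Space) : 2 * φ₀ x ^ 2 + φu x ^ 2 ≤ n x := by
  have h : φu x ^ 2 ≤ n x - 2 * φ₀ x ^ 2 := le_of_tendsto (husum x) (.of_forall fun s => by
    calc ∑ j ∈ s, oddPart (f j) x ^ 2 ≤ ∑ j ∈ s, (f j x ^ 2 + f j (mirror x) ^ 2) / 2 :=
          Finset.sum_le_sum fun j _ => by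
            simp only [oddPart]
            nlinarith [sq_nonneg (f j x + f j (mirror x))]
      _ ≤ _ := by
        rw [← Finset.sum_div, Finset.sum_add_distrib]
        have h1 := R.sum_le x s
        have h2 := R.sum_le (mirror x) s
        rw [hns.2, h₀.2] at h2
        linarith)
  linarith

/-- The symmetric setting of regular shells. -/
lemma symLevel_of_shells (hM : StructureSpec.MoveStmt) {P : Finset Space}
    (R : RegularShells (axisPts P) v φ₀ e₀ μ f n ln) (hva : AxialSym v) :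
    SymLevel (axisPts P) v φ₀ e₀ μ ∧ AxialSym φ₀ ∧ (∀ x, 0 ≤ φ₀ x) ∧
      ∀ j, Eig (axisPts P) v φ₀ e₀ μ (f j) := by
  have hφ : ∀ b θ x, φ₀ (axIso b θ x) = φ₀ x := fun b θ => congrFun
    (Measure.eq_of_ae_eq (hM v φ₀ e₀ μ f _ (axIso b θ) R.shells
      (.of_forall fun x => by cases b <;> simp [axMap, hva.1, hva.2])).1
      (R.cont₀.comp (axIso b θ).continuous) R.cont₀)
  refine ⟨⟨R.shells.level, R.upper, fun p => axisPts_axis, fun p => axisPts_mirror, hva,
      fun T hT g G hG => (hM v φ₀ e₀ μ f _ T R.shells (.of_forall hT)).2 g G hG⟩,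
    ⟨fun θ x => by simpa [axMap] using hφ false θ x,
      fun x => by simpa [axMap, rot_zero_angle] using hφ true 0 x⟩, fun x => ?_, fun j => ?_⟩
  · have h := Measure.eq_of_ae_eq (μ := (volume : Measure Space))
      (f := fun x => max (φ₀ x) 0) (g := φ₀)
      (R.shells.level.pos.mono fun y hy => max_eq_left hy.le)
      (R.cont₀.max continuous_const) R.cont₀
    rw [← congrFun h x]
    exact le_max_right _ _
  · obtain ⟨F, hF⟩ := R.shells.eigen j
    exact ⟨F, R.shells.level, R.upper, hF, R.cont j, R.c1 j⟩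

lemma sectorNu_mem (i : Fin 3) : sectorNu i = 0 ∨ sectorNu i = 1 / 2 := by
  fin_cases i <;> simp [sectorNu]

/-- A representation of a nodal-plane density provides a setup. -/
theorem sectors_of (hS : FormSpec.SymmetriseStmt) (hSh : StructureSpec.ShellsStmt)
    (hM : StructureSpec.MoveStmt) (hR : RegularitySpec.RegularityStmt) : SectorsStmt := by
  intro n hn hrep
  obtain ⟨a, k, R₀, c, C, gn, ln, data⟩ := hn
  obtain ⟨v, w, Φ, hv, hvm, hva, hw, hg, hd⟩ := hS 2 (fun x => ENNReal.ofReal (n x))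
    ⟨fun θ => .of_forall fun x => by simp only [data.axial.1],
      .of_forall fun x => by simp only [data.axial.2]⟩ hrep
  obtain ⟨φ₀', e₀, μ, f', hsh⟩ := hSh v w Φ _ hv hw hg hd
  obtain ⟨P, hP⟩ := densityReg_axis data
  obtain ⟨φ₀, f, -, -, R⟩ := hR _ v φ₀' e₀ μ f' n ln hv hP hsh
  obtain ⟨L, hsym₀, hnn₀, hf⟩ := symLevel_of_shells hM R hva
  obtain ⟨φu, hu, hurot, huodd, hunn, husum⟩ :=
    exists_oddOrbital L hf fun x => ⟨_, R.sum_le x⟩
  set R₁ := R₀ + ∑ p ∈ axisPts P, ‖p‖ with hR₁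
  have hfar : far R₁ ⊆ (↑(axisPts P) : Set Space)ᶜ := fun x (hx : R₁ < ‖x‖) hxQ => by
    have := Finset.single_le_sum (f := fun p : Space => ‖p‖) (fun p _ => norm_nonneg p) hxQ
    linarith [data.one_le]
  have c1u : ContDiffOn ℝ 1 φu (far R₁) := by
    obtain ⟨Fu, hFu⟩ := hu
    exact hFu.c1.mono hfar
  have hdef : ∀ᵐ x : Space, x ∈ far R₁ → v x - μ - farPot a k ‖x‖ ≤ sqrtDefect a k n gn ln x := by
    filter_upwards [R.pot_le gn data.hasGrad] with x hx _
    simp only [sqrtDefect]
    linarith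
  exact ⟨
    { n := n, a := a, k := k, R₀ := R₀, c := c, C := C, gn := gn, ln := ln, data := data
      v := v, μ := μ, gap := μ - e₀, φ₀ := φ₀, φu := φu
      ψ := fun m => sectorPsi f (Nat.divModEquiv 3 m)
      ν := fun m => sectorNu (Nat.divModEquiv 3 m).2
      R₁ := R₁
      R₀_le := le_add_of_nonneg_right (Finset.sum_nonneg fun p _ => norm_nonneg p)
      gap_pos := sub_pos.2 R.shells.gap
      inV := hv, meas_v := hvm, axial_v := hva, v_two := R.pot_two
      axial₀ := hsym₀, rot_u := hurot, odd_u := huodd, nonneg_u := hunn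
      axial_ψ := fun m => (sectorPsi_prop L hf _).1
      ν_mem := fun m => sectorNu_mem _
      nonneg₀ := hnn₀, cont₀ := R.cont₀, cont_u := hu.continuous
      cont_ψ := fun m => (sectorPsi_prop L hf _).2.1.continuousOn.mono (belt_subset_offAxis _)
      c1₀ := R.c1₀.mono hfar
      c1_u := c1u
      c1_ψ := fun m => (sectorPsi_prop L hf _).2.1.mono (belt_subset_offAxis _)
      eq₀ := (weakPoisson_ground R).mono (subset_univ _)
      eq_u := hu.weakPoisson.mono (subset_univ _)
      eq_ψ := fun m => (sectorPsi_prop L hf _).2.2.1.mono (belt_subset_offAxis _)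
      le_sum := shells_le_density R data.axial hsym₀ husum
      sum_eq := fun x hx => (Nat.divModEquiv 3).hasSum_iff.2
        (hasSum_sectorPsi L hf R data.continuous data.axial hsym₀ hurot husum
          (belt_subset_offAxis _ hx))
      defect_ge := hdef
      no_alt := fun m σ s hs h0 => (sectorPsi_prop L hf _).2.2.2 σ s hs h0 }, rfl⟩

/-- The same with the form and structure modules discharged. -/
theorem sectors_of_regularity (hR : RegularitySpec.RegularityStmt) : SectorsStmt :=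
  sectors_of FormSpec.symmetriseThm KS.shells KS.move hR

end Vale.Agent.P363.Ext
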