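import Vale.Agent.P363.Spec
import Vale.Agent.P363.Tool.Weak.Local

/-!
P363, Kohn-Sham side: everything the exterior argument uses about a hypothetical representation of
a nodal-plane density, and the polar calculus for axially symmetric functions.

With `r = ‖x‖` and `θ = height x / r` the measure of axially symmetric functions is
`2π r² dr dθ` and `Δ = ∂ᵣ² + (2/r) ∂ᵣ + r⁻² ∂_θ ((1 - θ²) ∂_θ)`. For `u = f / (r G)` the equation
`Δ f = h` becomes, tested with `ζ(r, θ)`, the identity `∫ u (Mζ) = ∫ ζ (h / (r G) - λ u)` with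
`λ = Δ(r G) / (r G) = 2 (G₀ + e₁)`.
-/

noncomputable section

namespace Vale.Agent.P363.Ext

open MeasureTheory Filter
open scoped BigOperators Topology

/-- The far region. -/
def far (R : ℝ) : Set Space := {x | R < ‖x‖}

/-- The far region away from the axis. -/
def belt (R : ℝ) : Set Space := {x | R < ‖x‖ ∧ 2 * |height x| < ‖x‖}

/-- The point of the meridian with radius `r` and `θ = z / r`. -/
def pt (r θ : ℝ) : Space := !₂[r * Real.sqrt (1 - θ ^ 2), 0, r * θ]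

/-- The reduced function `f / (r G)` on the meridian. -/
def red (a k : ℝ) (f : Space → ℝ) (r θ : ℝ) : ℝ := f (pt r θ) / (r * tailG a k r)

/-- The correction `e₁` in `Δ (r G) / (2 r G) = G₀ + e₁`. -/
def shift (a k r : ℝ) : ℝ := (k / a - 1) * (k / a) / (2 * r ^ 2)

/-- `∂_θ ((1 - θ²) ∂_θ ζ)`. -/
def angLap (ζ : ℝ → ℝ → ℝ) (r θ : ℝ) : ℝ :=
  deriv (fun t => (1 - t ^ 2) * deriv (ζ r) t) θ

/-- The transposed reduced operator `M`. -/
def polarOp (a k : ℝ) (ζ : ℝ → ℝ → ℝ) (r θ : ℝ) : ℝ :=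
  deriv (fun s => deriv (fun t => ζ t θ) s) r
    + (2 * a - 2 * (k / a) / r) * deriv (fun t => ζ t θ) r
    + 2 * (k / a) * ζ r θ / r ^ 2 + angLap ζ r θ / r ^ 2

/-- The centrifugal potential of a sector: `ν = 0` or `ν = 1 / 2`. -/
def centrifugal (ν : ℝ) (x : Space) : ℝ := ν / (x 0 ^ 2 + x 1 ^ 2)

/-- Sign pattern `+,-,+,-` (up to the sign `σ`) on four parabolas, for all large radii. -/
def Alternates (f : Space → ℝ) (σ : ℝ) (s : Fin 4 → ℝ) : Prop :=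
  ∀ᶠ r in atTop, ∀ i : Fin 4, 0 < σ * (-1) ^ (i : ℕ) * f (pt r (s i / Real.sqrt r))

/-- A nodal-plane density with the orbitals of a representation: `φ₀` at the level `μ - gap`, the
odd orbital `φu` and the even profiles `ψ j` (rotation invariant part of the sector, with its
centrifugal constant) at the level `μ`. -/
structure Setup where
  n : Space → ℝ
  a : ℝ
  k : ℝ
  R₀ : ℝ
  c : ℝ
  C : ℝ
  gn : Fin 3 → Space → ℝ
  ln : Space → ℝ
  data : NodalData n a k R₀ c C gn ln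
  v : Space → ℝ
  μ : ℝ
  gap : ℝ
  φ₀ : Space → ℝ
  φu : Space → ℝ
  ψ : ℕ → Space → ℝ
  ν : ℕ → ℝ
  R₁ : ℝ
  R₀_le : R₀ ≤ R₁
  gap_pos : 0 < gap
  inV : InV v
  meas_v : Measurable v
  axial_v : AxialSym v
  v_two : LocMemLp 2 Set.univ v
  axial₀ : AxialSym φ₀
  rot_u : ∀ θ x, φu (rot θ x) = φu x
  odd_u : ∀ x, φu (mirror x) = -φu x
  nonneg_u : ∀ x, 0 ≤ height x → 0 ≤ φu x
  axial_ψ : ∀ j, AxialSym (ψ j)
  ν_mem : ∀ j, ν j = 0 ∨ ν j = 1 / 2
  nonneg₀ : ∀ x, 0 ≤ φ₀ x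
  cont₀ : Continuous φ₀
  cont_u : Continuous φu
  cont_ψ : ∀ j, ContinuousOn (ψ j) (belt R₁)
  c1₀ : ContDiffOn ℝ 1 φ₀ (far R₁)
  c1_u : ContDiffOn ℝ 1 φu (far R₁)
  c1_ψ : ∀ j, ContDiffOn ℝ 1 (ψ j) (belt R₁)
  eq₀ : WeakPoisson (far R₁) φ₀ fun x => 2 * (v x - μ + gap) * φ₀ x
  eq_u : WeakPoisson (far R₁) φu fun x => 2 * (v x - μ) * φu x
  eq_ψ : ∀ j, WeakPoisson (belt R₁) (ψ j) fun x =>
    2 * (v x - μ + centrifugal (ν j) x) * ψ j x
  le_sum : ∀ x, 2 * φ₀ x ^ 2 + φu x ^ 2 ≤ n x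
  sum_eq : ∀ x ∈ belt R₁, HasSum (fun j => ψ j x ^ 2) (n x - 2 * φ₀ x ^ 2 - φu x ^ 2)
  defect_ge : ∀ᵐ x : Space, x ∈ far R₁ →
    v x - μ - farPot a k ‖x‖ ≤ sqrtDefect a k n gn ln x
  no_alt : ∀ j (σ : ℝ) (s : Fin 4 → ℝ), StrictMono s → 0 ≤ s 0 → ¬ Alternates (ψ j) σ s

namespace Setup

variable (S : Setup)

/-- The tail `G` at a point. -/
def G (x : Space) : ℝ := tailG S.a S.k ‖x‖

/-- The Kohn-Sham defect `W = v - μ - G₀`. -/
def W (x : Space) : ℝ := S.v x - S.μ - farPot S.a S.k ‖x‖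

/-- The defect `X = Δ√n / (2√n) - G₀`. -/
def X (x : Space) : ℝ := sqrtDefect S.a S.k S.n S.gn S.ln x

/-- The heat constant of `u = f / (r G)` in the time `τ = 1 / r`. -/
def κ : ℝ := 1 / (2 * S.a)

end Setup

end Vale.Agent.P363.Ext
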